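import Mathlib
import Vale.Agent.P153.Model.Lip
import Vale.Agent.P153.TwoPt.Defs

/-!
# P153, the plane theorem for the uniform Lipschitz model: interface

Vertex `(i, j) : ℤ × ℤ` is the point `i (1, 0) + j (1/2, √3/2)`; row `j` is `{(i, j)}`.
Internal normalisation: integer heights with steps at most one, `{0,1}` free on the boundary.
Final normalisation (of the problem): odd heights, steps at most two, `±1` on the boundary.
-/

namespace Vale.Agent.P153.GFF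

open MeasureTheory ProbabilityTheory Filter Topology

/-- Neighbours in the triangular lattice (same as `P153.Adj`). -/
def Adj (x y : ℤ × ℤ) : Prop :=
  (y.1 - x.1, y.2 - x.2) ∈
    ({(1, 0), (-1, 0), (0, 1), (0, -1), (1, -1), (-1, 1)} : Set (ℤ × ℤ))

/-- Reflection in row `0`. -/
def th (v : ℤ × ℤ) : ℤ × ℤ := (v.1 + v.2, -v.2)

/-- Rotation by 60 degrees about the origin. -/
def rot (v : ℤ × ℤ) : ℤ × ℤ := (-v.2, v.1 + v.2)

/-- Translation of a recentred field. -/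
def shift (t : ℤ × ℤ) (φ : ℤ × ℤ → ℤ) : ℤ × ℤ → ℤ := fun x => φ (x + t) - φ t

/-- The hexagon of radius `n`. -/
noncomputable def hexa (n : ℕ) : Finset (ℤ × ℤ) :=
  (Finset.Icc (-(n : ℤ)) n ×ˢ Finset.Icc (-(n : ℤ)) n).filter fun x => |x.1 + x.2| ≤ n

/-- Boundary condition of the finite region `D`: free in `{0,1}` at the vertices with a neighbour
outside `D`; the dummy value `0` off `D`. -/
def bc (D : Finset (ℤ × ℤ)) (v : ℤ × ℤ) : Set ℤ :=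
  {a | (v ∉ D → a = 0) ∧ ((∃ w, Adj v w ∧ w ∉ D) → a = 0 ∨ a = 1)}

/-- Heights on `D`. -/
def Ht (D : Finset (ℤ × ℤ)) : Set (ℤ × ℤ → ℤ) := Fv.Lp Adj (bc D)

/-- The event that the height differences in `B` are those of `a`. -/
def Pat (B : Finset (ℤ × ℤ)) (a : ℤ × ℤ → ℤ) : Set (ℤ × ℤ → ℤ) :=
  {φ | ∀ x ∈ B, ∀ y ∈ B, φ x - φ y = a x - a y}

/-- `P` is the local limit of the uniform measures on `Ht (D n)`, modulo constants. -/
def LocLim (P : Measure (ℤ × ℤ → ℤ)) (D : ℕ → Finset (ℤ × ℤ)) : Prop :=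
  ∀ (B : Finset (ℤ × ℤ)) (a : ℤ × ℤ → ℤ),
    Tendsto (fun n => ((Ht (D n) ∩ Pat B a).ncard : ℝ) / (Ht (D n)).ncard) atTop
      (𝓝 (P.real (Pat B a)))

/-- Gradient Gibbs property of the uniform model: two admissible patterns on `B` which agree off
`A` (all neighbours of `A` in `B`) are equally likely. -/
def Gibbs (P : Measure (ℤ × ℤ → ℤ)) : Prop :=
  ∀ (A B : Finset (ℤ × ℤ)) (a a' : ℤ × ℤ → ℤ), A ⊆ B → (∀ x ∈ A, ∀ y, Adj x y → y ∈ B) →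
    (∀ x ∈ B, ∀ y ∈ B, Adj x y → |a x - a y| ≤ 1) →
    (∀ x ∈ B, ∀ y ∈ B, Adj x y → |a' x - a' y| ≤ 1) → (∀ x ∈ B, x ∉ A → a x = a' x) →
    P (Pat B a) = P (Pat B a')

/-- Output of block A: the infinite-volume measure (without the strips). -/
structure Plane (P : Measure (ℤ × ℤ → ℤ)) : Prop where
  prob : IsProbabilityMeasure P
  zero : ∀ᵐ φ ∂P, φ 0 = 0
  lip : ∀ᵐ φ ∂P, ∀ x y, Adj x y → |φ x - φ y| ≤ 1
  shift : ∀ t, P.map (shift t) = P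
  rot : P.map (fun φ x => φ (rot x)) = P
  swap : P.map (fun φ x => φ (x.2, x.1)) = P
  rp : ∀ F : (ℤ × ℤ → ℤ) → ℝ, Measurable F → (∃ M, ∀ φ, |F φ| ≤ M) →
    (∀ φ ψ, (∀ x, 0 ≤ x.2 → φ x = ψ x) → F φ = F ψ) → 0 ≤ ∫ φ, F φ * F (fun x => φ (th x)) ∂P
  mix : ∀ (B : Finset (ℤ × ℤ)) (W W' : (ℤ × ℤ → ℤ) → ℝ), Measurable W → Measurable W' →
    (∃ M, ∀ φ, |W φ| ≤ M) → (∃ M, ∀ φ, |W' φ| ≤ M) →
    (∀ φ, W (-φ) = W φ) → (∀ φ, W' (-φ) = W' φ) →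
    (∀ φ ψ, (∀ x ∈ B, φ x = ψ x) → W φ = W ψ) → (∀ φ ψ, (∀ x ∈ B, φ x = ψ x) → W' φ = W' ψ) →
    Tendsto (fun t => ∫ φ, W φ * W' (GFF.shift t φ) ∂P) cofinite (𝓝 ((∫ φ, W φ ∂P) * ∫ φ, W' φ ∂P))
  lim : LocLim P hexa
  gibbs : Gibbs P

/-! ### Two-point function and linear statistics -/

/-- Variance of `h(x) - h(0)`. -/
noncomputable def var2 (P : Measure (ℤ × ℤ → ℤ)) (x : ℤ × ℤ) : ℝ := ∫ φ, ((φ x : ℤ) : ℝ) ^ 2 ∂P

/-- Site `z` of the even row `2 j`, in orthogonal coordinates: the point `(z, √3 j)`. -/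
def ev (j z : ℤ) : ℤ × ℤ := (z - j, 2 * j)

/-- Variance function of the even rows, input of `TwoPt`. -/
noncomputable def Vrow (P : Measure (ℤ × ℤ → ℤ)) (j z : ℤ) : ℝ := var2 P (ev j z)

/-- Output of blocks B, C. -/
def SpecOut (P : Measure (ℤ × ℤ → ℤ)) (κ : ℝ) : Prop :=
  ∃ (m : Kernel ℝ ℝ) (C k0 : ℝ), TwoPt.Spec (Vrow P) m (√3) κ C k0

/-- Output of block D: central limit theorem for the even rows. -/
def RowCLT (P : Measure (ℤ × ℤ → ℤ)) (κ : ℝ) : Prop :=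
  ∀ (f : ℝ × ℝ → ℝ) (L : ℕ → ℝ) (a : ℕ → ℤ → ℤ → ℝ) (M : ℝ), ContDiff ℝ 2 f →
    ∫ z, f z = 0 → TwoPt.Disc f L a M →
    Tendsto (fun n => ∫ φ : ℤ × ℤ → ℤ, Complex.exp (Complex.I *
        ((∑ᶠ p : ℤ × ℤ, a n p.1 p.2 * (φ (ev p.1 p.2) : ℝ) : ℝ) : ℂ)) ∂P) atTop
      (𝓝 (Complex.exp (-((TwoPt.sig (√3) κ f / 2 : ℝ) : ℂ))))

/-! ### The final statement (normalisation of the problem) -/

/-- Odd heights on the finite region `D`: steps at most two, value `±1` at the vertices with a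
neighbour outside `D` (dummy value `-1` off `D`). -/
def Odd2 (D : Finset (ℤ × ℤ)) : Set (ℤ × ℤ → ℤ) :=
  {h | (∀ x, Odd (h x)) ∧ (∀ x ∈ D, ∀ y ∈ D, Adj x y → |h x - h y| ≤ 2) ∧
    (∀ x ∈ D, (∃ y, Adj x y ∧ y ∉ D) → h x = 1 ∨ h x = -1) ∧ ∀ x, x ∉ D → h x = -1}

/-- `P` is the local limit of the uniform measures on `Odd2 (D n)`, modulo constants. -/
def OddLim (P : Measure (ℤ × ℤ → ℤ)) (D : ℕ → Finset (ℤ × ℤ)) : Prop :=
  ∀ (B : Finset (ℤ × ℤ)) (a : ℤ × ℤ → ℤ),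
    Tendsto (fun n => ((Odd2 (D n) ∩ Pat B a).ncard : ℝ) / (Odd2 (D n)).ncard) atTop
      (𝓝 (P.real (Pat B a)))

/-- Gradient Gibbs property of the uniform model of odd heights: two admissible patterns on `B`
which agree off `A` (all neighbours of `A` in `B`) are equally likely. -/
def OddGibbs (P : Measure (ℤ × ℤ → ℤ)) : Prop :=
  ∀ (A B : Finset (ℤ × ℤ)) (a a' : ℤ × ℤ → ℤ), A ⊆ B → (∀ x ∈ A, ∀ y, Adj x y → y ∈ B) →
    (∀ x, Odd (a x)) → (∀ x, Odd (a' x)) →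
    (∀ x ∈ B, ∀ y ∈ B, Adj x y → |a x - a y| ≤ 2) →
    (∀ x ∈ B, ∀ y ∈ B, Adj x y → |a' x - a' y| ≤ 2) → (∀ x ∈ B, x ∉ A → a x = a' x) →
    P (Pat B a) = P (Pat B a')

/-- The hat function of the triangular lattice, in lattice coordinates. -/
noncomputable def hat (s t : ℝ) : ℝ := max 0 (1 - max |s| (max |t| |s + t|))

/-- Extension of `h`, affine on each triangle of the lattice, at the point `z` of the plane. -/
noncomputable def interp (h : ℤ × ℤ → ℤ) (z : ℝ × ℝ) : ℝ :=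
  ∑ᶠ v : ℤ × ℤ, (h v : ℝ) * hat (z.1 - z.2 / √3 - v.1) (2 * z.2 / √3 - v.2)

/-- `∫ h_δ f` on the lattice of mesh `δ`. -/
noncomputable def smear (h : ℤ × ℤ → ℤ) (δ : ℝ) (f : ℝ × ℝ → ℝ) : ℝ :=
  ∫ z : ℝ × ℝ, interp h (z.1 / δ, z.2 / δ) * f z

/-- Smooth compactly supported function on the plane with integral zero. -/
def Test (f : ℝ × ℝ → ℝ) : Prop :=
  ContDiff ℝ ((⊤ : ℕ∞) : WithTop ℕ∞) f ∧ HasCompactSupport f ∧ ∫ x, f x = 0

/-- `G(x,y) = -(2π)⁻¹ log |x - y|`. -/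
noncomputable def green (x y : ℝ × ℝ) : ℝ :=
  -(2 * Real.pi)⁻¹ * Real.log (√((x.1 - y.1) ^ 2 + (x.2 - y.2) ^ 2))

/-- Covariance of the Gaussian free field modulo constants. -/
noncomputable def gffCov (f g : ℝ × ℝ → ℝ) : ℝ := ∫ x, ∫ y, green x y * f x * g y

/-- Euclidean length of a lattice vector. -/
noncomputable def len (x : ℤ × ℤ) : ℝ := √((x.1 : ℝ) ^ 2 + x.1 * x.2 + (x.2 : ℝ) ^ 2)

/-! ### Statements of the remaining analytic steps (owners: see the tasks of P153) -/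

/-- Fourier transform on the plane. -/
noncomputable def ftR (f : ℝ × ℝ → ℝ) (p : ℝ × ℝ) : ℂ :=
  ∫ z : ℝ × ℝ, (f z : ℂ) * Complex.exp (Complex.I * ((p.1 * z.1 + p.2 * z.2 : ℝ) : ℂ))

/-- (G1) Fourier energy = logarithmic energy. -/
def G1 : Prop := ∀ f : ℝ × ℝ → ℝ, Test f →
  Integrable (fun p : ℝ × ℝ => ‖ftR f p‖ ^ 2 / (p.1 ^ 2 + p.2 ^ 2)) ∧
  (4 * Real.pi ^ 2)⁻¹ * ∫ p : ℝ × ℝ, ‖ftR f p‖ ^ 2 / (p.1 ^ 2 + p.2 ^ 2) = gffCov f f

/-- (G2) logarithmic growth of the variance function from the spectral data. -/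
def G2 : Prop := ∀ (V : ℤ → ℤ → ℝ) (m : Kernel ℝ ℝ) (c κ C k0 : ℝ), TwoPt.Spec V m c κ C k0 →
  Tendsto (fun p : ℤ × ℤ => V p.1 p.2 / Real.log (√((p.2 : ℝ) ^ 2 + c ^ 2 * (p.1 : ℝ) ^ 2)))
    cofinite (𝓝 (κ / (c * Real.pi)))

/-- (G3) convergence of the characteristic functions gives the convergence in law. -/
def G3 : Prop := ∀ (P : Measure (ℤ × ℤ → ℤ)) (_ : IsProbabilityMeasure P) (κ : ℝ), 0 ≤ κ →
  (∀ F, Test F → Tendsto (fun δ : ℝ => ∫ φ : ℤ × ℤ → ℤ,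
      Complex.exp (Complex.I * ((smear φ δ F : ℝ) : ℂ)) ∂P) (𝓝[>] 0)
      (𝓝 (Complex.exp (-((κ * gffCov F F / 2 : ℝ) : ℂ))))) →
  ∀ (m : ℕ) (f : Fin m → ℝ × ℝ → ℝ), (∀ j, Test (f j)) →
      (Matrix.of (fun i j => κ * gffCov (f i) (f j))).PosSemidef ∧
      TendstoInDistribution (fun (δ : ℝ) (φ : ℤ × ℤ → ℤ) =>
        (WithLp.toLp 2 (fun j => smear φ δ (f j)) : EuclideanSpace ℝ (Fin m))) (𝓝[>] 0)
        (id : EuclideanSpace ℝ (Fin m) → EuclideanSpace ℝ (Fin m)) (fun _ => P)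
        (multivariateGaussian 0 (Matrix.of (fun i j => κ * gffCov (f i) (f j))))

/-- The final theorem. -/
def Main : Prop := ∃ P : Measure (ℤ × ℤ → ℤ), ∃ _ : IsProbabilityMeasure P,
  (∀ᵐ φ ∂P, φ 0 = 0) ∧ OddLim P hexa ∧ OddGibbs P ∧
  (∀ t, P.map (shift t) = P) ∧ P.map (fun φ x => φ (rot x)) = P ∧
  P.map (fun φ x => φ (x.2, x.1)) = P ∧
  ∃ κ : ℝ, 0 ≤ κ ∧
    Tendsto (fun x : ℤ × ℤ => (∫ φ, ((φ x : ℤ) : ℝ) ^ 2 ∂P) / Real.log (len x)) cofinite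
      (𝓝 (κ / Real.pi)) ∧
    ∀ (m : ℕ) (f : Fin m → ℝ × ℝ → ℝ), (∀ j, Test (f j)) →
      (Matrix.of (fun i j => κ * gffCov (f i) (f j))).PosSemidef ∧
      TendstoInDistribution (fun (δ : ℝ) (φ : ℤ × ℤ → ℤ) =>
        (WithLp.toLp 2 (fun j => smear φ δ (f j)) : EuclideanSpace ℝ (Fin m))) (𝓝[>] 0)
        (id : EuclideanSpace ℝ (Fin m) → EuclideanSpace ℝ (Fin m)) (fun _ => P)
        (multivariateGaussian 0 (Matrix.of (fun i j => κ * gffCov (f i) (f j))))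

end Vale.Agent.P153.GFF
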