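import Vale.Agent.P153.GFF.Weights

/-!
# P153 GFF: bounds for the weights; they form a discretisation in the sense of `TwoPt.Disc`
-/

open MeasureTheory Filter Topology Set

namespace Vale.Agent.P153.GFF

/-- Second differences of a smooth compactly supported function. -/
lemma second_diff {f : ℝ × ℝ → ℝ} (hf : ContDiff ℝ 2 f) (hs : HasCompactSupport f) :
    ∃ M, 0 ≤ M ∧ ∀ x y, |f (x + y) - 2 * f x + f (x - y)| ≤ M * ‖y‖ ^ 2 := by
  obtain ⟨C, hC⟩ := (hf.fderiv_right (m := 1) (by norm_num)).lipschitzWith_of_hasCompactSupport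
    (hs.fderiv ℝ) (by norm_num)
  refine ⟨2 * C, by positivity, fun x y => ?_⟩
  have hd : ∀ z, DifferentiableAt ℝ f z := fun z => hf.differentiable (by norm_num) z
  set g : ℝ → ℝ := fun t => f (x + t • y) + f (x - t • y) with hg
  have hg' : ∀ t, HasDerivAt g (fderiv ℝ f (x + t • y) y - fderiv ℝ f (x - t • y) y) t := by
    intro t
    have h1 : HasDerivAt (fun t : ℝ => x + t • y) y t := by
      simpa using ((hasDerivAt_id t).smul_const y).const_add x
    have h2 : HasDerivAt (fun t : ℝ => x - t • y) (-y) t := by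
      simpa using ((hasDerivAt_id t).smul_const y).const_sub x
    have h3 := (hd (x + t • y)).hasFDerivAt.comp_hasDerivAt t h1
    have h4 := (hd (x - t • y)).hasFDerivAt.comp_hasDerivAt t h2
    have h5 := h3.add h4
    rw [map_neg, ← sub_eq_add_neg] at h5
    exact h5
  have hb : ∀ t ∈ Icc (0 : ℝ) 1,
      ‖fderiv ℝ f (x + t • y) y - fderiv ℝ f (x - t • y) y‖ ≤ 2 * C * ‖y‖ ^ 2 := by
    intro t ht
    rw [← sub_apply]
    refine (ContinuousLinearMap.le_opNorm _ _).trans ?_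
    have h1 := hC.dist_le_mul (x + t • y) (x - t • y)
    rw [dist_eq_norm, dist_eq_norm] at h1
    have h2 : x + t • y - (x - t • y) = (2 * t) • y := by
      rw [add_sub_sub_cancel, ← add_smul]
      congr 1
      ring
    rw [h2, norm_smul, Real.norm_eq_abs, abs_of_nonneg (by linarith [ht.1])] at h1
    have h3 : (C : ℝ) * (2 * t * ‖y‖) ≤ 2 * C * ‖y‖ := by
      have hC0 : (0 : ℝ) ≤ C := C.2
      have hy := norm_nonneg y
      nlinarith [mul_nonneg hC0 hy, ht.2, mul_nonneg (mul_nonneg hC0 hy) (by linarith [ht.2] : 0 ≤ 1 - t)]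
    calc ‖fderiv ℝ f (x + t • y) - fderiv ℝ f (x - t • y)‖ * ‖y‖
        ≤ (2 * C * ‖y‖) * ‖y‖ := mul_le_mul_of_nonneg_right (h1.trans h3) (norm_nonneg _)
      _ = 2 * C * ‖y‖ ^ 2 := by ring
  have h6 := (convex_Icc (0 : ℝ) 1).norm_image_sub_le_of_norm_hasDerivWithin_le
    (fun t ht => (hg' t).hasDerivWithinAt) hb (left_mem_Icc.2 zero_le_one)
    (right_mem_Icc.2 zero_le_one)
  rw [sub_zero, norm_one, mul_one, Real.norm_eq_abs] at h6
  have h7 : g 1 - g 0 = f (x + y) - 2 * f x + f (x - y) := by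
    simp only [hg, one_smul, zero_smul, add_zero, sub_zero]
    ring
  rw [← h7]
  exact h6

/-- Constants of a test function. -/
structure Csts (f : ℝ × ℝ → ℝ) (K : ℝ) : Prop where
  pos : 0 < K
  cont : Continuous f
  supp : HasCompactSupport f
  zero : ∀ z : ℝ × ℝ, (K < |z.1| ∨ K < |z.2|) → f z = 0
  bdd : ∀ z, |f z| ≤ K
  lip : ∀ x y, |f x - f y| ≤ K * ‖x - y‖
  sec : ∀ x y, |f (x + y) - 2 * f x + f (x - y)| ≤ K * ‖y‖ ^ 2

lemma Test.csts {f : ℝ × ℝ → ℝ} (hf : Test f) : ∃ K, Csts f K := by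
  obtain ⟨h1, h2, h3⟩ := hf
  have hc : Continuous f := h1.continuous
  obtain ⟨B, hB⟩ := hc.bounded_above_of_compact_support h2
  obtain ⟨C, hC⟩ := h1.lipschitzWith_of_hasCompactSupport h2 (by simp)
  obtain ⟨M, hM0, hM⟩ := second_diff (by exact_mod_cast contDiff_infty.1 h1 2) h2
  obtain ⟨R, hR⟩ := h2.isCompact.isBounded.subset_closedBall (0 : ℝ × ℝ)
  have hBn : 0 ≤ B := (norm_nonneg _).trans (hB 0)
  have hCn : (0 : ℝ) ≤ C := C.2
  refine ⟨1 + |R| + B + C + M, by positivity, hc, h2, ?_, ?_, ?_, ?_⟩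
  · intro z hz
    by_contra hne
    have h4 : z ∈ tsupport f := subset_tsupport _ hne
    have h5 := hR h4
    rw [mem_closedBall_zero_iff, Prod.norm_def, sup_le_iff, Real.norm_eq_abs, Real.norm_eq_abs] at h5
    have := le_abs_self R
    rcases hz with h | h <;> linarith [h5.1, h5.2]
  · intro z
    have := hB z
    rw [Real.norm_eq_abs] at this
    have := abs_nonneg R
    linarith
  · intro x y
    have h4 := hC.dist_le_mul x y
    rw [Real.dist_eq, dist_eq_norm] at h4
    refine h4.trans (mul_le_mul_of_nonneg_right ?_ (norm_nonneg _))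
    have := abs_nonneg R
    linarith
  · intro x y
    refine (hM x y).trans (mul_le_mul_of_nonneg_right ?_ (by positivity))
    have := abs_nonneg R
    linarith

/-! ### Bounds for the weights -/

lemma ker_int {f : ℝ × ℝ → ℝ} (hc : Continuous f) (δ : ℝ) (v : ℝ × ℝ) :
    Integrable (fun u : ℝ × ℝ => ker u * f (δ • (u + v))) := by
  apply Continuous.integrable_of_hasCompactSupport
  · exact continuous_ker.mul (hc.comp (by fun_prop))
  · apply HasCompactSupport.mul_right
    apply HasCompactSupport.intro (isCompact_closedBall (0 : ℝ × ℝ) 2)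
    intro z hz
    apply ker_eq_zero
    rw [mem_closedBall_zero_iff, Prod.norm_def, sup_le_iff, Real.norm_eq_abs, Real.norm_eq_abs,
      not_and_or, not_le, not_le] at hz
    rcases hz with h | h
    · exact Or.inl h
    · exact Or.inr (by linarith)

/-- the kernel is supported in the ball of radius two -/
lemma ker_mul_le (u : ℝ × ℝ) {a b : ℝ} (h : ‖u‖ ≤ 2 → |a| ≤ b) :
    |ker u * a| ≤ ker u * b := by
  by_cases hu : ker u = 0
  · rw [hu]
    simp
  · rw [abs_mul, abs_of_nonneg (ker_nonneg u)]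
    apply mul_le_mul_of_nonneg_left _ (ker_nonneg u)
    apply h
    by_contra hn
    apply hu
    apply ker_eq_zero
    rw [Prod.norm_def, sup_le_iff, Real.norm_eq_abs, Real.norm_eq_abs, not_and_or, not_le,
      not_le] at hn
    rcases hn with h | h
    · exact Or.inl h
    · exact Or.inr (by linarith)

lemma ker_bound {G : ℝ × ℝ → ℝ} {b : ℝ} (h : ∀ u : ℝ × ℝ, ‖u‖ ≤ 2 → |G u| ≤ b) :
    |∫ u : ℝ × ℝ, ker u * G u| ≤ b := by
  have hb : 0 ≤ b := (abs_nonneg _).trans (h 0 (by simp))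
  have h1 : |∫ u : ℝ × ℝ, ker u * G u| ≤ ∫ u : ℝ × ℝ, ker u * b := by
    rw [← Real.norm_eq_abs]
    apply norm_integral_le_of_norm_le (integrable_ker.mul_const b)
    apply ae_of_all
    intro u
    rw [Real.norm_eq_abs]
    exact ker_mul_le u (h u)
  rw [integral_mul_const, integral_ker] at h1
  have h3 : √3 / 2 ≤ 1 := by
    have : √3 ≤ 2 := Real.sqrt_le_iff.2 ⟨by norm_num, by norm_num⟩
    linarith
  exact h1.trans (by nlinarith)

lemma pos_add (v w : ℤ × ℤ) : pos (v + w) = pos v + pos w := by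
  unfold pos
  ext <;> simp <;> ring

lemma pos_sub (v w : ℤ × ℤ) : pos (v - w) = pos v - pos w := by
  unfold pos
  ext <;> simp <;> ring

variable {f : ℝ × ℝ → ℝ} {K δ : ℝ}

lemma abs_wt_le (hf : Csts f K) (hδ : 0 < δ) (v : ℤ × ℤ) : |wt δ f v| ≤ K * δ ^ 2 := by
  unfold wt
  rw [abs_mul, abs_of_pos (by positivity), mul_comm]
  exact mul_le_mul_of_nonneg_right (ker_bound fun u _ => hf.bdd _) (by positivity)

lemma wt_lip (hf : Csts f K) (hδ : 0 < δ) (v w : ℤ × ℤ) :
    |wt δ f v - wt δ f w| ≤ K * δ ^ 3 * ‖pos v - pos w‖ := by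
  have h1 : wt δ f v - wt δ f w =
      δ ^ 2 * ∫ u : ℝ × ℝ, ker u * (f (δ • (u + pos v)) - f (δ • (u + pos w))) := by
    unfold wt
    rw [← mul_sub, ← integral_sub (ker_int hf.cont δ _) (ker_int hf.cont δ _)]
    congr 2
    ext u
    ring
  rw [h1, abs_mul, abs_of_pos (by positivity : (0 : ℝ) < δ ^ 2)]
  have h2 : |∫ u : ℝ × ℝ, ker u * (f (δ • (u + pos v)) - f (δ • (u + pos w)))| ≤
      K * (δ * ‖pos v - pos w‖) := by
    apply ker_bound
    intro u _
    refine (hf.lip _ _).trans (le_of_eq ?_)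
    rw [← smul_sub, add_sub_add_left_eq_sub, norm_smul, Real.norm_eq_abs, abs_of_pos hδ]
  calc δ ^ 2 * |∫ u : ℝ × ℝ, ker u * (f (δ • (u + pos v)) - f (δ • (u + pos w)))|
      ≤ δ ^ 2 * (K * (δ * ‖pos v - pos w‖)) := mul_le_mul_of_nonneg_left h2 (by positivity)
    _ = K * δ ^ 3 * ‖pos v - pos w‖ := by ring

lemma wt_sec (hf : Csts f K) (hδ : 0 < δ) (v y : ℤ × ℤ) :
    |wt δ f (v + y) - 2 * wt δ f v + wt δ f (v - y)| ≤ K * δ ^ 4 * ‖pos y‖ ^ 2 := by
  have h1 : wt δ f (v + y) - 2 * wt δ f v + wt δ f (v - y) =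
      δ ^ 2 * ∫ u : ℝ × ℝ, ker u * (f (δ • (u + pos v) + δ • pos y) - 2 * f (δ • (u + pos v)) +
        f (δ • (u + pos v) - δ • pos y)) := by
    have h0 : ∫ u : ℝ × ℝ, ker u * (f (δ • (u + pos v) + δ • pos y) - 2 * f (δ • (u + pos v)) +
        f (δ • (u + pos v) - δ • pos y)) = (∫ u : ℝ × ℝ, ker u * f (δ • (u + pos (v + y)))) -
        2 * (∫ u : ℝ × ℝ, ker u * f (δ • (u + pos v))) +
        ∫ u : ℝ × ℝ, ker u * f (δ • (u + pos (v - y))) := by
      have i1 : Integrable (fun u : ℝ × ℝ => ker u * f (δ • (u + pos (v + y))) -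
          2 * (ker u * f (δ • (u + pos v)))) :=
        (ker_int hf.cont δ _).sub ((ker_int hf.cont δ _).const_mul 2)
      rw [← integral_const_mul, ← integral_sub (ker_int hf.cont δ _)
        ((ker_int hf.cont δ _).const_mul 2), ← integral_add i1 (ker_int hf.cont δ _)]
      congr 1
      ext u
      rw [pos_add, pos_sub, ← smul_add, ← smul_sub, add_assoc, add_sub_assoc]
      ring
    rw [h0]
    unfold wt
    ring
  rw [h1, abs_mul, abs_of_pos (by positivity : (0 : ℝ) < δ ^ 2)]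
  have h2 : |∫ u : ℝ × ℝ, ker u * (f (δ • (u + pos v) + δ • pos y) - 2 * f (δ • (u + pos v)) +
        f (δ • (u + pos v) - δ • pos y))| ≤ K * (δ * ‖pos y‖) ^ 2 := by
    apply ker_bound
    intro u _
    refine (hf.sec _ _).trans (le_of_eq ?_)
    rw [norm_smul, Real.norm_eq_abs, abs_of_pos hδ]
  refine (mul_le_mul_of_nonneg_left h2 (by positivity)).trans (le_of_eq ?_)
  ring

lemma wt_close (hf : Csts f K) (hδ : 0 < δ) (v : ℤ × ℤ) (z : ℝ × ℝ) (r : ℝ)
    (hz : ‖δ • pos v - z‖ ≤ r) :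
    |wt δ f v / δ ^ 2 - √3 / 2 * f z| ≤ K * (2 * δ + r) := by
  have h1 : wt δ f v / δ ^ 2 - √3 / 2 * f z =
      ∫ u : ℝ × ℝ, ker u * (f (δ • (u + pos v)) - f z) := by
    unfold wt
    rw [mul_div_cancel_left₀ _ (by positivity), ← integral_ker, ← integral_mul_const,
      ← integral_sub (ker_int hf.cont δ _) (integrable_ker.mul_const _)]
    congr 1
    ext u
    ring
  rw [h1]
  apply ker_bound
  intro u hu
  refine (hf.lip _ _).trans (mul_le_mul_of_nonneg_left ?_ hf.pos.le)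
  have h2 : δ • (u + pos v) - z = δ • u + (δ • pos v - z) := by
    rw [smul_add]
    abel
  rw [h2]
  refine (norm_add_le _ _).trans ?_
  rw [norm_smul, Real.norm_eq_abs, abs_of_pos hδ]
  nlinarith

end Vale.Agent.P153.GFF
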