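import Vale.Agent.P153.GFF.Weights
import Vale.Agent.P153.GFF.Interface
import Mathlib.MeasureTheory.Measure.LevyConvergence
import Mathlib.MeasureTheory.Function.ConvergenceInDistribution
import Mathlib.Probability.Distributions.Gaussian.Multivariate

/-!
# P153 GFF: (G3) convergence of the characteristic functions of all single test functions gives
the joint convergence in law to the centred Gaussian vector
-/

set_option linter.all false

namespace Vale.Agent.P153.GFF

open Finset Filter Topology MeasureTheory ProbabilityTheory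

/-! ### Integrability of the Green function, bilinearity of the covariance -/

/-- The logarithm of the norm cut off at radius `M`. -/
noncomputable def g3phi (M : ℝ) (z : ℝ × ℝ) : ℝ :=
  if |z.1| ≤ M ∧ |z.2| ≤ M then |Real.log (Real.sqrt (z.1 ^ 2 + z.2 ^ 2))| else 0

lemma g3log_bound {M : ℝ} (hM : 1 ≤ M) {z : ℝ × ℝ} (h0 : z.1 ≠ 0) (h1 : |z.1| ≤ M)
    (h2 : |z.2| ≤ M) :
    |Real.log (Real.sqrt (z.1 ^ 2 + z.2 ^ 2))| ≤ |Real.log z.1| + Real.log (2 * M) := by
  have ha : 0 < |z.1| := abs_pos.mpr h0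
  have hr1 : |z.1| ≤ Real.sqrt (z.1 ^ 2 + z.2 ^ 2) := by
    apply Real.abs_le_sqrt
    nlinarith [sq_nonneg z.2]
  have hr0 : 0 < Real.sqrt (z.1 ^ 2 + z.2 ^ 2) := ha.trans_le hr1
  have hr2 : Real.sqrt (z.1 ^ 2 + z.2 ^ 2) ≤ 2 * M := by
    rw [Real.sqrt_le_left (by linarith)]
    have e1 : z.1 ^ 2 ≤ M ^ 2 := by
      rw [← sq_abs z.1]
      exact pow_le_pow_left₀ (abs_nonneg _) h1 2
    have e2 : z.2 ^ 2 ≤ M ^ 2 := by
      rw [← sq_abs z.2]
      exact pow_le_pow_left₀ (abs_nonneg _) h2 2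
    nlinarith
  have hlM : 0 ≤ Real.log (2 * M) := Real.log_nonneg (by linarith)
  rcases le_total 1 (Real.sqrt (z.1 ^ 2 + z.2 ^ 2)) with h | h
  · rw [abs_of_nonneg (Real.log_nonneg h)]
    have := Real.log_le_log hr0 hr2
    have := abs_nonneg (Real.log z.1)
    linarith
  · rw [abs_of_nonpos (Real.log_nonpos hr0.le h)]
    have e3 : Real.log |z.1| ≤ Real.log (Real.sqrt (z.1 ^ 2 + z.2 ^ 2)) :=
      Real.log_le_log ha hr1
    rw [Real.log_abs] at e3
    have e4 : -Real.log z.1 ≤ |Real.log z.1| := neg_le_abs _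
    linarith

lemma g3phi_integrable {M : ℝ} (hM : 1 ≤ M) : Integrable (g3phi M) := by
  have hI : MeasurableSet {t : ℝ | |t| ≤ M} :=
    measurableSet_le continuous_abs.measurable measurable_const
  have hset : {t : ℝ | |t| ≤ M} = Set.Icc (-M) M := by
    ext t
    simp only [Set.mem_ofPred_eq, Set.mem_Icc, abs_le]
  have hlog : IntegrableOn (fun t : ℝ => |Real.log t| + Real.log (2 * M)) {t : ℝ | |t| ≤ M} := by
    rw [hset]
    have h1 : IntegrableOn Real.log (Set.Icc (-M) M) := by
      have h2 : IntervalIntegrable Real.log volume (-M) M := intervalIntegral.intervalIntegrable_log'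
      rwa [intervalIntegrable_iff_integrableOn_Icc_of_le (by linarith)] at h2
    exact h1.abs.add (integrableOn_const (by rw [Real.volume_Icc]; exact ENNReal.ofReal_ne_top))
  have hone : IntegrableOn (fun _ : ℝ => (1 : ℝ)) {t : ℝ | |t| ≤ M} := by
    rw [hset]
    exact integrableOn_const (by rw [Real.volume_Icc]; exact ENNReal.ofReal_ne_top)
  have hprod : Integrable (fun z : ℝ × ℝ =>
      {t : ℝ | |t| ≤ M}.indicator (fun t : ℝ => |Real.log t| + Real.log (2 * M)) z.1 *
        {t : ℝ | |t| ≤ M}.indicator (fun _ : ℝ => (1 : ℝ)) z.2) (volume.prod volume) :=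
    (hlog.integrable_indicator hI).mul_prod (hone.integrable_indicator hI)
  have hmeas : Measurable (g3phi M) := by
    unfold g3phi
    refine Measurable.ite ?_ ?_ measurable_const
    · exact (measurableSet_le (continuous_abs.measurable.comp measurable_fst)
        measurable_const).inter (measurableSet_le (continuous_abs.measurable.comp measurable_snd)
        measurable_const)
    · fun_prop
  refine Integrable.mono' hprod hmeas.aestronglyMeasurable ?_
  have hne : ∀ᵐ z : ℝ × ℝ, z.1 ≠ 0 := by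
    have h0 : (volume : Measure (ℝ × ℝ)) ({(0 : ℝ)} ×ˢ Set.univ) = 0 := by
      rw [Measure.volume_eq_prod, Measure.prod_prod]
      simp
    refine measure_mono_null (fun z hz => ?_) h0
    simp only [Set.mem_compl_iff, Set.mem_ofPred_eq, not_not] at hz
    exact ⟨hz, Set.mem_univ _⟩
  filter_upwards [hne] with z hz
  unfold g3phi
  by_cases h : |z.1| ≤ M ∧ |z.2| ≤ M
  · rw [if_pos h, Set.indicator_of_mem (show z.1 ∈ {t : ℝ | |t| ≤ M} from h.1),
      Set.indicator_of_mem (show z.2 ∈ {t : ℝ | |t| ≤ M} from h.2), mul_one, Real.norm_eq_abs,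
      abs_abs]
    exact g3log_bound hM hz h.1 h.2
  · rw [if_neg h, norm_zero]
    have hlM : 0 ≤ Real.log (2 * M) := Real.log_nonneg (by linarith)
    refine mul_nonneg (Set.indicator_nonneg (fun t _ => ?_) _)
      (Set.indicator_nonneg (fun t _ => zero_le_one) _)
    positivity

lemma g3green_comm (x y : ℝ × ℝ) : green x y = green y x := by
  unfold green
  rw [show (x.1 - y.1) ^ 2 = (y.1 - x.1) ^ 2 by ring,
    show (x.2 - y.2) ^ 2 = (y.2 - x.2) ^ 2 by ring]

/-- Integrability of the Green function against bounded compactly supported functions. -/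
theorem g3green_integrable {f g : ℝ × ℝ → ℝ} (hf : Continuous f) (hg : Continuous g)
    (cf : HasCompactSupport f) (cg : HasCompactSupport g) :
    Integrable (fun p : (ℝ × ℝ) × (ℝ × ℝ) => green p.1 p.2 * f p.1 * g p.2) := by
  obtain ⟨Cf, hCf⟩ := cf.exists_bound_of_continuous hf
  obtain ⟨Rf, hRf⟩ := (Metric.isBounded_iff_subset_closedBall 0).mp cf.isCompact.isBounded
  obtain ⟨Rg, hRg⟩ := (Metric.isBounded_iff_subset_closedBall 0).mp cg.isCompact.isBounded
  set M : ℝ := max 1 (Rf + Rg) with hM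
  have hM1 : 1 ≤ M := le_max_left _ _
  have hM2 : Rf + Rg ≤ M := le_max_right _ _
  have hCf0 : 0 ≤ Cf := (norm_nonneg _).trans (hCf 0)
  have hgi : Integrable (fun y => |g y|) := (hg.integrable_of_hasCompactSupport cg).abs
  have : (volume : Measure (ℝ × ℝ)).IsAddHaarMeasure :=
    Measure.prod.instIsAddHaarMeasure volume volume
  have hconv : Integrable (fun p : (ℝ × ℝ) × (ℝ × ℝ) => |g p.2| * g3phi M (p.1 - p.2))
      (volume.prod volume) :=
    hgi.convolution_integrand (ContinuousLinearMap.mul ℝ ℝ) (g3phi_integrable hM1)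
  have hdom := hconv.const_mul ((2 * Real.pi)⁻¹ * Cf)
  refine Integrable.mono' hdom ?_ (Filter.Eventually.of_forall fun p => ?_)
  · have hgr : Measurable fun p : (ℝ × ℝ) × (ℝ × ℝ) => green p.1 p.2 := by
      unfold green
      fun_prop
    exact ((hgr.mul (hf.measurable.comp measurable_fst)).mul
      (hg.measurable.comp measurable_snd)).aestronglyMeasurable
  · have hpi : 0 ≤ (2 * Real.pi)⁻¹ := by positivity
    have hphi0 : 0 ≤ g3phi M (p.1 - p.2) := by
      unfold g3phi
      split_ifs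
      · exact abs_nonneg _
      · exact le_refl _
    by_cases hfz : f p.1 = 0
    · rw [hfz, mul_zero, zero_mul, norm_zero]
      positivity
    by_cases hgz : g p.2 = 0
    · rw [hgz, mul_zero, norm_zero]
      positivity
    have hx : p.1 ∈ tsupport f := subset_tsupport f hfz
    have hy : p.2 ∈ tsupport g := subset_tsupport g hgz
    have hx' : ‖p.1‖ ≤ Rf := by
      have := hRf hx
      rwa [Metric.mem_closedBall, dist_zero_right] at this
    have hy' : ‖p.2‖ ≤ Rg := by
      have := hRg hy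
      rwa [Metric.mem_closedBall, dist_zero_right] at this
    have hd : ‖p.1 - p.2‖ ≤ M := (norm_sub_le _ _).trans (by linarith)
    have hd1 : |(p.1 - p.2).1| ≤ M := (norm_fst_le (p.1 - p.2)).trans hd
    have hd2 : |(p.1 - p.2).2| ≤ M := (norm_snd_le (p.1 - p.2)).trans hd
    have e1 : g3phi M (p.1 - p.2) =
        |Real.log (Real.sqrt ((p.1.1 - p.2.1) ^ 2 + (p.1.2 - p.2.2) ^ 2))| := by
      unfold g3phi
      rw [if_pos ⟨hd1, hd2⟩]
      rfl
    have e2 : ‖green p.1 p.2‖ = (2 * Real.pi)⁻¹ * g3phi M (p.1 - p.2) := by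
      rw [e1]
      unfold green
      rw [norm_mul, norm_neg, Real.norm_eq_abs, abs_of_nonneg hpi, Real.norm_eq_abs]
    rw [norm_mul, norm_mul, e2]
    calc (2 * Real.pi)⁻¹ * g3phi M (p.1 - p.2) * ‖f p.1‖ * ‖g p.2‖
        ≤ (2 * Real.pi)⁻¹ * g3phi M (p.1 - p.2) * Cf * ‖g p.2‖ := by
          refine mul_le_mul_of_nonneg_right ?_ (norm_nonneg _)
          exact mul_le_mul_of_nonneg_left (hCf _) (by positivity)
      _ = (2 * Real.pi)⁻¹ * Cf * (|g p.2| * g3phi M (p.1 - p.2)) := by
          rw [Real.norm_eq_abs]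
          ring

/-- The covariance as an integral over the product. -/
theorem g3cov_eq_prod {f g : ℝ × ℝ → ℝ} (hf : Continuous f) (hg : Continuous g)
    (cf : HasCompactSupport f) (cg : HasCompactSupport g) :
    gffCov f g = ∫ p : (ℝ × ℝ) × (ℝ × ℝ), green p.1 p.2 * f p.1 * g p.2 := by
  have h := g3green_integrable hf hg cf cg
  unfold gffCov
  rw [Measure.volume_eq_prod] at h ⊢
  exact (integral_prod _ h).symm

theorem g3cov_symm {f g : ℝ × ℝ → ℝ} (hf : Continuous f) (hg : Continuous g)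
    (cf : HasCompactSupport f) (cg : HasCompactSupport g) : gffCov f g = gffCov g f := by
  have h := g3green_integrable hf hg cf cg
  rw [Measure.volume_eq_prod] at h
  unfold gffCov
  rw [integral_integral_swap h]
  refine integral_congr_ae (Filter.Eventually.of_forall fun x => ?_)
  refine integral_congr_ae (Filter.Eventually.of_forall fun y => ?_)
  simp only
  rw [g3green_comm x y]
  ring

theorem g3cov_sum {m : ℕ} (f : Fin m → ℝ × ℝ → ℝ) (hf : ∀ j, Continuous (f j))
    (cf : ∀ j, HasCompactSupport (f j)) (θ : Fin m → ℝ) :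
    gffCov (fun x => ∑ j, θ j * f j x) (fun x => ∑ j, θ j * f j x)
      = ∑ i, ∑ j, θ i * θ j * gffCov (f i) (f j) := by
  have hc : ∀ s : Finset (Fin m), Continuous (fun x => ∑ j ∈ s, θ j * f j x) := fun s =>
    continuous_finsetSum _ fun j _ => continuous_const.mul (hf j)
  have hs : ∀ s : Finset (Fin m), HasCompactSupport (fun x => ∑ j ∈ s, θ j * f j x) := by
    intro s
    classical
    induction s using Finset.induction_on with
    | empty =>
      simp only [Finset.sum_empty]
      exact HasCompactSupport.zero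
    | insert a s ha ih =>
      simp only [Finset.sum_insert ha]
      exact ((cf a).mul_left (f := fun _ => θ a)).add ih
  rw [g3cov_eq_prod (hc univ) (hc univ) (hs univ) (hs univ)]
  have e1 : (fun p : (ℝ × ℝ) × (ℝ × ℝ) =>
      green p.1 p.2 * (∑ j, θ j * f j p.1) * (∑ j, θ j * f j p.2)) =
      fun p => ∑ i, ∑ j, θ i * θ j * (green p.1 p.2 * f i p.1 * f j p.2) := by
    funext p
    rw [mul_assoc, Finset.sum_mul_sum, Finset.mul_sum]
    refine Finset.sum_congr rfl fun i _ => ?_
    rw [Finset.mul_sum]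
    refine Finset.sum_congr rfl fun j _ => ?_
    ring
  rw [e1, integral_finsetSum]
  · refine Finset.sum_congr rfl fun i _ => ?_
    rw [integral_finsetSum]
    · refine Finset.sum_congr rfl fun j _ => ?_
      rw [integral_const_mul, g3cov_eq_prod (hf i) (hf j) (cf i) (cf j)]
    · intro j _
      exact (g3green_integrable (hf i) (hf j) (cf i) (cf j)).const_mul _
  · intro i _
    refine integrable_finsetSum _ fun j _ => ?_
    exact (g3green_integrable (hf i) (hf j) (cf i) (cf j)).const_mul _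

/-! ### Linearity and measurability of the smeared field -/

lemma g3test {m : ℕ} (f : Fin m → ℝ × ℝ → ℝ) (hf : ∀ j, Test (f j)) (θ : Fin m → ℝ) :
    Test (fun x => ∑ j, θ j * f j x) := by
  refine ⟨ContDiff.sum fun j _ => contDiff_const.mul (hf j).1, ?_, ?_⟩
  · refine HasCompactSupport.intro (K := ⋃ j, tsupport (f j))
      (isCompact_iUnion fun j => (hf j).2.1.isCompact) fun x hx => ?_
    refine Finset.sum_eq_zero fun j _ => ?_
    rw [image_eq_zero_of_notMem_tsupport (fun hj => hx (Set.mem_iUnion.2 ⟨j, hj⟩)), mul_zero]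
  · rw [integral_finsetSum _ fun j _ => Integrable.const_mul
      ((hf j).1.continuous.integrable_of_hasCompactSupport (hf j).2.1) (θ j)]
    refine Finset.sum_eq_zero fun j _ => ?_
    rw [integral_const_mul, (hf j).2.2, mul_zero]

lemma g3radius {f : ℝ × ℝ → ℝ} (hf : HasCompactSupport f) : ∃ R : ℝ, 0 ≤ R ∧
    ∀ z : ℝ × ℝ, (R < |z.1| ∨ R < |z.2|) → f z = 0 := by
  obtain ⟨R, hR⟩ := hf.isCompact.isBounded.exists_norm_le
  refine ⟨max R 0, le_max_right _ _, fun z hz => ?_⟩
  refine image_eq_zero_of_notMem_tsupport fun hz' => ?_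
  have h1 := hR z hz'
  have h2 := (norm_fst_le z).trans h1
  have h3 := (norm_snd_le z).trans h1
  rw [Real.norm_eq_abs] at h2 h3
  have h4 := le_max_left R 0
  rcases hz with h | h <;> linarith

lemma g3wt_int {δ : ℝ} (hδ : 0 < δ) {f : ℝ × ℝ → ℝ} (hc : Continuous f)
    (hs : HasCompactSupport f) (v : ℤ × ℤ) :
    Integrable (fun u : ℝ × ℝ => ker u * f (δ • (u + pos v))) := by
  apply Continuous.integrable_of_hasCompactSupport
  · exact continuous_ker.mul (hc.comp (by fun_prop))
  · apply HasCompactSupport.mul_left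
    exact hs.comp_homeomorph ((Homeomorph.addRight (pos v)).trans (Homeomorph.smulOfNeZero δ hδ.ne'))

lemma g3lin (h : ℤ × ℤ → ℤ) {δ : ℝ} (hδ : 0 < δ) {m : ℕ} (f : Fin m → ℝ × ℝ → ℝ)
    (hf : ∀ j, Test (f j)) (θ : Fin m → ℝ) :
    smear h δ (fun x => ∑ j, θ j * f j x) = ∑ j, θ j * smear h δ (f j) := by
  choose R hR0 hR using fun j => g3radius (hf j).2.1
  set S : ℝ := ∑ j, R j with hS
  have hS0 : 0 ≤ S := Finset.sum_nonneg fun j _ => hR0 j
  have hle : ∀ j, R j ≤ S := fun j => Finset.single_le_sum (fun i _ => hR0 i) (Finset.mem_univ j)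
  have hRS : ∀ j, ∀ z : ℝ × ℝ, (S < |z.1| ∨ S < |z.2|) → f j z = 0 := fun j z hz =>
    hR j z (hz.imp (fun h => (hle j).trans_lt h) (fun h => (hle j).trans_lt h))
  have ht := g3test f hf θ
  rw [smear_eq_sum hδ hS0 ht.1.continuous ht.2.1 (fun z hz => by
    refine Finset.sum_eq_zero fun j _ => ?_
    rw [hRS j z hz, mul_zero]) h]
  have h1 : ∀ j, smear h δ (f j) = ∑ v ∈ box δ S, (h v : ℝ) * wt δ (f j) v := fun j =>
    smear_eq_sum hδ hS0 (hf j).1.continuous (hf j).2.1 (hRS j) h
  simp_rw [h1, Finset.mul_sum]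
  rw [Finset.sum_comm]
  refine Finset.sum_congr rfl fun v _ => ?_
  have h2 : wt δ (fun x => ∑ j, θ j * f j x) v = ∑ j, θ j * wt δ (f j) v := by
    unfold wt
    have h3 : (fun u : ℝ × ℝ => ker u * ∑ j, θ j * f j (δ • (u + pos v))) =
        fun u => ∑ j, θ j * (ker u * f j (δ • (u + pos v))) := by
      funext u
      rw [Finset.mul_sum]
      exact Finset.sum_congr rfl fun j _ => by ring
    rw [h3, integral_finsetSum _ fun j _ => Integrable.const_mul
      (g3wt_int hδ (hf j).1.continuous (hf j).2.1 v) (θ j), Finset.mul_sum]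
    refine Finset.sum_congr rfl fun j _ => ?_
    rw [integral_const_mul]
    ring
  rw [h2, Finset.mul_sum]
  exact Finset.sum_congr rfl fun j _ => by ring

lemma g3meas_pos {δ : ℝ} (hδ : 0 < δ) {f : ℝ × ℝ → ℝ} (hf : Test f) :
    Measurable (fun φ : ℤ × ℤ → ℤ => smear φ δ f) := by
  obtain ⟨R, hR0, hR⟩ := g3radius hf.2.1
  have h1 : (fun φ : ℤ × ℤ → ℤ => smear φ δ f) =
      fun φ => ∑ v ∈ box δ R, (φ v : ℝ) * wt δ f v := by
    funext φ
    exact smear_eq_sum hδ hR0 hf.1.continuous hf.2.1 hR φ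
  rw [h1]
  refine Finset.measurable_sum _ fun v _ => ?_
  have h2 : Measurable (fun φ : ℤ × ℤ → ℤ => (φ v : ℝ)) :=
    (measurable_of_countable (fun n : ℤ => (n : ℝ))).comp (measurable_pi_apply v)
  exact h2.mul_const _

lemma g3meas (δ : ℝ) {f : ℝ × ℝ → ℝ} (hf : Test f) :
    Measurable (fun φ : ℤ × ℤ → ℤ => smear φ δ f) := by
  rcases lt_trichotomy δ 0 with hδ | hδ | hδ
  · have h1 : ∀ φ : ℤ × ℤ → ℤ, smear φ δ f = smear φ (-δ) (fun z => f (-z)) := by
      intro φ
      unfold smear
      rw [← integral_neg_eq_self (fun z : ℝ × ℝ => interp φ (z.1 / δ, z.2 / δ) * f z)]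
      refine integral_congr_ae (ae_of_all _ fun z => ?_)
      simp only [Prod.fst_neg, Prod.snd_neg, neg_div, div_neg]
    have h2 : Test (fun z => f (-z)) := by
      refine ⟨hf.1.comp contDiff_neg, hf.2.1.comp_homeomorph (Homeomorph.neg (ℝ × ℝ)), ?_⟩
      rw [integral_neg_eq_self (fun z : ℝ × ℝ => f z)]
      exact hf.2.2
    simp_rw [h1]
    exact g3meas_pos (by linarith) h2
  · subst hδ
    have h1 : ∀ φ : ℤ × ℤ → ℤ, smear φ 0 f = 0 := by
      intro φ
      unfold smear
      simp only [div_zero]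
      rw [integral_const_mul, hf.2.2, mul_zero]
    simp_rw [h1]
    exact measurable_const
  · exact g3meas_pos hδ hf

/-! ### The limit law -/

theorem g3 : G3 := by
  intro P _ κ hκ hc m f hf
  have hsym : ∀ i j, gffCov (f i) (f j) = gffCov (f j) (f i) := fun i j =>
    g3cov_symm (hf i).1.continuous (hf j).1.continuous (hf i).2.1 (hf j).2.1
  have hbil : ∀ θ : Fin m → ℝ, gffCov (fun x => ∑ j, θ j * f j x) (fun x => ∑ j, θ j * f j x)
      = ∑ i, ∑ j, θ i * θ j * gffCov (f i) (f j) := fun θ =>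
    g3cov_sum f (fun j => (hf j).1.continuous) (fun j => (hf j).2.1) θ
  -- nonnegativity of the variance
  have hnn : ∀ F, Test F → 0 ≤ κ * gffCov F F := by
    intro F hF
    have h1 : ‖Complex.exp (-((κ * gffCov F F / 2 : ℝ) : ℂ))‖ ≤ 1 := by
      refine le_of_tendsto (hc F hF).norm (Eventually.of_forall fun δ => ?_)
      refine (norm_integral_le_integral_norm _).trans ?_
      have h2 : ∀ φ : ℤ × ℤ → ℤ, ‖Complex.exp (Complex.I * ((smear φ δ F : ℝ) : ℂ))‖ = 1 := by
        intro φ
        rw [mul_comm, Complex.norm_exp_ofReal_mul_I]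
      simp [h2]
    rw [Complex.norm_exp, Real.exp_le_one_iff, Complex.neg_re, Complex.ofReal_re] at h1
    linarith
  have hq : ∀ θ : Fin m → ℝ, ∑ i, ∑ j, θ i * θ j * (κ * gffCov (f i) (f j)) =
      κ * gffCov (fun x => ∑ j, θ j * f j x) (fun x => ∑ j, θ j * f j x) := by
    intro θ
    rw [hbil θ, Finset.mul_sum]
    refine Finset.sum_congr rfl fun i _ => ?_
    rw [Finset.mul_sum]
    exact Finset.sum_congr rfl fun j _ => by ring
  have hdot : ∀ θ : Fin m → ℝ,
      θ ⬝ᵥ (Matrix.of (fun i j => κ * gffCov (f i) (f j))).mulVec θ =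
        κ * gffCov (fun x => ∑ j, θ j * f j x) (fun x => ∑ j, θ j * f j x) := by
    intro θ
    rw [← hq θ]
    simp only [dotProduct, Matrix.mulVec, Matrix.of_apply, Finset.mul_sum]
    exact Finset.sum_congr rfl fun i _ => Finset.sum_congr rfl fun j _ => by ring
  have hpsd : (Matrix.of (fun i j => κ * gffCov (f i) (f j))).PosSemidef := by
    refine Matrix.PosSemidef.of_dotProduct_mulVec_nonneg ?_ fun θ => ?_
    · ext i j
      simp [Matrix.conjTranspose_apply, hsym i j]
    · rw [star_trivial, hdot θ]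
      exact hnn _ (g3test f hf θ)
  refine ⟨hpsd, ?_⟩
  have hX : ∀ δ : ℝ, AEMeasurable (fun φ : ℤ × ℤ → ℤ =>
      (WithLp.toLp 2 (fun j => smear φ δ (f j)) : EuclideanSpace ℝ (Fin m))) P := by
    intro δ
    exact (WithLp.measurable_toLp 2 (Fin m → ℝ)).comp_aemeasurable
      (aemeasurable_pi_lambda _ fun j => (g3meas δ (hf j)).aemeasurable)
  refine ⟨hX, by fun_prop, ?_⟩
  refine tendsto_of_seq_tendsto fun s hs => ?_
  refine ProbabilityMeasure.tendsto_of_tendsto_charFun fun t => ?_
  have hid : (multivariateGaussian 0 (Matrix.of (fun i j => κ * gffCov (f i) (f j)))).map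
      (id : EuclideanSpace ℝ (Fin m) → EuclideanSpace ℝ (Fin m)) =
      multivariateGaussian 0 (Matrix.of (fun i j => κ * gffCov (f i) (f j))) := Measure.map_id
  simp only [Function.comp_apply, ProbabilityMeasure.coe_mk, hid]
  rw [charFun_multivariateGaussian hpsd]
  have hF := g3test f hf (fun j => t j)
  have h1 := (hc _ hF).comp hs
  have h2 : Complex.exp (((inner ℝ t (0 : EuclideanSpace ℝ (Fin m)) : ℝ) : ℂ) * Complex.I -
      ((t : Fin m → ℝ) ⬝ᵥ (Matrix.of (fun i j => κ * gffCov (f i) (f j))).mulVec t : ℝ) / 2) =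
      Complex.exp (-((κ * gffCov (fun x => ∑ j, t j * f j x)
        (fun x => ∑ j, t j * f j x) / 2 : ℝ) : ℂ)) := by
    rw [hdot, inner_zero_right]
    congr 1
    push_cast
    ring
  rw [h2]
  refine h1.congr' ?_
  have hpos : ∀ᶠ n in atTop, 0 < s n := by
    have := hs.eventually self_mem_nhdsWithin
    simpa using this
  filter_upwards [hpos] with n hn
  change ∫ φ : ℤ × ℤ → ℤ, Complex.exp (Complex.I *
      ((smear φ (s n) (fun x => ∑ j, t j * f j x) : ℝ) : ℂ)) ∂P =
    charFun (P.map (fun φ : ℤ × ℤ → ℤ =>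
      (WithLp.toLp 2 (fun j => smear φ (s n) (f j)) : EuclideanSpace ℝ (Fin m)))) t
  rw [charFun_apply, integral_map (hX (s n)) (by fun_prop)]
  refine integral_congr_ae (ae_of_all _ fun φ => ?_)
  simp only []
  rw [g3lin φ hn f hf (fun j => t j), mul_comm]
  congr 3

end Vale.Agent.P153.GFF
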