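import Vale.Agent.P153.GFF.Hat

/-!
# P153 GFF: the weights of the smeared interpolated field
-/

open MeasureTheory Filter Topology Set

namespace Vale.Agent.P153.GFF

/-- Position of a vertex. -/
noncomputable def pos (v : ℤ × ℤ) : ℝ × ℝ := ((v.1 : ℝ) + v.2 / 2, v.2 * (√3 / 2))

lemma hat_eq_ker (z : ℝ × ℝ) (v : ℤ × ℤ) :
    hat (z.1 - z.2 / √3 - v.1) (2 * z.2 / √3 - v.2) = ker (z - pos v) := by
  have h3 : (0 : ℝ) < √3 := by positivity
  unfold ker pos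
  simp only [Prod.fst_sub, Prod.snd_sub]
  congr 1
  · field_simp
    ring
  · field_simp

/-- The weight of the vertex `v` at mesh `δ`. -/
noncomputable def wt (δ : ℝ) (f : ℝ × ℝ → ℝ) (v : ℤ × ℤ) : ℝ :=
  δ ^ 2 * ∫ u : ℝ × ℝ, ker u * f (δ • (u + pos v))

lemma wt_eq {δ : ℝ} (f : ℝ × ℝ → ℝ) (v : ℤ × ℤ) :
    wt δ f v = δ ^ 2 * ∫ u : ℝ × ℝ, ker (u - pos v) * f (δ • u) := by
  unfold wt
  congr 1
  rw [← integral_add_right_eq_self (fun u : ℝ × ℝ => ker (u - pos v) * f (δ • u)) (pos v)]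
  congr 1
  ext u
  rw [add_sub_cancel_right]

lemma smear_eq {δ : ℝ} (hδ : 0 < δ) (h : ℤ × ℤ → ℤ) (f : ℝ × ℝ → ℝ) :
    smear h δ f = δ ^ 2 * ∫ u : ℝ × ℝ, interp h u * f (δ • u) := by
  unfold smear
  have h1 := Measure.integral_comp_smul (μ := (volume : Measure (ℝ × ℝ)))
    (fun u : ℝ × ℝ => interp h u * f (δ • u)) δ⁻¹
  have h2 : Module.finrank ℝ (ℝ × ℝ) = 2 := by simp
  rw [h2] at h1
  have h3 : |((δ⁻¹) ^ 2)⁻¹| = δ ^ 2 := by
    rw [inv_pow, inv_inv, abs_of_pos (by positivity)]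
  rw [h3, smul_eq_mul] at h1
  rw [← h1]
  congr 1
  ext z
  rw [smul_smul, mul_inv_cancel₀ hδ.ne', one_smul]
  congr 2
  · ext
    · simp only [Prod.smul_fst, smul_eq_mul]
      field_simp
    · simp only [Prod.smul_snd, smul_eq_mul]
      field_simp

/-- a finite set outside of which the weights vanish -/
noncomputable def box (δ R : ℝ) : Finset (ℤ × ℤ) :=
  Finset.Icc (-⌈2 * (R / δ) + 6⌉) ⌈2 * (R / δ) + 6⌉ ×ˢ
    Finset.Icc (-⌈2 * (R / δ) + 6⌉) ⌈2 * (R / δ) + 6⌉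

lemma ker_zero_of_box {δ R : ℝ} (hδ : 0 < δ) (hR : 0 ≤ R) {f : ℝ × ℝ → ℝ}
    (hf : ∀ z : ℝ × ℝ, (R < |z.1| ∨ R < |z.2|) → f z = 0) {v : ℤ × ℤ} (hv : v ∉ box δ R)
    (u : ℝ × ℝ) : ker (u - pos v) * f (δ • u) = 0 := by
  by_contra hne
  have hk : ker (u - pos v) ≠ 0 := fun h => hne (by rw [h, zero_mul])
  have hfu : f (δ • u) ≠ 0 := fun h => hne (by rw [h, mul_zero])
  have h1 : ¬(2 < |(u - pos v).1| ∨ 1 < |(u - pos v).2|) := fun h => hk (ker_eq_zero h)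
  have h2 : ¬(R < |(δ • u).1| ∨ R < |(δ • u).2|) := fun h => hfu (hf _ h)
  rw [not_or, not_lt, not_lt] at h1 h2
  obtain ⟨h1a, h1b⟩ := h1
  obtain ⟨h2a, h2b⟩ := h2
  rw [Prod.smul_fst, smul_eq_mul, abs_mul, abs_of_pos hδ] at h2a
  rw [Prod.smul_snd, smul_eq_mul, abs_mul, abs_of_pos hδ] at h2b
  have h3 : |u.1| ≤ R / δ := by
    rw [le_div_iff₀ hδ]
    linarith
  have h4 : |u.2| ≤ R / δ := by
    rw [le_div_iff₀ hδ]
    linarith
  have hq : 0 ≤ R / δ := by positivity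
  simp only [Prod.fst_sub, Prod.snd_sub, pos] at h1a h1b
  have h5 : (1 : ℝ) ≤ √3 := by
    rw [Real.one_le_sqrt]
    norm_num
  have h6 : |(v.2 : ℝ)| ≤ 2 * (R / δ) + 2 := by
    have h7 : |(v.2 : ℝ) * (√3 / 2)| ≤ R / δ + 1 := by
      have := abs_sub_abs_le_abs_sub ((v.2 : ℝ) * (√3 / 2)) u.2
      rw [abs_sub_comm] at this
      linarith
    rw [abs_mul, abs_of_pos (by positivity : (0 : ℝ) < √3 / 2)] at h7
    nlinarith [abs_nonneg (v.2 : ℝ)]
  have h8 : |(v.1 : ℝ)| ≤ 2 * (R / δ) + 4 := by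
    have h9 : |(v.1 : ℝ) + v.2 / 2| ≤ R / δ + 2 := by
      have := abs_sub_abs_le_abs_sub ((v.1 : ℝ) + v.2 / 2) u.1
      rw [abs_sub_comm] at this
      linarith
    have h10 : |(v.1 : ℝ)| ≤ |(v.1 : ℝ) + v.2 / 2| + |(v.2 : ℝ) / 2| := by
      have := abs_sub ((v.1 : ℝ) + v.2 / 2) ((v.2 : ℝ) / 2)
      rw [add_sub_cancel_right] at this
      exact this
    rw [abs_div, abs_of_pos (by norm_num : (0 : ℝ) < 2)] at h10
    linarith
  apply hv
  have hc := Int.le_ceil (2 * (R / δ) + 6)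
  rw [box, Finset.mem_product, Finset.mem_Icc, Finset.mem_Icc]
  rw [abs_le] at h6 h8
  refine ⟨⟨?_, ?_⟩, ?_, ?_⟩
  · have : (-(⌈2 * (R / δ) + 6⌉ : ℝ)) ≤ v.1 := by linarith
    exact_mod_cast this
  · have : (v.1 : ℝ) ≤ ⌈2 * (R / δ) + 6⌉ := by linarith
    exact_mod_cast this
  · have : (-(⌈2 * (R / δ) + 6⌉ : ℝ)) ≤ v.2 := by linarith
    exact_mod_cast this
  · have : (v.2 : ℝ) ≤ ⌈2 * (R / δ) + 6⌉ := by linarith
    exact_mod_cast this

lemma wt_zero_of_box {δ R : ℝ} (hδ : 0 < δ) (hR : 0 ≤ R) {f : ℝ × ℝ → ℝ}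
    (hf : ∀ z : ℝ × ℝ, (R < |z.1| ∨ R < |z.2|) → f z = 0) {v : ℤ × ℤ} (hv : v ∉ box δ R) :
    wt δ f v = 0 := by
  rw [wt_eq]
  simp_rw [ker_zero_of_box hδ hR hf hv]
  simp

lemma smear_eq_sum {δ R : ℝ} (hδ : 0 < δ) (hR : 0 ≤ R) {f : ℝ × ℝ → ℝ} (hc : Continuous f)
    (hs : HasCompactSupport f) (hf : ∀ z : ℝ × ℝ, (R < |z.1| ∨ R < |z.2|) → f z = 0)
    (h : ℤ × ℤ → ℤ) : smear h δ f = ∑ v ∈ box δ R, (h v : ℝ) * wt δ f v := by
  rw [smear_eq hδ]
  have h1 : ∀ u : ℝ × ℝ, interp h u * f (δ • u) =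
      ∑ v ∈ box δ R, (h v : ℝ) * (ker (u - pos v) * f (δ • u)) := by
    intro u
    by_cases hu : f (δ • u) = 0
    · rw [hu, mul_zero]
      symm
      apply Finset.sum_eq_zero
      intro v _
      rw [mul_zero, mul_zero]
    · unfold interp
      rw [finsum_eq_sum_of_support_subset (s := box δ R), Finset.sum_mul]
      · apply Finset.sum_congr rfl
        intro v _
        rw [hat_eq_ker]
        ring
      · intro v hv
        rw [Function.mem_support] at hv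
        by_contra hvb
        have := ker_zero_of_box hδ hR hf hvb u
        rcases mul_eq_zero.1 this with h0 | h0
        · apply hv
          rw [hat_eq_ker, h0, mul_zero]
        · exact hu h0
  simp_rw [h1]
  rw [integral_finset_sum, Finset.mul_sum]
  · apply Finset.sum_congr rfl
    intro v _
    rw [integral_const_mul, wt_eq]
    ring
  · intro v _
    apply Integrable.const_mul
    apply Continuous.integrable_of_hasCompactSupport
    · exact (continuous_ker.comp (by fun_prop)).mul (hc.comp (by fun_prop))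
    · apply HasCompactSupport.mul_left
      exact hs.comp_homeomorph (Homeomorph.smulOfNeZero δ hδ.ne')

lemma interp_one (z : ℝ × ℝ) : interp (fun _ => 1) z = 1 := by
  unfold interp
  have := hat_sum (z.1 - z.2 / √3) (2 * z.2 / √3)
  rw [← this]
  congr 1
  ext v
  push_cast
  rw [one_mul]

lemma sum_wt {δ R : ℝ} (hδ : 0 < δ) (hR : 0 ≤ R) {f : ℝ × ℝ → ℝ} (hc : Continuous f)
    (hs : HasCompactSupport f) (hf : ∀ z : ℝ × ℝ, (R < |z.1| ∨ R < |z.2|) → f z = 0) :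
    ∑ v ∈ box δ R, wt δ f v = ∫ z, f z := by
  have h1 := smear_eq_sum hδ hR hc hs hf (fun _ => 1)
  push_cast at h1
  simp_rw [one_mul] at h1
  rw [← h1]
  unfold smear
  simp_rw [interp_one, one_mul]

end Vale.Agent.P153.GFF
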