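import Vale.Agent.P153.GFF.Interface

/-!
P153: conversion of the plane theorem to the normalisation of the problem (odd heights).
-/

namespace Vale.Agent.P153.GFF

open MeasureTheory ProbabilityTheory Filter Topology

/-- Doubling of the heights. -/
def dbl (φ : ℤ × ℤ → ℤ) : ℤ × ℤ → ℤ := fun x => 2 * φ x

theorem measurable_dbl : Measurable dbl :=
  measurable_pi_iff.2 fun x => (measurable_pi_apply x).const_mul 2

theorem measurableSet_Pat (B : Finset (ℤ × ℤ)) (a : ℤ × ℤ → ℤ) : MeasurableSet (Pat B a) := by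
  have : Pat B a = ⋂ x ∈ B, ⋂ y ∈ B, {φ | φ x - φ y = a x - a y} := by
    ext φ
    simp [Pat]
  rw [this]
  refine Finset.measurableSet_biInter _ fun x _ => Finset.measurableSet_biInter _ fun y _ => ?_
  have hm : Measurable fun φ : ℤ × ℤ → ℤ => φ x - φ y :=
    (measurable_pi_apply x).sub (measurable_pi_apply y)
  exact hm (MeasurableSet.of_discrete (s := {a x - a y}))

theorem adj_symm' {x y : ℤ × ℤ} (h : Adj x y) : Adj y x := by
  unfold Adj at h ⊢
  simp only [Set.mem_insert_iff, Set.mem_singleton_iff, Prod.mk.injEq] at h ⊢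
  omega

/-- The bijection from `Ht D` onto `Odd2 D`. -/
def toOdd (h : ℤ × ℤ → ℤ) : ℤ × ℤ → ℤ := fun x => 2 * h x - 1

theorem toOdd_inj : Function.Injective toOdd := by
  intro g h hgh
  funext x
  have := congrFun hgh x
  simp only [toOdd] at this
  omega

theorem toOdd_image (D : Finset (ℤ × ℤ)) : toOdd '' Ht D = Odd2 D := by
  ext g
  constructor
  · rintro ⟨h, ⟨h1, h2⟩, rfl⟩
    refine ⟨fun x => ⟨h x - 1, by simp only [toOdd]; ring⟩, fun x _ y _ hxy => ?_, fun x _ hx' => ?_,
      fun x hx => ?_⟩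
    · have := h2 x y hxy
      simp only [toOdd]
      rw [abs_le] at this ⊢
      omega
    · have := (h1 x).2 hx'
      simp only [toOdd]
      omega
    · have := (h1 x).1 hx
      simp only [toOdd]
      omega
  · rintro ⟨h1, h2, h3, h4⟩
    refine ⟨fun x => (g x + 1) / 2, ⟨fun v => ⟨fun hv => ?_, fun hv => ?_⟩, fun v w hvw => ?_⟩, ?_⟩
    · show (g v + 1) / 2 = 0
      rw [h4 v hv]
      rfl
    · show (g v + 1) / 2 = 0 ∨ (g v + 1) / 2 = 1
      by_cases hD : v ∈ D
      · rcases h3 v hD hv with h | h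
        · right; rw [h]; rfl
        · left; rw [h]; rfl
      · left; rw [h4 v hD]; rfl
    · show |(g v + 1) / 2 - (g w + 1) / 2| ≤ 1
      obtain ⟨k, hk⟩ := h1 v
      obtain ⟨l, hl⟩ := h1 w
      by_cases hv : v ∈ D
      · by_cases hw : w ∈ D
        · have := h2 v hv w hw hvw
          rw [abs_le] at this ⊢
          omega
        · have h5 := h3 v hv ⟨w, hvw, hw⟩
          have h6 := h4 w hw
          rw [abs_le]
          omega
      · by_cases hw : w ∈ D
        · have h5 := h3 w hw ⟨v, adj_symm' hvw, hv⟩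
          have h6 := h4 v hv
          rw [abs_le]
          omega
        · have h5 := h4 v hv
          have h6 := h4 w hw
          rw [abs_le]
          omega
    · funext x
      obtain ⟨k, hk⟩ := h1 x
      simp only [toOdd]
      omega

theorem toOdd_image_Pat (D B : Finset (ℤ × ℤ)) (a : ℤ × ℤ → ℤ)
    (ha : ∀ x ∈ B, ∀ y ∈ B, (a x - a y) % 2 = 0) :
    toOdd '' (Ht D ∩ Pat B fun x => a x / 2) = Odd2 D ∩ Pat B a := by
  rw [Set.image_inter toOdd_inj, toOdd_image]
  ext g
  constructor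
  · rintro ⟨h1, h, h2, rfl⟩
    refine ⟨h1, fun x hx y hy => ?_⟩
    have h3 := h2 x hx y hy
    have h4 := ha x hx y hy
    simp only [toOdd]
    simp only at h3
    omega
  · rintro ⟨h1, h2⟩
    refine ⟨h1, ?_⟩
    rw [← toOdd_image] at h1
    obtain ⟨h, h3, rfl⟩ := h1
    refine ⟨h, fun x hx y hy => ?_, rfl⟩
    have h5 := h2 x hx y hy
    have h4 := ha x hx y hy
    simp only [toOdd] at h5
    show h x - h y = a x / 2 - a y / 2
    omega

theorem dbl_preimage (B : Finset (ℤ × ℤ)) (a : ℤ × ℤ → ℤ)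
    (ha : ∀ x ∈ B, ∀ y ∈ B, (a x - a y) % 2 = 0) :
    dbl ⁻¹' Pat B a = Pat B fun x => a x / 2 := by
  ext φ
  constructor
  · intro h x hx y hy
    have h1 := h x hx y hy
    have h2 := ha x hx y hy
    simp only [dbl] at h1
    show φ x - φ y = a x / 2 - a y / 2
    omega
  · intro h x hx y hy
    have h1 := h x hx y hy
    have h2 := ha x hx y hy
    simp only [dbl]
    simp only at h1
    omega

theorem map_dbl_real (P : Measure (ℤ × ℤ → ℤ)) (B : Finset (ℤ × ℤ)) (a : ℤ × ℤ → ℤ) :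
    (P.map dbl) (Pat B a) = P (dbl ⁻¹' Pat B a) :=
  Measure.map_apply measurable_dbl (measurableSet_Pat B a)

theorem oddLim_map {P : Measure (ℤ × ℤ → ℤ)} {D : ℕ → Finset (ℤ × ℤ)} (h : LocLim P D) :
    OddLim (P.map dbl) D := by
  intro B a
  have e0 : ∀ n, (Odd2 (D n)).ncard = (Ht (D n)).ncard := fun n => by
    rw [← toOdd_image, Set.ncard_image_of_injective _ toOdd_inj]
  by_cases ha : ∀ x ∈ B, ∀ y ∈ B, (a x - a y) % 2 = 0
  · have e1 : ∀ n, (Odd2 (D n) ∩ Pat B a).ncard = (Ht (D n) ∩ Pat B fun x => a x / 2).ncard :=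
      fun n => by
        rw [← toOdd_image_Pat _ _ _ ha, Set.ncard_image_of_injective _ toOdd_inj]
    have e2 : (P.map dbl).real (Pat B a) = P.real (Pat B fun x => a x / 2) := by
      rw [Measure.real, map_dbl_real, dbl_preimage B a ha, Measure.real]
    rw [e2]
    simp only [e0, e1]
    exact h B _
  · push Not at ha
    obtain ⟨x, hx, y, hy, hxy⟩ := ha
    have e1 : ∀ n, Odd2 (D n) ∩ Pat B a = ∅ := fun n => by
      rw [Set.eq_empty_iff_forall_notMem]
      rintro g ⟨hg, hg'⟩
      obtain ⟨k, hk⟩ := hg.1 x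
      obtain ⟨l, hl⟩ := hg.1 y
      have := hg' x hx y hy
      omega
    have e2 : dbl ⁻¹' Pat B a = ∅ := by
      rw [Set.eq_empty_iff_forall_notMem]
      intro φ hφ
      have := hφ x hx y hy
      simp only [dbl] at this
      omega
    have e3 : (P.map dbl).real (Pat B a) = 0 := by
      rw [Measure.real, map_dbl_real, e2]
      simp
    rw [e3]
    simp [e1]

theorem oddGibbs_map {P : Measure (ℤ × ℤ → ℤ)} (h : Gibbs P) : OddGibbs (P.map dbl) := by
  intro A B a a' hAB hA ha ha' hl hl' haa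
  have h1 : ∀ x ∈ B, ∀ y ∈ B, (a x - a y) % 2 = 0 := fun x _ y _ => by
    obtain ⟨k, hk⟩ := ha x
    obtain ⟨l, hl⟩ := ha y
    omega
  have h2 : ∀ x ∈ B, ∀ y ∈ B, (a' x - a' y) % 2 = 0 := fun x _ y _ => by
    obtain ⟨k, hk⟩ := ha' x
    obtain ⟨l, hl⟩ := ha' y
    omega
  rw [map_dbl_real, map_dbl_real, dbl_preimage B a h1, dbl_preimage B a' h2]
  apply h A B _ _ hAB hA
  · intro x hx y hy hxy
    have h3 := hl x hx y hy hxy
    have h4 := h1 x hx y hy
    show |a x / 2 - a y / 2| ≤ 1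
    rw [abs_le] at h3 ⊢
    omega
  · intro x hx y hy hxy
    have h3 := hl' x hx y hy hxy
    have h4 := h2 x hx y hy
    show |a' x / 2 - a' y / 2| ≤ 1
    rw [abs_le] at h3 ⊢
    omega
  · intro x hx hxA
    show a x / 2 = a' x / 2
    rw [haa x hx hxA]

theorem map_dbl_comm {P : Measure (ℤ × ℤ → ℤ)} {T : (ℤ × ℤ → ℤ) → (ℤ × ℤ → ℤ)}
    (hT : Measurable T) (hc : ∀ φ, T (dbl φ) = dbl (T φ)) (h : P.map T = P) :
    (P.map dbl).map T = P.map dbl := by
  rw [Measure.map_map hT measurable_dbl]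
  have : T ∘ dbl = dbl ∘ T := by
    funext φ
    exact hc φ
  rw [this, ← Measure.map_map measurable_dbl hT, h]

/-- The measure of the plane theorem, in the normalisation of the problem. -/
theorem odd_out {P : Measure (ℤ × ℤ → ℤ)} (hP : Plane P) :
    IsProbabilityMeasure (P.map dbl) ∧ (∀ᵐ φ ∂(P.map dbl), φ 0 = 0) ∧
    OddLim (P.map dbl) hexa ∧ OddGibbs (P.map dbl) ∧
    (∀ t, (P.map dbl).map (shift t) = P.map dbl) ∧
    (P.map dbl).map (fun φ x => φ (rot x)) = P.map dbl ∧
    (P.map dbl).map (fun φ x => φ (x.2, x.1)) = P.map dbl := by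
  have := hP.prob
  refine ⟨Measure.isProbabilityMeasure_map measurable_dbl.aemeasurable, ?_, oddLim_map hP.lim,
    oddGibbs_map hP.gibbs, fun t => ?_, ?_, ?_⟩
  · rw [ae_map_iff measurable_dbl.aemeasurable]
    · filter_upwards [hP.zero] with φ hφ
      show 2 * φ 0 = 0
      rw [hφ, mul_zero]
    · have hm : Measurable fun φ : ℤ × ℤ → ℤ => φ 0 := measurable_pi_apply 0
      exact hm (MeasurableSet.of_discrete (s := {(0 : ℤ)}))
  · apply map_dbl_comm _ _ (hP.shift t)
    · exact measurable_pi_iff.2 fun x => (measurable_pi_apply (x + t)).sub (measurable_pi_apply t)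
    · intro φ
      funext x
      simp only [shift, dbl]
      ring
  · apply map_dbl_comm _ _ hP.rot
    · exact measurable_pi_iff.2 fun x => measurable_pi_apply (rot x)
    · intro φ
      rfl
  · apply map_dbl_comm _ _ hP.swap
    · exact measurable_pi_iff.2 fun x => measurable_pi_apply (x.2, x.1)
    · intro φ
      rfl

end Vale.Agent.P153.GFF
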