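import Vale.Agent.P153.GFF.Scale
import Vale.Agent.P153.GFF.G3
import Vale.Agent.P153.GFF.Odd

/-!
# P153 GFF: the plane theorem from the outputs of the blocks
-/

open MeasureTheory ProbabilityTheory Filter Topology Set

namespace Vale.Agent.P153.GFF

open Vale.Agent.P153.CLT (measurable_coord)

variable {P : Measure (ℤ × ℤ → ℤ)} {f : ℝ × ℝ → ℝ} {κ : ℝ}

lemma interp_dbl (φ : ℤ × ℤ → ℤ) (z : ℝ × ℝ) : interp (dbl φ) z = 2 * interp φ z := by
  unfold interp dbl
  rw [mul_finsum]
  apply finsum_congr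
  intro v
  push_cast
  ring

lemma smear_dbl (φ : ℤ × ℤ → ℤ) (δ : ℝ) (f : ℝ × ℝ → ℝ) :
    smear (dbl φ) δ f = smear φ δ (fun z => 2 * f z) := by
  unfold smear
  congr 1
  ext z
  rw [interp_dbl]
  ring

lemma test_two (hf : Test f) : Test fun z => 2 * f z := by
  obtain ⟨h1, h2, h3⟩ := hf
  refine ⟨contDiff_const.mul h1, h2.mul_left, ?_⟩
  rw [integral_const_mul, h3, mul_zero]

lemma gffCov_two (f : ℝ × ℝ → ℝ) :
    gffCov (fun z => 2 * f z) (fun z => 2 * f z) = 4 * gffCov f f := by
  unfold gffCov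
  rw [← integral_const_mul]
  congr 1
  ext x
  rw [← integral_const_mul]
  congr 1
  ext y
  ring

/-- The plane theorem from the outputs of the blocks. -/
theorem main_of (hP : Plane P) (hS : SpecOut P κ) (hC : RowCLT P κ) : Main := by
  obtain ⟨o1, o2, o3, o4, o5, o6, o7⟩ := odd_out hP
  have hκ : 0 ≤ κ := by
    obtain ⟨m, C, k0, h⟩ := hS
    exact h.κ_nonneg
  have h3 : (0 : ℝ) < √3 := by positivity
  have hpi := Real.pi_pos
  have hk : 0 ≤ 4 * κ / √3 := by positivity
  refine ⟨P.map dbl, o1, o2, o3, o4, o5, o6, o7, 4 * κ / √3, hk, ?_, ?_⟩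
  · have h1 := (var_lim hP hS).const_mul 4
    have h2 : 4 * (κ / (√3 * Real.pi)) = 4 * κ / √3 / Real.pi := by
      field_simp
    rw [h2] at h1
    refine h1.congr fun x => ?_
    have h4 : ∫ φ : ℤ × ℤ → ℤ, ((φ x : ℤ) : ℝ) ^ 2 ∂(P.map dbl) = 4 * var2 P x := by
      rw [integral_map measurable_dbl.aemeasurable
        ((measurable_coord x).pow_const 2).aestronglyMeasurable]
      unfold var2
      rw [← integral_const_mul]
      congr 1
      ext φ
      unfold dbl
      push_cast
      ring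
    rw [h4]
    ring
  · refine g3 (P.map dbl) o1 (4 * κ / √3) hk fun F hF => ?_
    have h1 := char_fun hP hS hC (test_two hF)
    rw [gffCov_two] at h1
    have h2 : κ / √3 * (4 * gffCov F F) / 2 = 4 * κ / √3 * gffCov F F / 2 := by ring
    rw [h2] at h1
    refine h1.congr' ?_
    filter_upwards [self_mem_nhdsWithin] with δ hδ
    obtain ⟨K, hK⟩ := hF.csts
    have hm : Measurable fun φ : ℤ × ℤ → ℤ =>
        Complex.exp (Complex.I * ((smear φ δ F : ℝ) : ℂ)) :=
      Complex.measurable_exp.comp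
        ((Complex.measurable_ofReal.comp (measurable_smear hK hδ)).const_mul _)
    rw [integral_map measurable_dbl.aemeasurable hm.aestronglyMeasurable]
    congr 1
    ext φ
    rw [smear_dbl]

end Vale.Agent.P153.GFF
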