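import Vale.Agent.P153.GFF.Final
import Vale.Agent.P153.A.All
import Vale.Agent.P153.Asm.Final
import Vale.Agent.P153.Strip.Lim
import Vale.Agent.P153.RP.Out

/-!
# P153: the plane theorem
-/

open MeasureTheory ProbabilityTheory Filter Topology Set

namespace Vale.Agent.P153.GFF

theorem main_all : Main := by
  obtain ⟨P, hP, hE⟩ := A.exists_plane_all
  obtain ⟨κ, _, hS⟩ := RP.specOut hP
  have hS' := hS
  obtain ⟨m, C, k0, hSp⟩ := hS'
  exact main_of hP hS (Asm.rowCLT hP (Strip.rowLim hE) hSp)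

end Vale.Agent.P153.GFF
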