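import Vale.Agent.P153.GFF.EvenRows

/-!
# P153 GFF: the smeared field and the even rows statistic are close in mean square
-/

open MeasureTheory Filter Topology Set

namespace Vale.Agent.P153.GFF

open Vale.Agent.P153.CLT (coord_bdd integrable_mul_coord measurable_coord msd_eq hev)

variable {P : Measure (ℤ × ℤ → ℤ)} {f : ℝ × ℝ → ℝ} {K δ : ℝ}

/-- the even rows statistic -/
noncomputable def rowS (δ : ℝ) (f : ℝ × ℝ → ℝ) (φ : ℤ × ℤ → ℤ) : ℝ :=
  ∑ᶠ p : ℤ × ℤ, rowW δ f p.1 p.2 * (φ (ev p.1 p.2) : ℝ)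

lemma ev_inj : Function.Injective fun p : ℤ × ℤ => ev p.1 p.2 := by
  rintro ⟨a, b⟩ ⟨c, d⟩ h
  simp only [ev, Prod.mk.injEq] at h
  ext
  · show a = c
    omega
  · show b = d
    omega

lemma fs {b : ℤ × ℤ → ℝ} (hb : (Function.support b).Finite) (g h : ℤ × ℤ → ℝ) :
    (Function.support fun v => g v * b v * h v).Finite := by
  apply hb.subset
  intro v hv
  rw [Function.mem_support] at hv ⊢
  intro h0
  apply hv
  rw [h0, mul_zero, zero_mul]

lemma fs_ev {b : ℤ × ℤ → ℝ} (hb : (Function.support b).Finite) :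
    (Function.support fun p : ℤ × ℤ => b (ev p.1 p.2)).Finite :=
  hb.preimage ev_inj.injOn

lemma fs_ev' {b : ℤ × ℤ → ℝ} (hb : (Function.support b).Finite) :
    (Function.support fun p : ℤ × ℤ => b (ev p.1 p.2 + (0, 1))).Finite :=
  hb.preimage ((add_left_injective ((0, 1) : ℤ × ℤ)).comp ev_inj).injOn

lemma decomp (hf : Csts f K) (hδ : 0 < δ) (φ : ℤ × ℤ → ℤ) :
    smear φ δ f - rowS δ f φ = -(∑ᶠ v : ℤ × ℤ, s0 v * wt δ f v * (φ v : ℝ)) +
      (∑ᶠ v : ℤ × ℤ, s1 v * wt δ f v * (φ v : ℝ)) + (∑ᶠ v : ℤ × ℤ, s2 v * wt δ f v * (φ v : ℝ)) -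
      ∑ᶠ p : ℤ × ℤ, (wt δ f (ev p.1 p.2 + (0, 1)) - wt δ f (ev p.1 p.2)) *
        (φ (ev p.1 p.2) : ℝ) := by
  have hb := wt_support_finite hf hδ
  set b := wt δ f with hbd
  have h1 : smear φ δ f = (∑ᶠ v : ℤ × ℤ, (2 * (if 2 ∣ v.2 then 1 else 0)) * b v * (φ v : ℝ)) -
      (∑ᶠ v : ℤ × ℤ, s0 v * b v * (φ v : ℝ)) +
      (∑ᶠ v : ℤ × ℤ, s1 v * b v * (φ v : ℝ)) + ∑ᶠ v : ℤ × ℤ, s2 v * b v * (φ v : ℝ) := by
    rw [smear_finsum hf hδ, ← finsum_sub_distrib (fs hb _ _) (fs hb _ _),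
      ← finsum_add_distrib _ (fs hb _ _), ← finsum_add_distrib _ (fs hb _ _)]
    · apply finsum_congr
      intro v
      have := s_sum v
      calc (φ v : ℝ) * b v = 1 * b v * (φ v : ℝ) := by ring
        _ = (2 * (if 2 ∣ v.2 then 1 else 0) - s0 v + s1 v + s2 v) * b v * (φ v : ℝ) := by
          rw [← this]
        _ = _ := by ring
    · apply hb.subset
      intro v hv
      rw [Function.mem_support] at hv ⊢
      intro h0
      apply hv
      rw [h0]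
      ring
    · apply hb.subset
      intro v hv
      rw [Function.mem_support] at hv ⊢
      intro h0
      apply hv
      rw [h0]
      ring
  have h2 : (∑ᶠ v : ℤ × ℤ, (2 * (if 2 ∣ v.2 then 1 else 0)) * b v * (φ v : ℝ)) =
      ∑ᶠ p : ℤ × ℤ, 2 * b (ev p.1 p.2) * (φ (ev p.1 p.2) : ℝ) := by
    rw [finsum_rho (fs hb _ _)]
    apply finsum_congr
    intro p
    have e1 : (2 : ℤ) ∣ (ev p.1 p.2).2 := by
      unfold ev
      simp
    have e2 : ¬(2 : ℤ) ∣ (ev p.1 p.2 + (0, 1)).2 := by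
      unfold ev
      simp only [Prod.snd_add]
      omega
    rw [if_pos e1, if_neg e2]
    ring
  have h3 : rowS δ f φ = (∑ᶠ p : ℤ × ℤ, 2 * b (ev p.1 p.2) * (φ (ev p.1 p.2) : ℝ)) +
      ∑ᶠ p : ℤ × ℤ, (b (ev p.1 p.2 + (0, 1)) - b (ev p.1 p.2)) * (φ (ev p.1 p.2) : ℝ) := by
    rw [← finsum_add_distrib]
    · unfold rowS
      apply finsum_congr
      intro p
      unfold rowW
      ring
    · apply (fs_ev hb).subset
      intro v hv
      rw [Function.mem_support] at hv ⊢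
      intro h0
      apply hv
      rw [h0]
      ring
    · apply ((fs_ev hb).union (fs_ev' hb)).subset
      intro v hv
      rw [Set.mem_union, Function.mem_support, Function.mem_support]
      rw [Function.mem_support] at hv
      by_contra hcon
      rw [not_or, not_not, not_not] at hcon
      apply hv
      rw [hcon.1, hcon.2]
      ring
  rw [h1, h2, h3]
  ring

lemma card_box {M : ℝ} (hM : 0 < M) (hδ : 0 < δ) (hδ1 : δ ≤ 1) :
    (((Finset.Icc (-⌈M / δ⌉) ⌈M / δ⌉ ×ˢ Finset.Icc (-⌈M / δ⌉) ⌈M / δ⌉ : Finset (ℤ × ℤ))).card : ℝ)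
      ≤ ((2 * M + 3) / δ) ^ 2 := by
  set N : ℤ := ⌈M / δ⌉ with hN
  have hNpos : 0 < N := Int.ceil_pos.2 (by positivity)
  have hN2 : (N : ℝ) < M / δ + 1 := Int.ceil_lt_add_one _
  have e : ((Finset.Icc (-N) N ×ˢ Finset.Icc (-N) N : Finset (ℤ × ℤ)).card : ℝ) =
      (2 * N + 1) ^ 2 := by
    rw [Finset.card_product, Int.card_Icc, sq]
    push_cast
    have : ((N + 1 - -N).toNat : ℝ) = 2 * N + 1 := by
      have h : ((N + 1 - -N).toNat : ℤ) = 2 * N + 1 := by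
        rw [Int.toNat_of_nonneg (by omega)]
        ring
      exact_mod_cast h
    rw [this]
  rw [e]
  have hNr : (0 : ℝ) < N := by exact_mod_cast hNpos
  apply pow_le_pow_left₀ (by positivity)
  have h5 : 1 ≤ 1 / δ := by
    rw [le_div_iff₀ hδ]
    linarith
  have h6 : (2 * M + 3) / δ = 2 * (M / δ) + 3 * (1 / δ) := by ring
  rw [h6]
  linarith

lemma wt_ev_zero (hf : Csts f K) (hδ : 0 < δ) (hδ1 : δ ≤ 1) (p : ℤ × ℤ) {e : ℤ}
    (he : e = 0 ∨ e = 1) (hne : wt δ f (ev p.1 p.2 + (0, e)) ≠ 0) :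
    |(p.1 : ℝ)| ≤ (4 * K + 20) / δ ∧ |(p.2 : ℝ)| ≤ (4 * K + 20) / δ := by
  have hi : 1 ≤ 1 / δ := by
    rw [le_div_iff₀ hδ]
    linarith
  have hK := hf.pos
  have hKd : K / δ = K * (1 / δ) := by ring
  obtain ⟨h1, h2⟩ := wt_supp hf hδ _ hne
  simp only [ev, Prod.fst_add, Prod.snd_add, add_zero] at h1 h2
  push_cast at h1 h2
  have he1 : |(e : ℝ)| ≤ 1 := by
    rcases he with h | h <;> simp [h]
  rw [hKd] at h1 h2
  have h3 : |(p.1 : ℝ)| ≤ K * (1 / δ) + 4 := by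
    have h4 : |2 * (p.1 : ℝ)| ≤ |2 * (p.1 : ℝ) + e| + |(e : ℝ)| := by
      have := abs_sub (2 * (p.1 : ℝ) + e) (e : ℝ)
      rw [add_sub_cancel_right] at this
      exact this
    rw [abs_mul, abs_of_pos (by norm_num : (0 : ℝ) < 2)] at h4
    linarith
  have h5 : |(p.2 : ℝ)| ≤ 3 * (K * (1 / δ)) + 11 := by
    have h6 : |(p.2 : ℝ)| ≤ |(p.2 : ℝ) - p.1| + |(p.1 : ℝ)| := by
      have := abs_add_le ((p.2 : ℝ) - p.1) (p.1 : ℝ)
      rw [sub_add_cancel] at this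
      exact this
    linarith
  have h7 : 0 < K * (1 / δ) := by positivity
  have h8 : (4 * K + 20) / δ = 4 * (K * (1 / δ)) + 20 * (1 / δ) := by ring
  rw [h8]
  constructor <;> linarith

/-- the remainder is small -/
lemma rem_small (hP : Plane P) {A : ℝ} (hA0 : 0 ≤ A)
    (hA : ∀ j z : ℤ, Vrow P j z ≤ A * (1 + |(j : ℝ)| + |(z : ℝ)|)) (hf : Csts f K)
    (hδ : 0 < δ) (hδ1 : δ ≤ 1) :
    ∫ φ, (∑ᶠ p : ℤ × ℤ, (wt δ f (ev p.1 p.2 + (0, 1)) - wt δ f (ev p.1 p.2)) *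
        (φ (ev p.1 p.2) : ℝ)) ^ 2 ∂P ≤
      K ^ 2 * ((2 * (4 * K + 20) + 3) ^ 4 * (3 * A * (4 * K + 21))) * δ ∧
    Integrable (fun φ : ℤ × ℤ → ℤ => (∑ᶠ p : ℤ × ℤ, (wt δ f (ev p.1 p.2 + (0, 1)) -
      wt δ f (ev p.1 p.2)) * (φ (ev p.1 p.2) : ℝ)) ^ 2) P := by
  have hK := hf.pos
  set M : ℝ := 4 * K + 20 with hM
  have hMp : 0 < M := by positivity
  set U : Finset (ℤ × ℤ) := Finset.Icc (-⌈M / δ⌉) ⌈M / δ⌉ ×ˢ Finset.Icc (-⌈M / δ⌉) ⌈M / δ⌉ with hU
  have key : ∀ φ : ℤ × ℤ → ℤ, (∑ᶠ p : ℤ × ℤ, (wt δ f (ev p.1 p.2 + (0, 1)) -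
      wt δ f (ev p.1 p.2)) * (φ (ev p.1 p.2) : ℝ)) = ∑ p ∈ U, (wt δ f (ev p.1 p.2 + (0, 1)) -
      wt δ f (ev p.1 p.2)) * (φ (ev p.1 p.2) : ℝ) := by
    intro φ
    apply finsum_eq_sum_of_support_subset
    intro p hp
    rw [Function.mem_support] at hp
    have h1 : |(p.1 : ℝ)| ≤ M / δ ∧ |(p.2 : ℝ)| ≤ M / δ := by
      by_cases h0 : wt δ f (ev p.1 p.2 + (0, 1)) = 0
      · apply wt_ev_zero hf hδ hδ1 p (Or.inl rfl)
        intro h2
        apply hp
        have h3 : ev p.1 p.2 + (0, 0) = ev p.1 p.2 := by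
          ext <;> simp
        rw [h3] at h2
        rw [h0, h2]
        ring
      · exact wt_ev_zero hf hδ hδ1 p (Or.inr rfl) h0
    have hc : M / δ ≤ ⌈M / δ⌉ := Int.le_ceil _
    rw [hU, Finset.mem_coe, Finset.mem_product, Finset.mem_Icc, Finset.mem_Icc]
    obtain ⟨a, b⟩ := h1
    rw [abs_le] at a b
    refine ⟨⟨?_, ?_⟩, ?_, ?_⟩
    · have : (-⌈M / δ⌉ : ℝ) ≤ p.1 := by linarith
      exact_mod_cast this
    · have : (p.1 : ℝ) ≤ ⌈M / δ⌉ := by linarith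
      exact_mod_cast this
    · have : (-⌈M / δ⌉ : ℝ) ≤ p.2 := by linarith
      exact_mod_cast this
    · have : (p.2 : ℝ) ≤ ⌈M / δ⌉ := by linarith
      exact_mod_cast this
  simp_rw [key]
  refine ⟨?_, sq_int hP U (fun p => ev p.1 p.2) _⟩
  have h1 := sum_small hP U (fun p => ev p.1 p.2)
    (fun p => wt δ f (ev p.1 p.2 + (0, 1)) - wt δ f (ev p.1 p.2)) (m := K * δ ^ 3)
    (v := 3 * A * (M + 1) / δ) (fun p _ => by
      refine (wt_lip hf hδ _ _).trans ?_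
      rw [pos_add, add_sub_cancel_left, pos_one]
      have : ‖((1 / 2 : ℝ), √3 / 2)‖ ≤ 1 := by
        rw [Prod.norm_def, sup_le_iff, Real.norm_eq_abs, Real.norm_eq_abs,
          abs_of_pos (by positivity), abs_of_pos (by positivity)]
        constructor
        · norm_num
        · linarith [sqrt3_le]
      exact mul_le_of_le_one_right (by positivity) this) (fun p hp => by
      rw [hU, Finset.mem_product, Finset.mem_Icc, Finset.mem_Icc] at hp
      refine (hA p.1 p.2).trans ?_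
      have hc : (⌈M / δ⌉ : ℝ) < M / δ + 1 := Int.ceil_lt_add_one _
      have a1 : |(p.1 : ℝ)| ≤ ⌈M / δ⌉ := by
        rw [abs_le]
        constructor
        · exact_mod_cast hp.1.1
        · exact_mod_cast hp.1.2
      have a2 : |(p.2 : ℝ)| ≤ ⌈M / δ⌉ := by
        rw [abs_le]
        constructor
        · exact_mod_cast hp.2.1
        · exact_mod_cast hp.2.2
      have h5 : 1 ≤ 1 / δ := by
        rw [le_div_iff₀ hδ]
        linarith
      have h6 : 3 * A * (M + 1) / δ = A * (3 * (M / δ) + 3 * (1 / δ)) := by ring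
      rw [h6]
      apply mul_le_mul_of_nonneg_left _ hA0
      have h7 : 0 ≤ M / δ := by positivity
      linarith)
  refine h1.trans ?_
  have hc0 : (0 : ℝ) ≤ U.card := by positivity
  have hcard := card_box hMp hδ hδ1
  rw [← hU] at hcard
  have q4 : (U.card : ℝ) ^ 2 ≤ (((2 * M + 3) / δ) ^ 2) ^ 2 := pow_le_pow_left₀ hc0 hcard 2
  have q5 : (U.card : ℝ) ^ 2 * (3 * A * (M + 1) / δ) ≤
      (((2 * M + 3) / δ) ^ 2) ^ 2 * (3 * A * (M + 1) / δ) :=
    mul_le_mul_of_nonneg_right q4 (by positivity)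
  refine (mul_le_mul_of_nonneg_left q5 (by positivity)).trans (le_of_eq ?_)
  rw [hM]
  field_simp
  ring

/-- rotated version of `stag` -/
lemma stag_r (hP : Plane P) (hdec : Tendsto (fun p : ℤ × ℤ => Vrow P p.1 (p.2 + 1) +
    Vrow P p.1 (p.2 - 1) - 2 * Vrow P p.1 p.2) cofinite (𝓝 0)) {A : ℝ} (hA0 : 0 ≤ A)
    (hA : ∀ j z : ℤ, Vrow P j z ≤ A * (1 + |(j : ℝ)| + |(z : ℝ)|)) (hf : Csts f K)
    (δ : ℕ → ℝ) (hδ : ∀ n, 0 < δ n) (hδ1 : ∀ n, δ n ≤ 1) (ht : Tendsto δ atTop (𝓝 0))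
    (r : ℤ × ℤ → ℤ × ℤ) (e : ℤ × ℤ) (he : ‖pos e‖ ≤ 1) (hr : ∀ v, r (v + (1, 0)) = r v + e)
    (hr2 : ∀ (v : ℤ × ℤ) (M : ℝ), |((r v).1 : ℝ)| ≤ M → |((r v).2 : ℝ)| ≤ M →
      |(v.1 : ℝ)| ≤ 4 * M ∧ |(v.2 : ℝ)| ≤ 4 * M) :
    Tendsto (fun n => ∫ φ, (∑ᶠ v : ℤ × ℤ, s0 v * wt (δ n) f (r v) * (φ v : ℝ)) ^ 2 ∂P) atTop
      (𝓝 0) := by
  have hK := hf.pos
  refine stag hP hdec hA0 hA (K := 8 * K + 28) (by positivity) δ hδ hδ1 ht
    (fun n v => wt (δ n) f (r v)) ?_ ?_ ?_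
  · intro n v
    refine (abs_wt_le hf (hδ n) _).trans ?_
    have := hδ n
    apply mul_le_mul_of_nonneg_right _ (by positivity)
    linarith
  · intro n v
    have h0 := hδ n
    rw [hr]
    refine (wt_lip hf (hδ n) _ _).trans ?_
    rw [pos_add, add_sub_cancel_left]
    refine (mul_le_of_le_one_right (by positivity) he).trans ?_
    apply mul_le_mul_of_nonneg_right _ (by positivity)
    linarith
  · intro n v hv
    obtain ⟨a, b⟩ := wt_supp hf (hδ n) _ hv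
    have h0 := hδ n
    have h5 : 1 ≤ 1 / δ n := by
      rw [le_div_iff₀ h0]
      linarith [hδ1 n]
    have h6 : (8 * K + 28) / δ n = 4 * (2 * (K / δ n) + 7 * (1 / δ n)) := by ring
    rw [h6]
    apply hr2 v
    · linarith
    · linarith

theorem close (hP : Plane P) (hdec : Tendsto (fun p : ℤ × ℤ => Vrow P p.1 (p.2 + 1) +
    Vrow P p.1 (p.2 - 1) - 2 * Vrow P p.1 p.2) cofinite (𝓝 0)) {A : ℝ} (hA0 : 0 ≤ A)
    (hA : ∀ j z : ℤ, Vrow P j z ≤ A * (1 + |(j : ℝ)| + |(z : ℝ)|)) (hf : Csts f K)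
    (δ : ℕ → ℝ) (hδ : ∀ n, 0 < δ n) (hδ1 : ∀ n, δ n ≤ 1) (ht : Tendsto δ atTop (𝓝 0)) :
    Tendsto (fun n => ∫ φ, (smear φ (δ n) f - rowS (δ n) f φ) ^ 2 ∂P) atTop (𝓝 0) ∧
    ∀ n, Integrable (fun φ : ℤ × ℤ → ℤ => (smear φ (δ n) f - rowS (δ n) f φ) ^ 2) P := by
  have hK := hf.pos
  set D : (ℤ × ℤ → ℝ) → ℕ → (ℤ × ℤ → ℤ) → ℝ := fun s n φ =>
    ∑ᶠ v : ℤ × ℤ, s v * wt (δ n) f v * (φ v : ℝ) with hD
  set R : ℕ → (ℤ × ℤ → ℤ) → ℝ := fun n φ => ∑ᶠ p : ℤ × ℤ, (wt (δ n) f (ev p.1 p.2 + (0, 1)) -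
      wt (δ n) f (ev p.1 p.2)) * (φ (ev p.1 p.2) : ℝ) with hR
  have hDm : ∀ s n, Measurable fun φ => D s n φ ^ 2 := by
    intro s n
    have : (fun φ => D s n φ ^ 2) = fun φ : ℤ × ℤ → ℤ =>
        (∑ v ∈ (wt_support_finite hf (hδ n)).toFinset, (s v * wt (δ n) f v) * ((φ v : ℤ) : ℝ)) ^ 2 := by
      ext φ
      simp only [hD]
      rw [finsum_stat (wt_support_finite hf (hδ n))]
    rw [this]
    exact meas_stat _ _
  have hDi : ∀ s n, Integrable (fun φ => D s n φ ^ 2) P := by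
    intro s n
    have : (fun φ => D s n φ ^ 2) = fun φ : ℤ × ℤ → ℤ =>
        (∑ v ∈ (wt_support_finite hf (hδ n)).toFinset, (s v * wt (δ n) f v) * ((φ v : ℤ) : ℝ)) ^ 2 := by
      ext φ
      simp only [hD]
      rw [finsum_stat (wt_support_finite hf (hδ n))]
    rw [this]
    exact sq_int hP _ (fun v => v) _
  have hsq : ∀ n φ, (smear φ (δ n) f - rowS (δ n) f φ) ^ 2 ≤
      4 * D s0 n φ ^ 2 + 4 * D s1 n φ ^ 2 + 4 * D s2 n φ ^ 2 + 4 * R n φ ^ 2 := by
    intro n φ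
    rw [decomp hf (hδ n) φ]
    nlinarith [sq_nonneg (D s0 n φ + D s1 n φ), sq_nonneg (D s0 n φ + D s2 n φ),
      sq_nonneg (D s0 n φ - R n φ), sq_nonneg (D s1 n φ - D s2 n φ),
      sq_nonneg (D s1 n φ + R n φ), sq_nonneg (D s2 n φ + R n φ)]
  have hRi := fun n => (rem_small hP hA0 hA hf (hδ n) (hδ1 n)).2
  have hRb := fun n => (rem_small hP hA0 hA hf (hδ n) (hδ1 n)).1
  have i0 := fun n => (hDi s0 n).const_mul 4
  have i1 := fun n => (hDi s1 n).const_mul 4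
  have i2 := fun n => (hDi s2 n).const_mul 4
  have i3 : ∀ n, Integrable (fun φ => 4 * R n φ ^ 2) P := fun n => (hRi n).const_mul 4
  have i4 : ∀ n, Integrable (fun φ => 4 * D s0 n φ ^ 2 + 4 * D s1 n φ ^ 2) P :=
    fun n => (i0 n).add (i1 n)
  have i5 : ∀ n, Integrable (fun φ => 4 * D s0 n φ ^ 2 + 4 * D s1 n φ ^ 2 +
    4 * D s2 n φ ^ 2) P := fun n => (i4 n).add (i2 n)
  have i6 : ∀ n, Integrable (fun φ => 4 * D s0 n φ ^ 2 + 4 * D s1 n φ ^ 2 +
    4 * D s2 n φ ^ 2 + 4 * R n φ ^ 2) P := fun n => (i5 n).add (i3 n)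
  have hup : ∀ n, ∫ φ, (smear φ (δ n) f - rowS (δ n) f φ) ^ 2 ∂P ≤
      4 * (∫ φ, D s0 n φ ^ 2 ∂P) + 4 * (∫ φ, D s1 n φ ^ 2 ∂P) + 4 * (∫ φ, D s2 n φ ^ 2 ∂P) +
        4 * ∫ φ, R n φ ^ 2 ∂P := by
    intro n
    refine (integral_mono_of_nonneg (ae_of_all _ fun φ => sq_nonneg _) (i6 n)
      (ae_of_all _ (hsq n))).trans ?_
    rw [integral_add (i5 n) (i3 n), integral_add (i4 n) (i2 n), integral_add (i0 n) (i1 n),
      integral_const_mul, integral_const_mul, integral_const_mul, integral_const_mul]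
  have t0 : Tendsto (fun n => ∫ φ, D s0 n φ ^ 2 ∂P) atTop (𝓝 0) := by
    refine stag_r hP hdec hA0 hA hf δ hδ hδ1 ht (fun v => v) (1, 0) ?_ (fun v => rfl) ?_
    · unfold pos
      rw [Prod.norm_def, sup_le_iff, Real.norm_eq_abs, Real.norm_eq_abs]
      constructor <;> norm_num
    · intro v M h1 h2
      have := abs_nonneg (v.1 : ℝ)
      constructor <;> linarith
  have e1 : ∀ n, ∫ φ, D s1 n φ ^ 2 ∂P =
      ∫ φ, (∑ᶠ v : ℤ × ℤ, s0 v * wt (δ n) f (rot v) * ((φ v : ℤ) : ℝ)) ^ 2 ∂P := by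
    intro n
    have h1 : ∀ φ : ℤ × ℤ → ℤ, D s1 n φ =
        ∑ᶠ v : ℤ × ℤ, s0 v * wt (δ n) f (rot v) * ((φ (rot v) : ℤ) : ℝ) := by
      intro φ
      rw [hD]
      simp only
      rw [← finsum_comp_equiv rotE]
      apply finsum_congr
      intro v
      show s1 (rot v) * wt (δ n) f (rot v) * (φ (rot v) : ℝ) = _
      rw [s1_rot]
    simp_rw [h1]
    have hm : Measurable fun φ : ℤ × ℤ → ℤ =>
        (∑ᶠ v : ℤ × ℤ, s0 v * wt (δ n) f (rot v) * ((φ v : ℤ) : ℝ)) ^ 2 := by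
      have hb : (Function.support fun v => wt (δ n) f (rot v)).Finite :=
        (wt_support_finite hf (hδ n)).preimage rotE.injective.injOn
      have : (fun φ : ℤ × ℤ → ℤ =>
          (∑ᶠ v : ℤ × ℤ, s0 v * wt (δ n) f (rot v) * ((φ v : ℤ) : ℝ)) ^ 2) =
          fun φ : ℤ × ℤ → ℤ =>
          (∑ v ∈ hb.toFinset, (s0 v * wt (δ n) f (rot v)) * ((φ v : ℤ) : ℝ)) ^ 2 := by
        ext φ
        rw [finsum_stat hb]
      rw [this]
      exact meas_stat _ _
    exact int_rot hP hm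
  have t1 : Tendsto (fun n => ∫ φ, D s1 n φ ^ 2 ∂P) atTop (𝓝 0) := by
    simp_rw [e1]
    refine stag_r hP hdec hA0 hA hf δ hδ hδ1 ht rot (0, 1) ?_ (fun v => ?_) ?_
    · rw [pos_one, Prod.norm_def, sup_le_iff, Real.norm_eq_abs, Real.norm_eq_abs,
        abs_of_pos (by positivity), abs_of_pos (by positivity)]
      constructor
      · norm_num
      · linarith [sqrt3_le]
    · unfold rot
      ext <;> simp
      ring
    · intro v M h1 h2
      unfold rot at h1 h2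
      push_cast at h1 h2
      rw [abs_neg] at h1
      have h3 : |(v.1 : ℝ)| ≤ |(v.1 : ℝ) + v.2| + |(v.2 : ℝ)| := by
        have := abs_sub ((v.1 : ℝ) + v.2) (v.2 : ℝ)
        rw [add_sub_cancel_right] at this
        exact this
      have := abs_nonneg (v.2 : ℝ)
      constructor <;> linarith
  have e2 : ∀ n, ∫ φ, D s2 n φ ^ 2 ∂P =
      ∫ φ, (∑ᶠ v : ℤ × ℤ, s0 v * wt (δ n) f (rot (rot v)) * ((φ v : ℤ) : ℝ)) ^ 2 ∂P := by
    intro n
    have h1 : ∀ φ : ℤ × ℤ → ℤ, D s2 n φ =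
        ∑ᶠ v : ℤ × ℤ, s0 v * wt (δ n) f (rot (rot v)) * ((φ (rot (rot v)) : ℤ) : ℝ) := by
      intro φ
      rw [hD]
      simp only
      rw [← finsum_comp_equiv rotE, ← finsum_comp_equiv rotE]
      apply finsum_congr
      intro v
      show s2 (rot (rot v)) * wt (δ n) f (rot (rot v)) * (φ (rot (rot v)) : ℝ) = _
      rw [s2_rot]
    simp_rw [h1]
    have hb : (Function.support fun v => wt (δ n) f (rot (rot v))).Finite :=
      ((wt_support_finite hf (hδ n)).preimage rotE.injective.injOn).preimage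
        rotE.injective.injOn
    have hm : Measurable fun φ : ℤ × ℤ → ℤ =>
        (∑ᶠ v : ℤ × ℤ, s0 v * wt (δ n) f (rot (rot v)) * ((φ v : ℤ) : ℝ)) ^ 2 := by
      have : (fun φ : ℤ × ℤ → ℤ =>
          (∑ᶠ v : ℤ × ℤ, s0 v * wt (δ n) f (rot (rot v)) * ((φ v : ℤ) : ℝ)) ^ 2) =
          fun φ : ℤ × ℤ → ℤ =>
          (∑ v ∈ hb.toFinset, (s0 v * wt (δ n) f (rot (rot v))) * ((φ v : ℤ) : ℝ)) ^ 2 := by
        ext φ
        rw [finsum_stat hb]
      rw [this]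
      exact meas_stat _ _
    have h2 := int_rot hP hm
    have h3 := int_rot hP (G := fun φ : ℤ × ℤ → ℤ => (∑ᶠ v : ℤ × ℤ, s0 v *
      wt (δ n) f (rot (rot v)) * ((φ (rot v) : ℤ) : ℝ)) ^ 2) (hm.comp measurable_rotmap)
    exact h3.trans h2
  have t2 : Tendsto (fun n => ∫ φ, D s2 n φ ^ 2 ∂P) atTop (𝓝 0) := by
    simp_rw [e2]
    refine stag_r hP hdec hA0 hA hf δ hδ hδ1 ht (fun v => rot (rot v)) (-1, 1) ?_ (fun v => ?_) ?_
    · unfold pos
      rw [Prod.norm_def, sup_le_iff, Real.norm_eq_abs, Real.norm_eq_abs]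
      constructor
      · norm_num
      · push_cast
        rw [one_mul, abs_of_pos (by positivity)]
        linarith [sqrt3_le]
    · unfold rot
      ext <;> simp
      ring
    · intro v M h1 h2
      unfold rot at h1 h2
      push_cast at h1 h2
      rw [abs_neg] at h1
      have h3 : -(v.2 : ℝ) + (v.1 + v.2) = v.1 := by ring
      rw [h3] at h2
      have h4 : |(v.2 : ℝ)| ≤ |(v.1 : ℝ) + v.2| + |(v.1 : ℝ)| := by
        have := abs_sub ((v.1 : ℝ) + v.2) (v.1 : ℝ)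
        rw [add_sub_cancel_left] at this
        exact this
      have := abs_nonneg (v.1 : ℝ)
      constructor <;> linarith
  have t3 : Tendsto (fun n => ∫ φ, R n φ ^ 2 ∂P) atTop (𝓝 0) := by
    have h1 : Tendsto (fun n => K ^ 2 * ((2 * (4 * K + 20) + 3) ^ 4 * (3 * A * (4 * K + 21))) *
        δ n) atTop (𝓝 0) := by
      simpa using ht.const_mul (K ^ 2 * ((2 * (4 * K + 20) + 3) ^ 4 * (3 * A * (4 * K + 21))))
    exact squeeze_zero (fun n => integral_nonneg fun φ => sq_nonneg _) hRb h1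
  have hmeas : ∀ n, AEStronglyMeasurable (fun φ : ℤ × ℤ → ℤ =>
      (smear φ (δ n) f - rowS (δ n) f φ) ^ 2) P := by
    intro n
    have hs1 : Measurable fun φ : ℤ × ℤ → ℤ => smear φ (δ n) f := by
      have : (fun φ : ℤ × ℤ → ℤ => smear φ (δ n) f) =
          fun φ => ∑ v ∈ (wt_support_finite hf (hδ n)).toFinset,
            (1 * wt (δ n) f v) * ((φ v : ℤ) : ℝ) := by
        ext φ
        rw [smear_finsum hf (hδ n), ← finsum_stat]
        apply finsum_congr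
        intro v
        ring
      rw [this]
      exact Finset.measurable_sum _ fun v _ => (measurable_coord v).const_mul _
    have hs2 : Measurable fun φ : ℤ × ℤ → ℤ => rowS (δ n) f φ := by
      have hb : (Function.support fun p : ℤ × ℤ => rowW (δ n) f p.1 p.2).Finite := by
        apply ((fs_ev (wt_support_finite hf (hδ n))).union
          (fs_ev' (wt_support_finite hf (hδ n)))).subset
        intro v hv
        rw [Set.mem_union, Function.mem_support, Function.mem_support]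
        rw [Function.mem_support] at hv
        by_contra hcon
        rw [not_or, not_not, not_not] at hcon
        apply hv
        unfold rowW
        rw [hcon.1, hcon.2, add_zero]
      have : (fun φ : ℤ × ℤ → ℤ => rowS (δ n) f φ) =
          fun φ => ∑ p ∈ hb.toFinset, rowW (δ n) f p.1 p.2 * ((φ (ev p.1 p.2) : ℤ) : ℝ) := by
        ext φ
        unfold rowS
        apply finsum_eq_sum_of_support_subset
        intro v hv
        rw [Function.mem_support] at hv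
        rw [Finset.mem_coe, Set.Finite.mem_toFinset, Function.mem_support]
        intro h
        apply hv
        rw [h, zero_mul]
      rw [this]
      exact Finset.measurable_sum _ fun v _ => (measurable_coord _).const_mul _
    exact ((hs1.sub hs2).pow_const 2).aestronglyMeasurable
  constructor
  · have h1 := (((t0.const_mul 4).add (t1.const_mul 4)).add (t2.const_mul 4)).add (t3.const_mul 4)
    simp only [mul_zero, add_zero] at h1
    exact squeeze_zero (fun n => integral_nonneg fun φ => sq_nonneg _) hup h1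
  · intro n
    exact (i6 n).mono' (hmeas n) (ae_of_all _ fun φ => by
      rw [Real.norm_of_nonneg (sq_nonneg _)]
      exact hsq n φ)

end Vale.Agent.P153.GFF
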