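import Vale.Agent.P153.GFF.Stag

/-!
# P153 GFF: the smeared field is asymptotically a linear statistic of the even rows
-/

open MeasureTheory Filter Topology Set

namespace Vale.Agent.P153.GFF

open Vale.Agent.P153.CLT (coord_bdd integrable_mul_coord measurable_coord msd_eq hev)

variable {P : Measure (ℤ × ℤ → ℤ)}

def rotE : ℤ × ℤ ≃ ℤ × ℤ where
  toFun := rot
  invFun v := (v.1 + v.2, -v.1)
  left_inv := by
    rintro ⟨x, y⟩
    simp [rot]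
  right_inv := by
    rintro ⟨x, y⟩
    simp [rot]

/-- rotated staggerings -/
noncomputable def s1 (v : ℤ × ℤ) : ℝ :=
  (if 2 ∣ v.1 then 1 else 0) - 2 * (if 2 ∣ v.1 ∧ 2 ∣ v.2 then 1 else 0)

noncomputable def s2 (v : ℤ × ℤ) : ℝ :=
  (if 2 ∣ v.1 + v.2 then 1 else 0) - 2 * (if 2 ∣ v.1 ∧ 2 ∣ v.2 then 1 else 0)

lemma s1_rot (u : ℤ × ℤ) : s1 (rot u) = s0 u := by
  unfold s1 s0 rot
  have h1 : (2 ∣ -u.2) ↔ (2 ∣ u.2) := by omega
  have h2 : (2 ∣ u.2 ∧ 2 ∣ u.1 + u.2) ↔ (2 ∣ u.1 ∧ 2 ∣ u.2) := by omega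
  simp only [h1, h2]

lemma s2_rot (u : ℤ × ℤ) : s2 (rot (rot u)) = s0 u := by
  unfold s2 s0 rot
  have h1 : (2 ∣ -(u.1 + u.2) + (-u.2 + (u.1 + u.2))) ↔ (2 ∣ u.2) := by omega
  have h2 : (2 ∣ -(u.1 + u.2) ∧ 2 ∣ -u.2 + (u.1 + u.2)) ↔ (2 ∣ u.1 ∧ 2 ∣ u.2) := by omega
  simp only [h1, h2]

lemma s_sum (v : ℤ × ℤ) : (1 : ℝ) = 2 * (if 2 ∣ v.2 then 1 else 0) - s0 v + s1 v + s2 v := by
  unfold s0 s1 s2
  by_cases h1 : (2 : ℤ) ∣ v.1 <;> by_cases h2 : (2 : ℤ) ∣ v.2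
  · have h3 : (2 : ℤ) ∣ v.1 + v.2 := by omega
    simp only [h1, h2, h3, if_true, and_self]
    norm_num
  · have h3 : ¬(2 : ℤ) ∣ v.1 + v.2 := by omega
    simp only [h1, h2, h3, if_true, if_false, and_false]
    norm_num
  · have h3 : ¬(2 : ℤ) ∣ v.1 + v.2 := by omega
    simp only [h1, h2, h3, if_true, if_false, false_and]
    norm_num
  · have h3 : (2 : ℤ) ∣ v.1 + v.2 := by omega
    simp only [h1, h2, h3, if_true, if_false, false_and]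
    norm_num

lemma measurable_rotmap : Measurable (fun (φ : ℤ × ℤ → ℤ) (x : ℤ × ℤ) => φ (rot x)) :=
  measurable_pi_iff.2 fun x => measurable_pi_apply _

lemma int_rot (hP : Plane P) {G : (ℤ × ℤ → ℤ) → ℝ} (hG : Measurable G) :
    ∫ φ : ℤ × ℤ → ℤ, G (fun x => φ (rot x)) ∂P = ∫ φ, G φ ∂P := by
  conv_rhs => rw [← hP.rot]
  rw [integral_map measurable_rotmap.aemeasurable hG.aestronglyMeasurable]

lemma meas_stat (S : Finset (ℤ × ℤ)) (c : ℤ × ℤ → ℝ) :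
    Measurable (fun φ : ℤ × ℤ → ℤ => (∑ v ∈ S, c v * ((φ v : ℤ) : ℝ)) ^ 2) :=
  (Finset.measurable_sum _ fun v _ => (measurable_coord v).const_mul (c v)).pow_const 2

lemma finsum_stat {b : ℤ × ℤ → ℝ} (hb : (Function.support b).Finite) (s : ℤ × ℤ → ℝ)
    (φ : ℤ × ℤ → ℤ) :
    ∑ᶠ v : ℤ × ℤ, s v * b v * (φ v : ℝ) = ∑ v ∈ hb.toFinset, (s v * b v) * (φ v : ℝ) := by
  apply finsum_eq_sum_of_support_subset
  intro v hv
  rw [Function.mem_support] at hv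
  rw [Finset.mem_coe, Set.Finite.mem_toFinset, Function.mem_support]
  intro h
  apply hv
  rw [h, mul_zero, zero_mul]

/-- The growth bound used below. -/
lemma growth {κ : ℝ} (hg : Tendsto (fun p : ℤ × ℤ => Vrow P p.1 p.2 /
    Real.log (√((p.2 : ℝ) ^ 2 + (√3) ^ 2 * (p.1 : ℝ) ^ 2))) cofinite (𝓝 κ)) :
    ∃ A, 0 ≤ A ∧ ∀ j z : ℤ, Vrow P j z ≤ A * (1 + |(j : ℝ)| + |(z : ℝ)|) := by
  have hV0 : ∀ p : ℤ × ℤ, 0 ≤ Vrow P p.1 p.2 := fun p => integral_nonneg fun φ => sq_nonneg _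
  have h1 := hg.eventually (Metric.ball_mem_nhds κ one_pos)
  rw [Filter.eventually_cofinite] at h1
  set T : Finset (ℤ × ℤ) := h1.toFinset ∪ (Finset.Icc (-1) 1 ×ˢ Finset.Icc (-1) 1) with hT
  refine ⟨2 * (|κ| + 1) + ∑ p ∈ T, Vrow P p.1 p.2,
    add_nonneg (by positivity) (Finset.sum_nonneg fun p _ => hV0 p), fun j z => ?_⟩
  have hS : 0 ≤ ∑ p ∈ T, Vrow P p.1 p.2 := Finset.sum_nonneg fun p _ => hV0 p
  have hx : 0 ≤ |(j : ℝ)| + |(z : ℝ)| := by positivity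
  by_cases hp : (j, z) ∈ T
  · have h2 : Vrow P j z ≤ ∑ p ∈ T, Vrow P p.1 p.2 :=
      Finset.single_le_sum (f := fun p : ℤ × ℤ => Vrow P p.1 p.2) (fun p _ => hV0 p) hp
    have h3 : 0 ≤ |κ| := abs_nonneg κ
    nlinarith [mul_nonneg h3 hx, mul_nonneg hS hx]
  · rw [hT, Finset.mem_union, not_or, Set.Finite.mem_toFinset, Set.mem_ofPred_eq, not_not,
      Real.dist_eq] at hp
    obtain ⟨h2, h3⟩ := hp
    simp only at h2
    have hjz : 1 < |j| ∨ 1 < |z| := by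
      by_contra hcon
      rw [not_or, not_lt, not_lt, abs_le, abs_le] at hcon
      apply h3
      rw [Finset.mem_product, Finset.mem_Icc, Finset.mem_Icc]
      exact hcon
    have h3' : (√3) ^ 2 = 3 := Real.sq_sqrt (by norm_num)
    rw [h3'] at h2
    have h4 : (4 : ℝ) ≤ (z : ℝ) ^ 2 + 3 * (j : ℝ) ^ 2 := by
      rcases hjz with h | h
      · have h5 : (2 : ℝ) ≤ |(j : ℝ)| := by exact_mod_cast h
        have h6 : (4 : ℝ) ≤ (j : ℝ) ^ 2 := by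
          rw [← sq_abs]
          nlinarith
        nlinarith [sq_nonneg (z : ℝ)]
      · have h5 : (2 : ℝ) ≤ |(z : ℝ)| := by exact_mod_cast h
        have h6 : (4 : ℝ) ≤ (z : ℝ) ^ 2 := by
          rw [← sq_abs]
          nlinarith
        nlinarith [sq_nonneg (j : ℝ)]
    have h5 : 2 ≤ √((z : ℝ) ^ 2 + 3 * (j : ℝ) ^ 2) := by
      rw [Real.le_sqrt' (by norm_num)]
      linarith
    have h6 : 0 < Real.log (√((z : ℝ) ^ 2 + 3 * (j : ℝ) ^ 2)) := Real.log_pos (by linarith)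
    have h7 : Vrow P j z / Real.log (√((z : ℝ) ^ 2 + 3 * (j : ℝ) ^ 2)) ≤ |κ| + 1 := by
      have := abs_lt.1 h2
      linarith [this.2, le_abs_self κ]
    rw [div_le_iff₀ h6] at h7
    have h8 : Real.log (√((z : ℝ) ^ 2 + 3 * (j : ℝ) ^ 2)) ≤ √((z : ℝ) ^ 2 + 3 * (j : ℝ) ^ 2) :=
      (Real.log_le_sub_one_of_pos (by linarith)).trans (by linarith)
    have h9 : √((z : ℝ) ^ 2 + 3 * (j : ℝ) ^ 2) ≤ 2 * (|(j : ℝ)| + |(z : ℝ)|) := by
      rw [Real.sqrt_le_left (by positivity)]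
      nlinarith [sq_abs (j : ℝ), sq_abs (z : ℝ), abs_nonneg (j : ℝ), abs_nonneg (z : ℝ),
        mul_nonneg (abs_nonneg (j : ℝ)) (abs_nonneg (z : ℝ))]
    have h10 : Vrow P j z ≤ (|κ| + 1) * (2 * (|(j : ℝ)| + |(z : ℝ)|)) :=
      h7.trans (mul_le_mul_of_nonneg_left (h8.trans h9) (by positivity))
    nlinarith [mul_nonneg hS hx, abs_nonneg κ]

end Vale.Agent.P153.GFF
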