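import Vale.Agent.P153.GFF.G3

/-!
# P153 GFF: (G3) for measures which depend on the mesh
-/

set_option linter.all false

namespace Vale.Agent.P153.GFF

open Finset Filter Topology MeasureTheory ProbabilityTheory

theorem g3v (μ : ℝ → Measure (ℤ × ℤ → ℤ)) [hμ : ∀ δ, IsProbabilityMeasure (μ δ)] (κ : ℝ)
    (hc : ∀ F, Test F → Tendsto (fun δ : ℝ => ∫ φ : ℤ × ℤ → ℤ,
      Complex.exp (Complex.I * ((smear φ δ F : ℝ) : ℂ)) ∂(μ δ)) (𝓝[>] 0)
      (𝓝 (Complex.exp (-((κ * gffCov F F / 2 : ℝ) : ℂ))))) (m : ℕ) (f : Fin m → ℝ × ℝ → ℝ)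
    (hf : ∀ j, Test (f j)) :
    (Matrix.of (fun i j => κ * gffCov (f i) (f j))).PosSemidef ∧
      TendstoInDistribution (fun (δ : ℝ) (φ : ℤ × ℤ → ℤ) =>
        (WithLp.toLp 2 (fun j => smear φ δ (f j)) : EuclideanSpace ℝ (Fin m))) (𝓝[>] 0)
        (id : EuclideanSpace ℝ (Fin m) → EuclideanSpace ℝ (Fin m)) (fun δ => μ δ)
        (multivariateGaussian 0 (Matrix.of (fun i j => κ * gffCov (f i) (f j)))) := by
  have hsym : ∀ i j, gffCov (f i) (f j) = gffCov (f j) (f i) := fun i j =>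
    g3cov_symm (hf i).1.continuous (hf j).1.continuous (hf i).2.1 (hf j).2.1
  have hbil : ∀ θ : Fin m → ℝ, gffCov (fun x => ∑ j, θ j * f j x) (fun x => ∑ j, θ j * f j x)
      = ∑ i, ∑ j, θ i * θ j * gffCov (f i) (f j) := fun θ =>
    g3cov_sum f (fun j => (hf j).1.continuous) (fun j => (hf j).2.1) θ
  -- nonnegativity of the variance
  have hnn : ∀ F, Test F → 0 ≤ κ * gffCov F F := by
    intro F hF
    have h1 : ‖Complex.exp (-((κ * gffCov F F / 2 : ℝ) : ℂ))‖ ≤ 1 := by
      refine le_of_tendsto (hc F hF).norm (Eventually.of_forall fun δ => ?_)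
      refine (norm_integral_le_integral_norm _).trans ?_
      have h2 : ∀ φ : ℤ × ℤ → ℤ, ‖Complex.exp (Complex.I * ((smear φ δ F : ℝ) : ℂ))‖ = 1 := by
        intro φ
        rw [mul_comm, Complex.norm_exp_ofReal_mul_I]
      simp [h2]
    rw [Complex.norm_exp, Real.exp_le_one_iff, Complex.neg_re, Complex.ofReal_re] at h1
    linarith
  have hq : ∀ θ : Fin m → ℝ, ∑ i, ∑ j, θ i * θ j * (κ * gffCov (f i) (f j)) =
      κ * gffCov (fun x => ∑ j, θ j * f j x) (fun x => ∑ j, θ j * f j x) := by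
    intro θ
    rw [hbil θ, Finset.mul_sum]
    refine Finset.sum_congr rfl fun i _ => ?_
    rw [Finset.mul_sum]
    exact Finset.sum_congr rfl fun j _ => by ring
  have hdot : ∀ θ : Fin m → ℝ,
      θ ⬝ᵥ (Matrix.of (fun i j => κ * gffCov (f i) (f j))).mulVec θ =
        κ * gffCov (fun x => ∑ j, θ j * f j x) (fun x => ∑ j, θ j * f j x) := by
    intro θ
    rw [← hq θ]
    simp only [dotProduct, Matrix.mulVec, Matrix.of_apply, Finset.mul_sum]
    exact Finset.sum_congr rfl fun i _ => Finset.sum_congr rfl fun j _ => by ring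
  have hpsd : (Matrix.of (fun i j => κ * gffCov (f i) (f j))).PosSemidef := by
    refine Matrix.PosSemidef.of_dotProduct_mulVec_nonneg ?_ fun θ => ?_
    · ext i j
      simp [Matrix.conjTranspose_apply, hsym i j]
    · rw [star_trivial, hdot θ]
      exact hnn _ (g3test f hf θ)
  refine ⟨hpsd, ?_⟩
  have hX : ∀ δ : ℝ, AEMeasurable (fun φ : ℤ × ℤ → ℤ =>
      (WithLp.toLp 2 (fun j => smear φ δ (f j)) : EuclideanSpace ℝ (Fin m))) (μ δ) := by
    intro δ
    exact (WithLp.measurable_toLp 2 (Fin m → ℝ)).comp_aemeasurable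
      (aemeasurable_pi_lambda _ fun j => (g3meas δ (hf j)).aemeasurable)
  refine ⟨hX, by fun_prop, ?_⟩
  refine tendsto_of_seq_tendsto fun s hs => ?_
  refine ProbabilityMeasure.tendsto_of_tendsto_charFun fun t => ?_
  have hid : (multivariateGaussian 0 (Matrix.of (fun i j => κ * gffCov (f i) (f j)))).map
      (id : EuclideanSpace ℝ (Fin m) → EuclideanSpace ℝ (Fin m)) =
      multivariateGaussian 0 (Matrix.of (fun i j => κ * gffCov (f i) (f j))) := Measure.map_id
  simp only [Function.comp_apply, ProbabilityMeasure.coe_mk, hid]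
  rw [charFun_multivariateGaussian hpsd]
  have hF := g3test f hf (fun j => t j)
  have h1 := (hc _ hF).comp hs
  have h2 : Complex.exp (((inner ℝ t (0 : EuclideanSpace ℝ (Fin m)) : ℝ) : ℂ) * Complex.I -
      ((t : Fin m → ℝ) ⬝ᵥ (Matrix.of (fun i j => κ * gffCov (f i) (f j))).mulVec t : ℝ) / 2) =
      Complex.exp (-((κ * gffCov (fun x => ∑ j, t j * f j x)
        (fun x => ∑ j, t j * f j x) / 2 : ℝ) : ℂ)) := by
    rw [hdot, inner_zero_right]
    congr 1
    push_cast
    ring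
  rw [h2]
  refine h1.congr' ?_
  have hpos : ∀ᶠ n in atTop, 0 < s n := by
    have := hs.eventually self_mem_nhdsWithin
    simpa using this
  filter_upwards [hpos] with n hn
  change ∫ φ : ℤ × ℤ → ℤ, Complex.exp (Complex.I *
      ((smear φ (s n) (fun x => ∑ j, t j * f j x) : ℝ) : ℂ)) ∂(μ (s n)) =
    charFun ((μ (s n)).map (fun φ : ℤ × ℤ → ℤ =>
      (WithLp.toLp 2 (fun j => smear φ (s n) (f j)) : EuclideanSpace ℝ (Fin m)))) t
  rw [charFun_apply, integral_map (hX (s n)) (by fun_prop)]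
  refine integral_congr_ae (ae_of_all _ fun φ => ?_)
  simp only []
  rw [g3lin φ hn f hf (fun j => t j), mul_comm]
  congr 3

end Vale.Agent.P153.GFF
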