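import Vale.Agent.P153.GFF.Final
import Vale.Agent.P153.GFF.G3v
import Vale.Agent.P153.A.Plane
import Vale.Agent.P153.FkgVar

/-!
# P153 GFF: finite domains which grow fast enough
-/

open MeasureTheory ProbabilityTheory Filter Topology Set

namespace Vale.Agent.P153.GFF

open Vale.Agent.P153.CLT (measurable_coord)
open Vale.Agent.P153.A (Pt pats expand ev_expand Ht_eq_reg)

variable {P : Measure (ℤ × ℤ → ℤ)} {f : ℝ × ℝ → ℝ} {K δ κ : ℝ}

/-! ### Uniform measures -/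

open Classical in
lemma odd2_eq (D : Finset (ℤ × ℤ)) :
    Odd2 D = (((Fv.reg D).image toOdd : Finset (ℤ × ℤ → ℤ)) : Set (ℤ × ℤ → ℤ)) := by
  rw [← toOdd_image, Ht_eq_reg, Finset.coe_image]

lemma unif_prob (D : Finset (ℤ × ℤ)) : IsProbabilityMeasure (uniformOn (Odd2 D)) := by
  classical
  rw [odd2_eq]
  apply isProbabilityMeasure_uniformOn (Finset.finite_toSet _)
  rw [Finset.coe_nonempty]
  exact ⟨toOdd fun _ => 0, Finset.mem_image_of_mem _ (Fv.zero_mem_reg D)⟩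

lemma unif_int (D : Finset (ℤ × ℤ)) (F : (ℤ × ℤ → ℤ) → ℝ) :
    ∫ h, F h ∂(uniformOn (Odd2 D)) = Vale.Agent.P153.ev (Fv.reg D) fun φ => F (toOdd φ) := by
  classical
  rw [odd2_eq, Vale.Agent.P153.integral_uniformOn]
  unfold Vale.Agent.P153.ev
  rw [Finset.sum_image fun a _ b _ h => toOdd_inj h, Finset.card_image_of_injective _ toOdd_inj]

lemma int_cexp {Ω : Type*} [MeasurableSpace Ω] (μ : Measure Ω) [IsProbabilityMeasure μ]
    {X : Ω → ℝ} (hX : Measurable X) : ∫ ω, Complex.exp (Complex.I * (X ω : ℂ)) ∂μ =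
      ((∫ ω, Real.cos (X ω) ∂μ : ℝ) : ℂ) + ((∫ ω, Real.sin (X ω) ∂μ : ℝ) : ℂ) * Complex.I := by
  have h1 : ∀ ω, Complex.exp (Complex.I * (X ω : ℂ)) =
      ((Real.cos (X ω) : ℝ) : ℂ) + ((Real.sin (X ω) : ℝ) : ℂ) * Complex.I := by
    intro ω
    rw [mul_comm, Complex.exp_mul_I, Complex.ofReal_cos, Complex.ofReal_sin]
  simp_rw [h1]
  have i1 : Integrable (fun ω => ((Real.cos (X ω) : ℝ) : ℂ)) μ :=
    (Integrable.of_bound (Real.measurable_cos.comp hX).aestronglyMeasurable 1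
      (ae_of_all _ fun ω => Real.abs_cos_le_one _)).ofReal
  have i2 : Integrable (fun ω => ((Real.sin (X ω) : ℝ) : ℂ) * Complex.I) μ :=
    ((Integrable.of_bound (Real.measurable_sin.comp hX).aestronglyMeasurable 1
      (ae_of_all _ fun ω => Real.abs_sin_le_one _)).ofReal).mul_const _
  rw [integral_add i1 i2, integral_mul_const]
  congr 1
  · exact integral_ofReal
  · congr 1
    exact integral_ofReal

/-! ### Smeared fields are local functions of the differences -/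

lemma smear_toOdd (hf : Csts f K) (h0 : ∫ z, f z = 0) (hδ : 0 < δ) (φ : ℤ × ℤ → ℤ) :
    smear (toOdd φ) δ f = smear φ δ (fun z => 2 * f z) := by
  rw [← smear_dbl, smear_finsum hf hδ, smear_finsum hf hδ]
  have h1 : (∑ᶠ v : ℤ × ℤ, (toOdd φ v : ℝ) * wt δ f v) =
      (∑ᶠ v : ℤ × ℤ, (dbl φ v : ℝ) * wt δ f v) - ∑ᶠ v : ℤ × ℤ, wt δ f v := by
    rw [← finsum_sub_distrib _ (wt_support_finite hf hδ)]
    · apply finsum_congr
      intro v
      unfold toOdd dbl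
      push_cast
      ring
    · apply (wt_support_finite hf hδ).subset
      intro v hv
      rw [Function.mem_support] at hv ⊢
      intro h2
      apply hv
      rw [h2, mul_zero]
  rw [h1, finsum_wt hf hδ, h0, sub_zero]

lemma smear_local (hf : Csts f K) (h0 : ∫ z, f z = 0) (hδ : 0 < δ) {B : Finset (ℤ × ℤ)}
    (hB : (0 : ℤ × ℤ) ∈ B) (hBB : box δ K ⊆ B) {φ ψ : ℤ × ℤ → ℤ}
    (h : ∀ x ∈ B, ∀ y ∈ B, φ x - φ y = ψ x - ψ y) : smear φ δ f = smear ψ δ f := by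
  have hs : ∑ v ∈ box δ K, wt δ f v = 0 := by
    rw [sum_wt hδ hf.pos.le hf.cont hf.supp hf.zero, h0]
  have key : ∀ φ : ℤ × ℤ → ℤ, smear φ δ f = ∑ v ∈ box δ K, ((φ v - φ 0 : ℤ) : ℝ) * wt δ f v := by
    intro φ
    rw [smear_eq_sum hδ hf.pos.le hf.cont hf.supp hf.zero]
    have : ∑ v ∈ box δ K, ((φ v - φ 0 : ℤ) : ℝ) * wt δ f v =
        ∑ v ∈ box δ K, (φ v : ℝ) * wt δ f v - (φ 0 : ℝ) * ∑ v ∈ box δ K, wt δ f v := by
      rw [Finset.mul_sum, ← Finset.sum_sub_distrib]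
      refine Finset.sum_congr rfl fun v _ => ?_
      push_cast
      ring
    rw [this, hs, mul_zero, sub_zero]
  rw [key, key]
  refine Finset.sum_congr rfl fun v hv => ?_
  rw [h v (hBB hv) 0 hB]

/-! ### Comparison -/

open Classical in
lemma integral_expandP (hP : Plane P) {B : Finset (ℤ × ℤ)}
    (hB : (0 : ℤ × ℤ) ∈ B) {F : (ℤ × ℤ → ℤ) → ℝ}
    (hF : ∀ φ ψ : ℤ × ℤ → ℤ, (∀ x ∈ B, ∀ y ∈ B, φ x - φ y = ψ x - ψ y) → F φ = F ψ) :
    ∫ φ, F φ ∂P = ∑ a ∈ pats B, F a * P.real (Pat B a) := by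
  have := hP.prob
  have h1 : ∀ᵐ φ ∂P, F φ = ∑ a ∈ pats B, F a * (Pat B a).indicator (fun _ => (1 : ℝ)) φ := by
    filter_upwards [hP.lip] with φ hφ
    rw [expand hB hF φ hφ]
    refine Finset.sum_congr rfl fun a _ => ?_
    rw [Set.indicator_apply]
  rw [integral_congr_ae h1, integral_finsetSum _ fun a _ =>
    ((integrable_const _).indicator (measurableSet_Pat B a)).const_mul _]
  refine Finset.sum_congr rfl fun a _ => ?_
  rw [integral_const_mul, integral_indicator_const _ (measurableSet_Pat B a), smul_eq_mul, mul_one]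

/-- the error for the patterns on `B` -/
noncomputable def perr (P : Measure (ℤ × ℤ → ℤ)) (B D : Finset (ℤ × ℤ)) : ℝ :=
  ∑ a ∈ pats B, |((Ht D ∩ Pat B a).ncard : ℝ) / (Ht D).ncard - P.real (Pat B a)|

lemma ev_close (hP : Plane P) {B : Finset (ℤ × ℤ)} (hB : (0 : ℤ × ℤ) ∈ B)
    {F : (ℤ × ℤ → ℤ) → ℝ}
    (hF : ∀ φ ψ : ℤ × ℤ → ℤ, (∀ x ∈ B, ∀ y ∈ B, φ x - φ y = ψ x - ψ y) → F φ = F ψ)
    (hF1 : ∀ φ, |F φ| ≤ 1) (D : Finset (ℤ × ℤ)) :
    |Vale.Agent.P153.ev (Fv.reg D) F - ∫ φ, F φ ∂P| ≤ perr P B D := by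
  rw [ev_expand hB hF, integral_expandP hP hB hF, ← Finset.sum_sub_distrib]
  refine (Finset.abs_sum_le_sum_abs _ _).trans (Finset.sum_le_sum fun a _ => ?_)
  rw [← mul_sub, abs_mul]
  exact mul_le_of_le_one_left (abs_nonneg _) (hF1 a)

lemma char_close (hP : Plane P) {B : Finset (ℤ × ℤ)} (hB : (0 : ℤ × ℤ) ∈ B)
    (hf : Test f) (hK : Csts (fun z => 2 * f z) K) (hδ : 0 < δ) (hBB : box δ K ⊆ B)
    (D : Finset (ℤ × ℤ)) :
    ‖(∫ h : ℤ × ℤ → ℤ, Complex.exp (Complex.I * ((smear h δ f : ℝ) : ℂ)) ∂(uniformOn (Odd2 D))) -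
      ∫ φ : ℤ × ℤ → ℤ, Complex.exp (Complex.I * ((smear φ δ (fun z => 2 * f z) : ℝ) : ℂ)) ∂P‖ ≤
      2 * perr P B D := by
  have := hP.prob
  have := unif_prob D
  obtain ⟨K', hK'⟩ := hf.csts
  have h20 : ∫ z, 2 * f z = 0 := (test_two hf).2.2
  have hloc : ∀ φ ψ : ℤ × ℤ → ℤ, (∀ x ∈ B, ∀ y ∈ B, φ x - φ y = ψ x - ψ y) →
      smear φ δ (fun z => 2 * f z) = smear ψ δ (fun z => 2 * f z) :=
    fun φ ψ h => smear_local hK h20 hδ hB hBB h
  rw [int_cexp _ (measurable_smear hK' hδ), int_cexp _ (measurable_smear hK hδ), unif_int, unif_int]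
  simp_rw [smear_toOdd hK' hf.2.2 hδ]
  have c1 := ev_close hP hB (F := fun φ => Real.cos (smear φ δ fun z => 2 * f z))
    (fun φ ψ h => by rw [hloc φ ψ h]) (fun φ => Real.abs_cos_le_one _) D
  have c2 := ev_close hP hB (F := fun φ => Real.sin (smear φ δ fun z => 2 * f z))
    (fun φ ψ h => by rw [hloc φ ψ h]) (fun φ => Real.abs_sin_le_one _) D
  set a := Vale.Agent.P153.ev (Fv.reg D) (fun φ => Real.cos (smear φ δ fun z => 2 * f z))
  set b := ∫ φ : ℤ × ℤ → ℤ, Real.cos (smear φ δ fun z => 2 * f z) ∂P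
  set c := Vale.Agent.P153.ev (Fv.reg D) (fun φ => Real.sin (smear φ δ fun z => 2 * f z))
  set d := ∫ φ : ℤ × ℤ → ℤ, Real.sin (smear φ δ fun z => 2 * f z) ∂P
  have e : (a : ℂ) + (c : ℂ) * Complex.I - ((b : ℂ) + (d : ℂ) * Complex.I) =
      ((a - b : ℝ) : ℂ) + ((c - d : ℝ) : ℂ) * Complex.I := by
    push_cast
    ring
  rw [e]
  refine (norm_add_le _ _).trans ?_
  rw [norm_mul, Complex.norm_I, mul_one, Complex.norm_real, Complex.norm_real, Real.norm_eq_abs,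
    Real.norm_eq_abs]
  linarith

/-- the window at mesh `δ` -/
noncomputable def win (δ : ℝ) : Finset (ℤ × ℤ) :=
  insert 0 (Finset.Icc (-⌈1 / δ ^ 2⌉) ⌈1 / δ ^ 2⌉ ×ˢ Finset.Icc (-⌈1 / δ ^ 2⌉) ⌈1 / δ ^ 2⌉)

lemma win_box (K : ℝ) : ∀ᶠ δ : ℝ in 𝓝[>] 0, box δ K ⊆ win δ := by
  have h1 : Tendsto (fun δ : ℝ => 2 * K * δ + 6 * δ ^ 2) (𝓝[>] 0) (𝓝 0) := by
    have : Continuous fun δ : ℝ => 2 * K * δ + 6 * δ ^ 2 := by fun_prop
    have h2 := this.tendsto 0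
    simp only [mul_zero, ne_eq, OfNat.ofNat_ne_zero, not_false_eq_true, zero_pow, add_zero] at h2
    exact h2.mono_left nhdsWithin_le_nhds
  filter_upwards [h1.eventually (gt_mem_nhds one_pos), self_mem_nhdsWithin] with δ hδ1 hδ
  have hδ0 : (0 : ℝ) < δ := hδ
  have h3 : 2 * (K / δ) + 6 ≤ 1 / δ ^ 2 := by
    rw [le_div_iff₀ (by positivity)]
    have : (2 * (K / δ) + 6) * δ ^ 2 = 2 * K * δ + 6 * δ ^ 2 := by
      field_simp
    rw [this]
    exact hδ1.le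
  have h4 : ⌈2 * (K / δ) + 6⌉ ≤ ⌈1 / δ ^ 2⌉ := Int.ceil_le_ceil h3
  intro v hv
  unfold box at hv
  unfold win
  rw [Finset.mem_product, Finset.mem_Icc, Finset.mem_Icc] at hv
  rw [Finset.mem_insert, Finset.mem_product, Finset.mem_Icc, Finset.mem_Icc]
  right
  omega

theorem fin_dom (hP : Plane P) (hS : SpecOut P κ) (hC : RowCLT P κ)
    (hloc : ∀ (B : Finset (ℤ × ℤ)) (a : ℤ × ℤ → ℤ), Tendsto (fun D : Finset (ℤ × ℤ) =>
      ((Ht D ∩ Pat B a).ncard : ℝ) / (Ht D).ncard) (atTop ⊓ 𝓟 {D | A.Cc D})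
        (𝓝 (P.real (Pat B a)))) :
    ∃ R : ℝ → Finset (ℤ × ℤ), ∀ D : ℝ → Finset (ℤ × ℤ), (∀ δ, R δ ⊆ D δ) → (∀ δ, A.Cc (D δ)) →
      ∀ F, Test F → Tendsto (fun δ : ℝ => ∫ h : ℤ × ℤ → ℤ,
        Complex.exp (Complex.I * ((smear h δ F : ℝ) : ℂ)) ∂(uniformOn (Odd2 (D δ)))) (𝓝[>] 0)
        (𝓝 (Complex.exp (-((4 * κ / √3 * gffCov F F / 2 : ℝ) : ℂ)))) := by
  have h1 : ∀ δ : ℝ, 0 < δ → ∃ R : Finset (ℤ × ℤ), ∀ D, R ⊆ D → A.Cc D →
      perr P (win δ) D < δ := by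
    intro δ hδ
    have h2 : Tendsto (fun D => perr P (win δ) D) (atTop ⊓ 𝓟 {D | A.Cc D}) (𝓝 0) := by
      unfold perr
      have h3 : ∀ a ∈ pats (win δ), Tendsto (fun D : Finset (ℤ × ℤ) =>
          |((Ht D ∩ Pat (win δ) a).ncard : ℝ) / (Ht D).ncard - P.real (Pat (win δ) a)|)
          (atTop ⊓ 𝓟 {D | A.Cc D}) (𝓝 0) := by
        intro a _
        have h4 := ((hloc (win δ) a).sub_const (P.real (Pat (win δ) a))).abs
        simpa using h4
      simpa using tendsto_finsetSum _ h3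
    have h5 := h2.eventually (gt_mem_nhds hδ)
    rw [eventually_inf_principal, eventually_atTop] at h5
    obtain ⟨R, hR⟩ := h5
    exact ⟨R, fun D hD hc => hR D hD hc⟩
  classical
  refine ⟨fun δ => if h : 0 < δ then (h1 δ h).choose else ∅, fun D hD hc F hF => ?_⟩
  have hclose : ∀ᶠ δ : ℝ in 𝓝[>] 0, ‖(∫ h : ℤ × ℤ → ℤ,
      Complex.exp (Complex.I * ((smear h δ F : ℝ) : ℂ)) ∂(uniformOn (Odd2 (D δ)))) -
      ∫ φ : ℤ × ℤ → ℤ, Complex.exp (Complex.I * ((smear φ δ (fun z => 2 * F z) : ℝ) : ℂ)) ∂P‖ ≤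
      2 * δ := by
    obtain ⟨K, hK⟩ := (test_two hF).csts
    filter_upwards [win_box K, self_mem_nhdsWithin] with δ hw hδ
    have hδ0 : (0 : ℝ) < δ := hδ
    have h6 := char_close hP (B := win δ) (Finset.mem_insert_self _ _) hF hK hδ0 hw (D δ)
    have h7 := hD δ
    simp only [dif_pos hδ0] at h7
    have h8 := (h1 δ hδ0).choose_spec (D δ) h7 (hc δ)
    linarith
  have h9 := char_fun hP hS hC (test_two hF)
  rw [gffCov_two] at h9
  have h10 : κ / √3 * (4 * gffCov F F) / 2 = 4 * κ / √3 * gffCov F F / 2 := by ring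
  rw [h10] at h9
  have h11 : Tendsto (fun δ : ℝ => (∫ h : ℤ × ℤ → ℤ,
      Complex.exp (Complex.I * ((smear h δ F : ℝ) : ℂ)) ∂(uniformOn (Odd2 (D δ)))) -
      ∫ φ : ℤ × ℤ → ℤ, Complex.exp (Complex.I * ((smear φ δ (fun z => 2 * F z) : ℝ) : ℂ)) ∂P)
      (𝓝[>] 0) (𝓝 0) := by
    apply squeeze_zero_norm' hclose
    have : Tendsto (fun δ : ℝ => 2 * δ) (𝓝 0) (𝓝 (2 * 0)) := tendsto_id.const_mul 2
    rw [mul_zero] at this
    exact this.mono_left nhdsWithin_le_nhds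
  have h12 := h11.add h9
  rw [zero_add] at h12
  refine h12.congr fun δ => ?_
  ring

end Vale.Agent.P153.GFF
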