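import Vale.Agent.P153.GFF.FinDom

/-!
# P153 GFF: convergence in law for finite domains which grow fast enough
-/

open MeasureTheory ProbabilityTheory Filter Topology Set

namespace Vale.Agent.P153.GFF

variable {P : Measure (ℤ × ℤ → ℤ)} {κ : ℝ}

/-- The scaling limit for the uniform odd heights of the finite domains `D δ`. -/
def FinLim (κ : ℝ) (C : Finset (ℤ × ℤ) → Prop) : Prop :=
  ∃ _ : ∀ D : Finset (ℤ × ℤ), IsProbabilityMeasure (uniformOn (Odd2 D)),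
    ∃ R : ℝ → Finset (ℤ × ℤ), ∀ D : ℝ → Finset (ℤ × ℤ), (∀ δ, R δ ⊆ D δ) → (∀ δ, C (D δ)) →
      ∀ (m : ℕ) (f : Fin m → ℝ × ℝ → ℝ), (∀ j, Test (f j)) →
        TendstoInDistribution (fun (δ : ℝ) (h : ℤ × ℤ → ℤ) =>
          (WithLp.toLp 2 (fun j => smear h δ (f j)) : EuclideanSpace ℝ (Fin m))) (𝓝[>] 0)
          (id : EuclideanSpace ℝ (Fin m) → EuclideanSpace ℝ (Fin m))
          (fun δ => uniformOn (Odd2 (D δ)))
          (multivariateGaussian 0 (Matrix.of (fun i j => κ * gffCov (f i) (f j))))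

theorem fin_lim (hP : Plane P) (hS : SpecOut P κ) (hC : RowCLT P κ)
    (hloc : ∀ (B : Finset (ℤ × ℤ)) (a : ℤ × ℤ → ℤ), Tendsto (fun D : Finset (ℤ × ℤ) =>
      ((Ht D ∩ Pat B a).ncard : ℝ) / (Ht D).ncard) (atTop ⊓ 𝓟 {D | A.Cc D})
        (𝓝 (P.real (Pat B a)))) {C : Finset (ℤ × ℤ) → Prop} (hCc : ∀ D, C D → A.Cc D) :
    FinLim (4 * κ / √3) C := by
  refine ⟨unif_prob, ?_⟩
  obtain ⟨R, hR⟩ := fin_dom hP hS hC hloc
  refine ⟨R, fun D hD hc m f hf => ?_⟩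
  have := unif_prob
  exact (g3v (fun δ => uniformOn (Odd2 (D δ))) (4 * κ / √3)
    (hR D hD fun δ => hCc _ (hc δ)) m f hf).2

end Vale.Agent.P153.GFF
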