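import Mathlib.Analysis.SpecialFunctions.FrullaniIntegral
import Mathlib.Analysis.SpecialFunctions.Gaussian.FourierTransform
import Mathlib.MeasureTheory.Integral.IntegralEqImproper
import Mathlib.MeasureTheory.Measure.Lebesgue.EqHaar

/-!
P153, G1, one-variable integrals: subordination of `1/a`, Frullani's integral, Gaussian transform.
-/

namespace Vale.Agent.P153.GFF.G1pf

open MeasureTheory Filter Topology Set

/-! ### `1/a` as an integral -/

/-- Antiderivative. -/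
noncomputable def ant (a s : ℝ) : ℝ := if s ≤ 0 then 0 else Real.exp (-(a / (4 * s))) / a

lemma ant_cont {a : ℝ} (ha : 0 < a) : ContinuousWithinAt (ant a) (Ici 0) 0 := by
  have h1 : Tendsto (fun s : ℝ => Real.exp (-(a / (4 * s))) / a) (𝓝[>] 0) (𝓝 0) := by
    have h2 : Tendsto (fun s : ℝ => a / (4 * s)) (𝓝[>] 0) atTop := by
      have h3 : Tendsto (fun s : ℝ => a / 4 * s⁻¹) (𝓝[>] 0) atTop :=
        Tendsto.const_mul_atTop (by positivity) tendsto_inv_nhdsGT_zero
      refine h3.congr' ?_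
      filter_upwards [self_mem_nhdsWithin] with s hs
      have : s ≠ 0 := ne_of_gt hs
      field_simp
    have h4 := (Real.tendsto_exp_neg_atTop_nhds_zero.comp h2).div_const a
    simpa [Function.comp_def] using h4
  have h5 : Tendsto (ant a) (𝓝[>] 0) (𝓝 0) := by
    refine h1.congr' ?_
    filter_upwards [self_mem_nhdsWithin] with s hs
    rw [ant, if_neg (not_le.2 hs)]
  have h6 : ant a 0 = 0 := by rw [ant, if_pos le_rfl]
  have h7 : ContinuousWithinAt (ant a) (Ioi 0) 0 := by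
    rw [ContinuousWithinAt, h6]
    exact h5
  exact continuousWithinAt_Ioi_iff_Ici.1 h7

lemma ant_deriv {a s : ℝ} (ha : 0 < a) (hs : s ∈ Ioi (0 : ℝ)) :
    HasDerivAt (ant a) (Real.exp (-(a / (4 * s))) / (4 * s ^ 2)) s := by
  have hs0 : (0 : ℝ) < s := hs
  have h1 : HasDerivAt (fun s : ℝ => Real.exp (-(a / (4 * s))) / a)
      (Real.exp (-(a / (4 * s))) / (4 * s ^ 2)) s := by
    have h2 : HasDerivAt (fun s : ℝ => a / (4 * s)) ((0 * (4 * s) - a * (4 * 1)) / (4 * s) ^ 2) s :=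
      (hasDerivAt_const s a).div ((hasDerivAt_id s).const_mul 4) (by positivity)
    refine (h2.fun_neg.exp.div_const a).congr_deriv ?_
    field_simp
    ring
  refine h1.congr_of_eventuallyEq ?_
  filter_upwards [lt_mem_nhds hs0] with t ht
  rw [ant, if_neg (not_le.2 ht)]

lemma ant_lim {a : ℝ} : Tendsto (ant a) atTop (𝓝 (1 / a)) := by
  have h2 : Tendsto (fun s : ℝ => -(a / (4 * s))) atTop (𝓝 0) := by
    have h3 : Tendsto (fun s : ℝ => -(a / 4 * s⁻¹)) atTop (𝓝 (-(a / 4 * 0))) :=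
      (tendsto_inv_atTop_zero.const_mul _).neg
    rw [mul_zero, neg_zero] at h3
    refine h3.congr' ?_
    filter_upwards [eventually_gt_atTop 0] with s hs
    field_simp
  have h4 : Tendsto (fun s : ℝ => Real.exp (-(a / (4 * s))) / a) atTop (𝓝 (1 / a)) := by
    have := ((Real.continuous_exp.tendsto 0).comp h2).div_const a
    simpa using this
  refine h4.congr' ?_
  filter_upwards [eventually_gt_atTop 0] with s hs
  rw [ant, if_neg (not_le.2 hs)]

lemma sub_int {a : ℝ} (ha : 0 < a) :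
    IntegrableOn (fun s : ℝ => Real.exp (-(a / (4 * s))) / (4 * s ^ 2)) (Ioi 0) :=
  integrableOn_Ioi_deriv_of_nonneg (ant_cont ha) (fun _ hs => ant_deriv ha hs)
    (fun s _ => by positivity) ant_lim

lemma sub_eq {a : ℝ} (ha : 0 < a) :
    ∫ s in Ioi (0 : ℝ), Real.exp (-(a / (4 * s))) / (4 * s ^ 2) = 1 / a := by
  rw [integral_Ioi_of_hasDerivAt_of_nonneg (ant_cont ha) (fun _ hs => ant_deriv ha hs)
    (fun s _ => by positivity) ant_lim, ant, if_pos le_rfl, sub_zero]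

lemma sub_lint {a : ℝ} (ha : 0 < a) :
    ∫⁻ s in Ioi (0 : ℝ), ENNReal.ofReal (Real.exp (-(a / (4 * s))) / (4 * s ^ 2)) =
      ENNReal.ofReal (1 / a) := by
  rw [← sub_eq ha, ofReal_integral_eq_lintegral_ofReal (sub_int ha)]
  exact Eventually.of_forall fun s => by positivity

/-! ### Frullani -/

/-- The kernel `(4 π s)⁻¹ (e^{-rs} - e^{-s})`. -/
noncomputable def ker (r s : ℝ) : ℝ :=
  (4 * Real.pi)⁻¹ * (s⁻¹ * (Real.exp (-(r * s)) - Real.exp (-s)))

lemma exp_diff {a b s : ℝ} :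
    Real.exp (-(a * s)) - Real.exp (-(b * s)) ≤ (b - a) * s * Real.exp (-(a * s)) := by
  have h1 : 1 - (b - a) * s ≤ Real.exp (-((b - a) * s)) := by
    have := Real.add_one_le_exp (-((b - a) * s))
    linarith
  have h2 : Real.exp (-(b * s)) = Real.exp (-(a * s)) * Real.exp (-((b - a) * s)) := by
    rw [← Real.exp_add]
    ring_nf
  rw [h2]
  nlinarith [Real.exp_pos (-(a * s))]

lemma ker_abs {r s : ℝ} (hs : 0 < s) :
    |s⁻¹ * (Real.exp (-(r * s)) - Real.exp (-s))| ≤ |r - 1| * Real.exp (-(min r 1 * s)) := by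
  rw [abs_mul, abs_of_pos (inv_pos.2 hs)]
  rcases le_total r 1 with h | h
  · rw [min_eq_left h, abs_of_nonpos (by linarith : r - 1 ≤ 0)]
    have h1 := exp_diff (a := r) (b := 1) (s := s)
    rw [one_mul] at h1
    have h2 : 0 ≤ Real.exp (-(r * s)) - Real.exp (-s) := by
      have : Real.exp (-s) ≤ Real.exp (-(r * s)) := Real.exp_le_exp.2 (by nlinarith)
      linarith
    rw [abs_of_nonneg h2, inv_mul_le_iff₀ hs]
    linarith
  · rw [min_eq_right h, abs_of_nonneg (by linarith : 0 ≤ r - 1)]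
    have h1 := exp_diff (a := 1) (b := r) (s := s)
    rw [one_mul] at h1
    have h2 : Real.exp (-(r * s)) - Real.exp (-s) ≤ 0 := by
      have : Real.exp (-(r * s)) ≤ Real.exp (-s) := Real.exp_le_exp.2 (by nlinarith)
      linarith
    rw [abs_of_nonpos h2, inv_mul_le_iff₀ hs, one_mul]
    linarith

lemma ker_meas (r : ℝ) : Measurable (ker r) := by
  unfold ker
  fun_prop

lemma fr_int {r : ℝ} (hr : 0 < r) :
    IntegrableOn (fun s : ℝ => s⁻¹ * (Real.exp (-(r * s)) - Real.exp (-s))) (Ioi 0) := by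
  have hm : 0 < min r 1 := lt_min hr one_pos
  have h1 : IntegrableOn (fun s : ℝ => |r - 1| * Real.exp (-(min r 1 * s))) (Ioi 0) := by
    have := (exp_neg_integrableOn_Ioi 0 hm).const_mul |r - 1|
    simp only [neg_mul] at this
    exact this
  refine Integrable.mono' h1 ?_ ?_
  · exact (by fun_prop : Measurable fun s : ℝ =>
      s⁻¹ * (Real.exp (-(r * s)) - Real.exp (-s))).aestronglyMeasurable
  · filter_upwards [ae_restrict_mem measurableSet_Ioi] with s hs
    exact ker_abs hs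

lemma ker_int {r : ℝ} (hr : 0 < r) : IntegrableOn (ker r) (Ioi 0) := (fr_int hr).const_mul _

lemma ker_eq {r : ℝ} (hr : 0 < r) : ∫ s in Ioi (0 : ℝ), ker r s = -((4 * Real.pi)⁻¹ * Real.log r) := by
  have h := Frullani.integral_Ioi_eq (f := fun x : ℝ => Real.exp (-x)) (a := r) (b := 1) (L := 1)
    (R := 0) ?_ hr one_pos ?_ ?_ ?_
  · unfold ker
    rw [integral_const_mul]
    simp only [smul_eq_mul, one_mul, sub_zero, mul_one] at h
    rw [h, one_div, Real.log_inv]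
    ring
  · exact (by fun_prop : Continuous fun x : ℝ => Real.exp (-x)).locallyIntegrable.locallyIntegrableOn _
  · have : Tendsto (fun x : ℝ => Real.exp (-x)) (𝓝 0) (𝓝 1) := by
      have h := (by fun_prop : Continuous fun x : ℝ => Real.exp (-x)).tendsto 0
      simpa using h
    exact this.mono_left nhdsWithin_le_nhds
  · exact Real.tendsto_exp_neg_atTop_nhds_zero
  · simpa using fr_int hr

lemma ker_norm {r : ℝ} (hr : 0 < r) :
    ∫ s in Ioi (0 : ℝ), ‖ker r s‖ = |(4 * Real.pi)⁻¹ * Real.log r| := by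
  have hpi : 0 < (4 * Real.pi)⁻¹ := by positivity
  rcases le_total r 1 with h | h
  · have h1 : ∫ s in Ioi (0 : ℝ), ‖ker r s‖ = ∫ s in Ioi (0 : ℝ), ker r s := by
      refine setIntegral_congr_fun measurableSet_Ioi fun s hs => ?_
      have hs0 : (0 : ℝ) < s := hs
      have : Real.exp (-s) ≤ Real.exp (-(r * s)) := Real.exp_le_exp.2 (by nlinarith)
      have h2 : 0 ≤ ker r s :=
        mul_nonneg hpi.le (mul_nonneg (inv_pos.2 hs0).le (by linarith))
      exact Real.norm_of_nonneg h2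
    rw [h1, ker_eq hr, abs_of_nonpos]
    exact mul_nonpos_of_nonneg_of_nonpos hpi.le (Real.log_nonpos hr.le h)
  · have h1 : ∫ s in Ioi (0 : ℝ), ‖ker r s‖ = ∫ s in Ioi (0 : ℝ), -ker r s := by
      refine setIntegral_congr_fun measurableSet_Ioi fun s hs => ?_
      have hs0 : (0 : ℝ) < s := hs
      have : Real.exp (-(r * s)) ≤ Real.exp (-s) := Real.exp_le_exp.2 (by nlinarith)
      have h2 : ker r s ≤ 0 :=
        mul_nonpos_of_nonneg_of_nonpos hpi.le
          (mul_nonpos_of_nonneg_of_nonpos (inv_pos.2 hs0).le (by linarith))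
      exact Real.norm_of_nonpos h2
    rw [h1, integral_neg, ker_eq hr, neg_neg, abs_of_nonneg]
    exact mul_nonneg hpi.le (Real.log_nonneg h)

/-! ### The Gaussian transform in the plane -/

lemma g1_int {s : ℝ} (hs : 0 < s) (c : ℝ) : Integrable (fun x : ℝ =>
    Complex.exp (Complex.I * c * x) * Complex.exp (-((1 / (4 * s) : ℝ) : ℂ) * x ^ 2)) := by
  have hb : 0 < (((1 / (4 * s) : ℝ) : ℂ)).re := by
    rw [Complex.ofReal_re]
    positivity
  have h := integrable_cexp_quadratic hb (Complex.I * c) 0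
  refine h.congr (Eventually.of_forall fun x => ?_)
  simp only
  rw [← Complex.exp_add]
  ring_nf

lemma gauss2 {s : ℝ} (hs : 0 < s) (z : ℝ × ℝ) :
    Integrable (fun p : ℝ × ℝ => Real.cos (p.1 * z.1 + p.2 * z.2) *
      Real.exp (-((p.1 ^ 2 + p.2 ^ 2) / (4 * s)))) ∧
    ∫ p : ℝ × ℝ, Real.cos (p.1 * z.1 + p.2 * z.2) *
      Real.exp (-((p.1 ^ 2 + p.2 ^ 2) / (4 * s))) =
      4 * Real.pi * s * Real.exp (-(s * (z.1 ^ 2 + z.2 ^ 2))) := by
  have hb : 0 < (((1 / (4 * s) : ℝ) : ℂ)).re := by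
    rw [Complex.ofReal_re]
    positivity
  have h1 := Integrable.mul_prod (g1_int hs z.1) (g1_int hs z.2)
  have h2 : (fun p : ℝ × ℝ => Real.cos (p.1 * z.1 + p.2 * z.2) *
      Real.exp (-((p.1 ^ 2 + p.2 ^ 2) / (4 * s)))) = fun p : ℝ × ℝ => RCLike.re
      ((Complex.exp (Complex.I * z.1 * p.1) * Complex.exp (-((1 / (4 * s) : ℝ) : ℂ) * p.1 ^ 2)) *
       (Complex.exp (Complex.I * z.2 * p.2) *
        Complex.exp (-((1 / (4 * s) : ℝ) : ℂ) * p.2 ^ 2))) := by
    funext p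
    rw [← Complex.exp_add, ← Complex.exp_add, ← Complex.exp_add]
    have e1 : Complex.I * z.1 * p.1 + -((1 / (4 * s) : ℝ) : ℂ) * p.1 ^ 2 +
        (Complex.I * z.2 * p.2 + -((1 / (4 * s) : ℝ) : ℂ) * p.2 ^ 2) =
        ((-((p.1 ^ 2 + p.2 ^ 2) / (4 * s)) : ℝ) : ℂ) +
          ((p.1 * z.1 + p.2 * z.2 : ℝ) : ℂ) * Complex.I := by
      push_cast
      ring
    rw [e1]
    have e2 := Complex.exp_re (((-((p.1 ^ 2 + p.2 ^ 2) / (4 * s)) : ℝ) : ℂ) +
          ((p.1 * z.1 + p.2 * z.2 : ℝ) : ℂ) * Complex.I)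
    rw [show RCLike.re (Complex.exp (((-((p.1 ^ 2 + p.2 ^ 2) / (4 * s)) : ℝ) : ℂ) +
          ((p.1 * z.1 + p.2 * z.2 : ℝ) : ℂ) * Complex.I)) =
          (Complex.exp (((-((p.1 ^ 2 + p.2 ^ 2) / (4 * s)) : ℝ) : ℂ) +
          ((p.1 * z.1 + p.2 * z.2 : ℝ) : ℂ) * Complex.I)).re from rfl, e2]
    simp only [Complex.add_re, Complex.ofReal_re, Complex.mul_re, Complex.I_re, mul_zero,
      Complex.ofReal_im, Complex.I_im, sub_zero, add_zero, Complex.add_im,
      Complex.mul_im, mul_one, zero_add]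
    ring
  have h3 : Integrable (fun p : ℝ × ℝ =>
      ((Complex.exp (Complex.I * z.1 * p.1) * Complex.exp (-((1 / (4 * s) : ℝ) : ℂ) * p.1 ^ 2)) *
       (Complex.exp (Complex.I * z.2 * p.2) *
        Complex.exp (-((1 / (4 * s) : ℝ) : ℂ) * p.2 ^ 2)))) := h1
  refine ⟨by rw [h2]; exact h3.re, ?_⟩
  rw [h2, integral_re h3, Measure.volume_eq_prod,
    integral_prod_mul (μ := (volume : Measure ℝ)) (ν := (volume : Measure ℝ))
    (fun x : ℝ => Complex.exp (Complex.I * z.1 * x) *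
      Complex.exp (-((1 / (4 * s) : ℝ) : ℂ) * x ^ 2))
    (fun x : ℝ => Complex.exp (Complex.I * z.2 * x) *
      Complex.exp (-((1 / (4 * s) : ℝ) : ℂ) * x ^ 2)),
    fourierIntegral_gaussian hb, fourierIntegral_gaussian hb]
  have e3 : ((Real.pi : ℂ) / ((1 / (4 * s) : ℝ) : ℂ)) = ((4 * Real.pi * s : ℝ) : ℂ) := by
    push_cast
    have : (s : ℂ) ≠ 0 := by exact_mod_cast hs.ne'
    field_simp
  have e4 : ((Real.pi : ℂ) / ((1 / (4 * s) : ℝ) : ℂ)) ^ (1 / 2 : ℂ) *
      ((Real.pi : ℂ) / ((1 / (4 * s) : ℝ) : ℂ)) ^ (1 / 2 : ℂ) = ((4 * Real.pi * s : ℝ) : ℂ) := by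
    rw [e3, ← Complex.cpow_add _ _ (by
      have : (4 * Real.pi * s : ℝ) ≠ 0 := by positivity
      exact_mod_cast this)]
    norm_num
  have e5 : ∀ c : ℝ, Complex.exp (-(c : ℂ) ^ 2 / (4 * ((1 / (4 * s) : ℝ) : ℂ))) =
      ((Real.exp (-(s * c ^ 2)) : ℝ) : ℂ) := by
    intro c
    rw [Complex.ofReal_exp]
    congr 1
    push_cast
    have : (s : ℂ) ≠ 0 := by exact_mod_cast hs.ne'
    field_simp
  rw [e5, e5, mul_mul_mul_comm, e4, ← Complex.ofReal_mul, ← Complex.ofReal_mul]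
  rw [show RCLike.re (((4 * Real.pi * s * (Real.exp (-(s * z.1 ^ 2)) *
    Real.exp (-(s * z.2 ^ 2))) : ℝ)) : ℂ) = 4 * Real.pi * s * (Real.exp (-(s * z.1 ^ 2)) *
    Real.exp (-(s * z.2 ^ 2))) from Complex.ofReal_re _, ← Real.exp_add]
  ring_nf

end Vale.Agent.P153.GFF.G1pf
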