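import Vale.Agent.P153.GFF.Interface
import Vale.Agent.P153.GFF.G1a
import Mathlib.Analysis.Convolution
import Mathlib.Analysis.SpecialFunctions.Integrability.Basic

/-!
P153, G1: the Fourier energy of a mean-zero test function is its logarithmic energy.
-/

namespace Vale.Agent.P153.GFF.G1pf

open MeasureTheory Filter Topology Set

/-- Squared distance. -/
def r2 (z : (ℝ × ℝ) × (ℝ × ℝ)) : ℝ := (z.1.1 - z.2.1) ^ 2 + (z.1.2 - z.2.2) ^ 2

lemma r2_nonneg (z : (ℝ × ℝ) × (ℝ × ℝ)) : 0 ≤ r2 z := by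
  unfold r2
  positivity

lemma r2_cont : Continuous r2 := by
  unfold r2
  fun_prop

/-! ### The logarithm is locally integrable -/

/-- The logarithm of the squared norm cut off at radius `M`. -/
noncomputable def phi (M : ℝ) (z : ℝ × ℝ) : ℝ :=
  if |z.1| ≤ M ∧ |z.2| ≤ M then |Real.log (z.1 ^ 2 + z.2 ^ 2)| else 0

lemma log_bound {M : ℝ} (hM : 1 ≤ M) {z : ℝ × ℝ} (h0 : z.1 ≠ 0) (h1 : |z.1| ≤ M)
    (h2 : |z.2| ≤ M) :
    |Real.log (z.1 ^ 2 + z.2 ^ 2)| ≤ 2 * |Real.log z.1| + Real.log (2 * M ^ 2) := by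
  have ha : 0 < z.1 ^ 2 := by positivity
  have hr0 : 0 < z.1 ^ 2 + z.2 ^ 2 := by positivity
  have e1 : z.1 ^ 2 ≤ M ^ 2 := by
    rw [← sq_abs z.1]
    exact pow_le_pow_left₀ (abs_nonneg _) h1 2
  have e2 : z.2 ^ 2 ≤ M ^ 2 := by
    rw [← sq_abs z.2]
    exact pow_le_pow_left₀ (abs_nonneg _) h2 2
  have hr2 : z.1 ^ 2 + z.2 ^ 2 ≤ 2 * M ^ 2 := by linarith
  have hlM : 0 ≤ Real.log (2 * M ^ 2) := Real.log_nonneg (by nlinarith)
  have hl : Real.log (z.1 ^ 2) = 2 * Real.log z.1 := by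
    rw [Real.log_pow]
    norm_num
  rcases le_total 1 (z.1 ^ 2 + z.2 ^ 2) with h | h
  · rw [abs_of_nonneg (Real.log_nonneg h)]
    have := Real.log_le_log hr0 hr2
    have := abs_nonneg (Real.log z.1)
    linarith
  · rw [abs_of_nonpos (Real.log_nonpos hr0.le h)]
    have e3 : Real.log (z.1 ^ 2) ≤ Real.log (z.1 ^ 2 + z.2 ^ 2) :=
      Real.log_le_log ha (by nlinarith)
    have e4 : -Real.log z.1 ≤ |Real.log z.1| := neg_le_abs _
    rw [hl] at e3
    linarith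

lemma phi_integrable {M : ℝ} (hM : 1 ≤ M) : Integrable (phi M) := by
  have hset : {t : ℝ | |t| ≤ M} = Set.Icc (-M) M := by
    ext t
    simp only [Set.mem_ofPred_eq, Set.mem_Icc, abs_le]
  have hI : MeasurableSet {t : ℝ | |t| ≤ M} :=
    measurableSet_le continuous_abs.measurable measurable_const
  have hlog : IntegrableOn (fun t : ℝ => 2 * |Real.log t| + Real.log (2 * M ^ 2))
      {t : ℝ | |t| ≤ M} := by
    rw [hset]
    have h1 : IntegrableOn Real.log (Set.Icc (-M) M) := by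
      have h2 : IntervalIntegrable Real.log volume (-M) M := intervalIntegral.intervalIntegrable_log'
      rwa [intervalIntegrable_iff_integrableOn_Icc_of_le (by linarith)] at h2
    exact (h1.abs.const_mul 2).add
      (integrableOn_const (by rw [Real.volume_Icc]; exact ENNReal.ofReal_ne_top))
  have hone : IntegrableOn (fun _ : ℝ => (1 : ℝ)) {t : ℝ | |t| ≤ M} := by
    rw [hset]
    exact integrableOn_const (by rw [Real.volume_Icc]; exact ENNReal.ofReal_ne_top)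
  have hprod : Integrable (fun z : ℝ × ℝ =>
      {t : ℝ | |t| ≤ M}.indicator (fun t : ℝ => 2 * |Real.log t| + Real.log (2 * M ^ 2)) z.1 *
        {t : ℝ | |t| ≤ M}.indicator (fun _ : ℝ => (1 : ℝ)) z.2) (volume.prod volume) :=
    (hlog.integrable_indicator hI).mul_prod (hone.integrable_indicator hI)
  have hmeas : Measurable (phi M) := by
    unfold phi
    refine Measurable.ite ?_ ?_ measurable_const
    · exact (measurableSet_le (continuous_abs.measurable.comp measurable_fst)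
        measurable_const).inter (measurableSet_le (continuous_abs.measurable.comp measurable_snd)
        measurable_const)
    · fun_prop
  refine Integrable.mono' hprod hmeas.aestronglyMeasurable ?_
  have hne : ∀ᵐ z : ℝ × ℝ, z.1 ≠ 0 := by
    have h0 : (volume : Measure (ℝ × ℝ)) ({(0 : ℝ)} ×ˢ Set.univ) = 0 := by
      rw [Measure.volume_eq_prod, Measure.prod_prod]
      simp
    refine measure_mono_null (fun z hz => ?_) h0
    simp only [Set.mem_compl_iff, Set.mem_ofPred_eq, not_not] at hz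
    exact ⟨hz, Set.mem_univ _⟩
  filter_upwards [hne] with z hz
  unfold phi
  by_cases h : |z.1| ≤ M ∧ |z.2| ≤ M
  · rw [if_pos h, Set.indicator_of_mem (show z.1 ∈ {t : ℝ | |t| ≤ M} from h.1),
      Set.indicator_of_mem (show z.2 ∈ {t : ℝ | |t| ≤ M} from h.2), mul_one, Real.norm_eq_abs,
      abs_abs]
    exact log_bound hM hz h.1 h.2
  · rw [if_neg h, norm_zero]
    have hlM : 0 ≤ Real.log (2 * M ^ 2) := Real.log_nonneg (by nlinarith)
    refine mul_nonneg (Set.indicator_nonneg (fun t _ => ?_) _)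
      (Set.indicator_nonneg (fun t _ => zero_le_one) _)
    positivity

theorem log_integrable {f : ℝ × ℝ → ℝ} (hf : Continuous f) (cf : HasCompactSupport f) :
    Integrable (fun p : (ℝ × ℝ) × (ℝ × ℝ) => |f p.1 * f p.2| * |Real.log (r2 p)|) := by
  obtain ⟨Cf, hCf⟩ := cf.exists_bound_of_continuous hf
  obtain ⟨Rf, hRf⟩ := (Metric.isBounded_iff_subset_closedBall 0).mp cf.isCompact.isBounded
  set M : ℝ := max 1 (Rf + Rf) with hM
  have hM1 : 1 ≤ M := le_max_left _ _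
  have hM2 : Rf + Rf ≤ M := le_max_right _ _
  have hCf0 : 0 ≤ Cf := (norm_nonneg _).trans (hCf 0)
  have hgi : Integrable (fun y => |f y|) := (hf.integrable_of_hasCompactSupport cf).abs
  have : (volume : Measure (ℝ × ℝ)).IsAddHaarMeasure :=
    Measure.prod.instIsAddHaarMeasure volume volume
  have hconv : Integrable (fun p : (ℝ × ℝ) × (ℝ × ℝ) => |f p.2| * phi M (p.1 - p.2))
      (volume.prod volume) :=
    hgi.convolution_integrand (ContinuousLinearMap.mul ℝ ℝ) (phi_integrable hM1)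
  have hdom := hconv.const_mul Cf
  refine Integrable.mono' hdom ?_ (Filter.Eventually.of_forall fun p => ?_)
  · have hl : Measurable fun p : (ℝ × ℝ) × (ℝ × ℝ) => |Real.log (r2 p)| := by
      have := r2_cont.measurable
      fun_prop
    have h2 : Continuous fun p : (ℝ × ℝ) × (ℝ × ℝ) => |f p.1 * f p.2| := by fun_prop
    exact (h2.measurable.mul hl).aestronglyMeasurable
  · have hphi0 : 0 ≤ phi M (p.1 - p.2) := by
      unfold phi
      split_ifs
      · exact abs_nonneg _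
      · exact le_refl _
    rw [Real.norm_of_nonneg (by positivity)]
    by_cases hfz : f p.1 = 0
    · rw [hfz, zero_mul, abs_zero, zero_mul]
      positivity
    by_cases hgz : f p.2 = 0
    · rw [hgz, mul_zero, abs_zero, zero_mul]
      positivity
    have hx : p.1 ∈ tsupport f := subset_tsupport f hfz
    have hy : p.2 ∈ tsupport f := subset_tsupport f hgz
    have hx' : ‖p.1‖ ≤ Rf := by
      have := hRf hx
      rwa [Metric.mem_closedBall, dist_zero_right] at this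
    have hy' : ‖p.2‖ ≤ Rf := by
      have := hRf hy
      rwa [Metric.mem_closedBall, dist_zero_right] at this
    have hd : ‖p.1 - p.2‖ ≤ M := (norm_sub_le _ _).trans (by linarith)
    have hd1 : |(p.1 - p.2).1| ≤ M := (norm_fst_le (p.1 - p.2)).trans hd
    have hd2 : |(p.1 - p.2).2| ≤ M := (norm_snd_le (p.1 - p.2)).trans hd
    have e1 : phi M (p.1 - p.2) = |Real.log (r2 p)| := by
      unfold phi
      rw [if_pos ⟨hd1, hd2⟩]
      rfl
    rw [e1, abs_mul]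
    have h3 : |f p.1| ≤ Cf := hCf _
    nlinarith [mul_nonneg (abs_nonneg (f p.2)) (abs_nonneg (Real.log (r2 p)))]

lemma r2_pos_ae : ∀ᵐ p : (ℝ × ℝ) × (ℝ × ℝ), 0 < r2 p := by
  have h : ∀ᵐ p : (ℝ × ℝ) × (ℝ × ℝ), p.1 - p.2 ≠ 0 := by
    rw [Measure.volume_eq_prod]
    have : (volume : Measure (ℝ × ℝ)).IsAddHaarMeasure :=
      Measure.prod.instIsAddHaarMeasure volume volume
    have h1 : MeasurableSet {p : (ℝ × ℝ) × (ℝ × ℝ) | p.1 - p.2 ≠ 0} := by
      have : {p : (ℝ × ℝ) × (ℝ × ℝ) | p.1 - p.2 ≠ 0} =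
          (fun p : (ℝ × ℝ) × (ℝ × ℝ) => p.1 - p.2) ⁻¹' {0}ᶜ := rfl
      rw [this]
      exact (measurable_fst.sub measurable_snd) (measurableSet_singleton 0).compl
    rw [Measure.ae_prod_iff_ae_ae h1]
    refine Eventually.of_forall fun x => ?_
    have h2 : ∀ᵐ y : ℝ × ℝ, y ≠ x := by
      refine measure_mono_null (t := {x}) (fun y hy => ?_) (measure_singleton x)
      simpa using hy
    filter_upwards [h2] with y hy
    exact sub_ne_zero.2 hy.symm
  filter_upwards [h] with p hp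
  rcases (r2_nonneg p).lt_or_eq with h1 | h1
  · exact h1
  · exfalso
    apply hp
    unfold r2 at h1
    have e1 : p.1.1 - p.2.1 = 0 := by nlinarith [sq_nonneg (p.1.1 - p.2.1), sq_nonneg (p.1.2 - p.2.2)]
    have e2 : p.1.2 - p.2.2 = 0 := by nlinarith [sq_nonneg (p.1.1 - p.2.1), sq_nonneg (p.1.2 - p.2.2)]
    exact Prod.ext e1 e2

/-! ### The squared modulus of the transform -/

lemma sq_ft {f : ℝ × ℝ → ℝ} (hf : Continuous f) (cf : HasCompactSupport f) (p : ℝ × ℝ) :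
    ‖ftR f p‖ ^ 2 = ∫ z : (ℝ × ℝ) × (ℝ × ℝ), f z.1 * f z.2 *
      Real.cos (p.1 * (z.1.1 - z.2.1) + p.2 * (z.1.2 - z.2.2)) := by
  set u : ℝ × ℝ → ℝ := fun x => f x * Real.cos (p.1 * x.1 + p.2 * x.2) with hu
  set v : ℝ × ℝ → ℝ := fun x => f x * Real.sin (p.1 * x.1 + p.2 * x.2) with hv
  have iu : Integrable u :=
    (by fun_prop : Continuous u).integrable_of_hasCompactSupport cf.mul_right
  have iv : Integrable v :=
    (by fun_prop : Continuous v).integrable_of_hasCompactSupport cf.mul_right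
  have h1 : ftR f p = ((∫ x, u x : ℝ) : ℂ) + ((∫ x, v x : ℝ) : ℂ) * Complex.I := by
    rw [← integral_complex_ofReal, ← integral_complex_ofReal, ← integral_mul_const,
      ← integral_add]
    · unfold ftR
      refine integral_congr_ae (Eventually.of_forall fun x => ?_)
      simp only [hu, hv]
      rw [mul_comm Complex.I, Complex.exp_mul_I]
      push_cast
      ring
    · exact iu.ofReal
    · exact iv.ofReal.mul_const _
  rw [h1, Complex.sq_norm, Complex.normSq_add_mul_I, sq, sq, ← integral_prod_mul,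
    ← integral_prod_mul, ← integral_add (iu.mul_prod iu) (iv.mul_prod iv),
    ← Measure.volume_eq_prod]
  refine integral_congr_ae (Eventually.of_forall fun z => ?_)
  simp only [hu, hv]
  rw [show p.1 * (z.1.1 - z.2.1) + p.2 * (z.1.2 - z.2.2) =
    (p.1 * z.1.1 + p.2 * z.1.2) - (p.1 * z.2.1 + p.2 * z.2.2) by ring, Real.cos_sub]
  ring

lemma ff_int {f : ℝ × ℝ → ℝ} (hf : Continuous f) (cf : HasCompactSupport f) :
    Integrable (fun z : (ℝ × ℝ) × (ℝ × ℝ) => f z.1 * f z.2) :=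
  (hf.integrable_of_hasCompactSupport cf).mul_prod (hf.integrable_of_hasCompactSupport cf)

lemma ff_zero {f : ℝ × ℝ → ℝ} (h0 : ∫ x, f x = 0) :
    ∫ z : (ℝ × ℝ) × (ℝ × ℝ), f z.1 * f z.2 = 0 := by
  rw [Measure.volume_eq_prod, integral_prod_mul, h0, zero_mul]

lemma exp_int {s : ℝ} (hs : 0 < s) : Integrable (fun p : ℝ × ℝ =>
    Real.exp (-((p.1 ^ 2 + p.2 ^ 2) / (4 * s)))) := by
  have h := (gauss2 hs (0, 0)).1
  refine h.congr (Eventually.of_forall fun p => ?_)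
  simp

lemma ft_gauss {f : ℝ × ℝ → ℝ} (hf : Continuous f) (cf : HasCompactSupport f) {s : ℝ}
    (hs : 0 < s) :
    Integrable (fun p : ℝ × ℝ => ‖ftR f p‖ ^ 2 * Real.exp (-((p.1 ^ 2 + p.2 ^ 2) / (4 * s)))) ∧
    ∫ p : ℝ × ℝ, ‖ftR f p‖ ^ 2 * Real.exp (-((p.1 ^ 2 + p.2 ^ 2) / (4 * s))) =
      4 * Real.pi * s * ∫ z : (ℝ × ℝ) × (ℝ × ℝ), f z.1 * f z.2 * Real.exp (-(s * r2 z)) := by
  have h1 : Integrable (fun w : (ℝ × ℝ) × ((ℝ × ℝ) × (ℝ × ℝ)) =>
      (f w.2.1 * f w.2.2 *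
      Real.cos (w.1.1 * (w.2.1.1 - w.2.2.1) + w.1.2 * (w.2.1.2 - w.2.2.2))) *
      Real.exp (-((w.1.1 ^ 2 + w.1.2 ^ 2) / (4 * s))))
      ((volume : Measure (ℝ × ℝ)).prod (volume : Measure ((ℝ × ℝ) × (ℝ × ℝ)))) := by
    have h2 := Integrable.mul_prod (exp_int hs) (ff_int hf cf)
    have h3 : Continuous fun w : (ℝ × ℝ) × ((ℝ × ℝ) × (ℝ × ℝ)) =>
      Real.cos (w.1.1 * (w.2.1.1 - w.2.2.1) + w.1.2 * (w.2.1.2 - w.2.2.2)) := by fun_prop
    refine (Integrable.bdd_mul (c := 1) h2 h3.aestronglyMeasurable ?_).congr ?_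
    · exact Eventually.of_forall fun w => Real.abs_cos_le_one _
    · exact Eventually.of_forall fun w => by simp only; ring
  have h4 : ∀ p : ℝ × ℝ, ‖ftR f p‖ ^ 2 * Real.exp (-((p.1 ^ 2 + p.2 ^ 2) / (4 * s))) =
      ∫ z : (ℝ × ℝ) × (ℝ × ℝ), (f z.1 * f z.2 *
        Real.cos (p.1 * (z.1.1 - z.2.1) + p.2 * (z.1.2 - z.2.2))) *
        Real.exp (-((p.1 ^ 2 + p.2 ^ 2) / (4 * s))) := by
    intro p
    rw [sq_ft hf cf, integral_mul_const]
  constructor
  · simp only [h4]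
    exact h1.integral_prod_left
  · simp only [h4]
    rw [integral_integral_swap (μ := (volume : Measure (ℝ × ℝ)))
      (ν := (volume : Measure ((ℝ × ℝ) × (ℝ × ℝ))))
      (f := fun (p : ℝ × ℝ) (z : (ℝ × ℝ) × (ℝ × ℝ)) => (f z.1 * f z.2 *
        Real.cos (p.1 * (z.1.1 - z.2.1) + p.2 * (z.1.2 - z.2.2))) *
        Real.exp (-((p.1 ^ 2 + p.2 ^ 2) / (4 * s)))) h1, ← integral_const_mul]
    refine integral_congr_ae (Eventually.of_forall fun z => ?_)
    simp only [mul_assoc (f z.1 * f z.2)]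
    rw [integral_const_mul, (gauss2 hs (z.1.1 - z.2.1, z.1.2 - z.2.2)).2]
    simp only [r2]
    ring

/-! ### Integration in `s` -/

/-- The energy density in the parameter `s`. -/
noncomputable def psi (f : ℝ × ℝ → ℝ) (s : ℝ) : ℝ :=
  ∫ z : (ℝ × ℝ) × (ℝ × ℝ), f z.1 * f z.2 * ker (r2 z) s

lemma e_int {f : ℝ × ℝ → ℝ} (hf : Continuous f) (cf : HasCompactSupport f) {s : ℝ}
    (hs : 0 < s) : Integrable (fun z : (ℝ × ℝ) × (ℝ × ℝ) =>
      f z.1 * f z.2 * Real.exp (-(s * r2 z))) := by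
  have hc : Continuous fun z : (ℝ × ℝ) × (ℝ × ℝ) => Real.exp (-(s * r2 z)) := by
    have := r2_cont
    fun_prop
  refine Integrable.mul_bdd (c := 1) (ff_int hf cf) hc.aestronglyMeasurable ?_
  refine Eventually.of_forall fun z => ?_
  rw [Real.norm_of_nonneg (Real.exp_pos _).le, Real.exp_le_one_iff]
  have := mul_nonneg hs.le (r2_nonneg z)
  linarith

lemma psi_eq {f : ℝ × ℝ → ℝ} (hf : Continuous f) (cf : HasCompactSupport f)
    (h0 : ∫ x, f x = 0) {s : ℝ} (hs : 0 < s) :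
    psi f s = (4 * Real.pi * s)⁻¹ *
      ∫ z : (ℝ × ℝ) × (ℝ × ℝ), f z.1 * f z.2 * Real.exp (-(s * r2 z)) := by
  have h1 : ∀ z : (ℝ × ℝ) × (ℝ × ℝ), f z.1 * f z.2 * ker (r2 z) s =
      (4 * Real.pi * s)⁻¹ * (f z.1 * f z.2 * Real.exp (-(s * r2 z))) -
      (4 * Real.pi * s)⁻¹ * Real.exp (-s) * (f z.1 * f z.2) := by
    intro z
    rw [ker, mul_comm (r2 z) s]
    field_simp
  unfold psi
  simp only [h1]
  rw [integral_sub ((e_int hf cf hs).const_mul _) ((ff_int hf cf).const_mul _),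
    integral_const_mul, integral_const_mul, ff_zero h0, mul_zero, sub_zero]

lemma psi_four {f : ℝ × ℝ → ℝ} (hf : Continuous f) (cf : HasCompactSupport f)
    (h0 : ∫ x, f x = 0) {s : ℝ} (hs : 0 < s) :
    ∫ p : ℝ × ℝ, ‖ftR f p‖ ^ 2 * (Real.exp (-((p.1 ^ 2 + p.2 ^ 2) / (4 * s))) / (4 * s ^ 2)) =
      4 * Real.pi ^ 2 * psi f s := by
  have h1 : ∀ p : ℝ × ℝ, ‖ftR f p‖ ^ 2 *
      (Real.exp (-((p.1 ^ 2 + p.2 ^ 2) / (4 * s))) / (4 * s ^ 2)) =
      (4 * s ^ 2)⁻¹ * (‖ftR f p‖ ^ 2 * Real.exp (-((p.1 ^ 2 + p.2 ^ 2) / (4 * s)))) := by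
    intro p
    ring
  simp only [h1]
  rw [integral_const_mul, (ft_gauss hf cf hs).2, psi_eq hf cf h0 hs]
  have := Real.pi_pos
  field_simp

lemma psi_nonneg {f : ℝ × ℝ → ℝ} (hf : Continuous f) (cf : HasCompactSupport f)
    (h0 : ∫ x, f x = 0) {s : ℝ} (hs : 0 < s) : 0 ≤ psi f s := by
  have h1 := psi_four hf cf h0 hs
  have h2 : 0 ≤ ∫ p : ℝ × ℝ, ‖ftR f p‖ ^ 2 *
      (Real.exp (-((p.1 ^ 2 + p.2 ^ 2) / (4 * s))) / (4 * s ^ 2)) :=
    integral_nonneg fun p => by positivity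
  rw [h1] at h2
  have h3 : 0 < 4 * Real.pi ^ 2 := by positivity
  exact nonneg_of_mul_nonneg_right h2 h3

lemma big_int {f : ℝ × ℝ → ℝ} (hf : Continuous f) (cf : HasCompactSupport f) :
    Integrable (fun w : ℝ × ((ℝ × ℝ) × (ℝ × ℝ)) => f w.2.1 * f w.2.2 * ker (r2 w.2) w.1)
      ((volume.restrict (Ioi (0 : ℝ))).prod (volume : Measure ((ℝ × ℝ) × (ℝ × ℝ)))) := by
  have hr := r2_cont
  have hm : Measurable (fun w : ℝ × ((ℝ × ℝ) × (ℝ × ℝ)) =>
      f w.2.1 * f w.2.2 * ker (r2 w.2) w.1) := by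
    have h1 : Measurable (fun w : ℝ × ((ℝ × ℝ) × (ℝ × ℝ)) => f w.2.1 * f w.2.2) :=
      (by fun_prop : Continuous fun w : ℝ × ((ℝ × ℝ) × (ℝ × ℝ)) => f w.2.1 * f w.2.2).measurable
    refine h1.mul ?_
    unfold ker
    have h2 : Measurable fun w : ℝ × ((ℝ × ℝ) × (ℝ × ℝ)) => r2 w.2 := by fun_prop
    fun_prop
  rw [integrable_prod_iff' hm.aestronglyMeasurable]
  constructor
  · filter_upwards [r2_pos_ae] with z hz
    exact (ker_int hz).const_mul _
  · have h2 : Integrable (fun z : (ℝ × ℝ) × (ℝ × ℝ) =>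
        (4 * Real.pi)⁻¹ * (|f z.1 * f z.2| * |Real.log (r2 z)|)) :=
      (log_integrable hf cf).const_mul _
    refine h2.congr ?_
    filter_upwards [r2_pos_ae] with z hz
    simp only [norm_mul]
    rw [integral_const_mul, ker_norm hz, abs_mul (4 * Real.pi)⁻¹,
      abs_of_pos (by positivity : 0 < (4 * Real.pi)⁻¹), abs_mul (f z.1), Real.norm_eq_abs,
      Real.norm_eq_abs]
    ring

lemma green_r2 (x y : ℝ × ℝ) : green x y = -((4 * Real.pi)⁻¹ * Real.log (r2 (x, y))) := by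
  unfold green
  rw [Real.log_sqrt (by positivity)]
  unfold r2
  have := Real.pi_pos
  field_simp
  ring

lemma psi_total {f : ℝ × ℝ → ℝ} (hf : Continuous f) (cf : HasCompactSupport f) :
    IntegrableOn (psi f) (Ioi 0) ∧ ∫ s in Ioi (0 : ℝ), psi f s = gffCov f f := by
  have hb := big_int hf cf
  refine ⟨hb.integral_prod_left, ?_⟩
  unfold psi
  rw [integral_integral_swap (μ := volume.restrict (Ioi (0 : ℝ)))
    (ν := (volume : Measure ((ℝ × ℝ) × (ℝ × ℝ))))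
    (f := fun (s : ℝ) (z : (ℝ × ℝ) × (ℝ × ℝ)) => f z.1 * f z.2 * ker (r2 z) s) hb]
  have hg : Integrable (fun p : (ℝ × ℝ) × (ℝ × ℝ) => green p.1 p.2 * f p.1 * f p.2)
      (volume.prod volume) := by
    have h2 : Integrable (fun z : (ℝ × ℝ) × (ℝ × ℝ) =>
        (4 * Real.pi)⁻¹ * (|f z.1 * f z.2| * |Real.log (r2 z)|)) :=
      (log_integrable hf cf).const_mul _
    refine Integrable.mono' h2 ?_ (Eventually.of_forall fun p => ?_)
    · have hgr : Measurable fun p : (ℝ × ℝ) × (ℝ × ℝ) => green p.1 p.2 := by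
        unfold green
        fun_prop
      exact ((hgr.mul (hf.measurable.comp measurable_fst)).mul
        (hf.measurable.comp measurable_snd)).aestronglyMeasurable
    · rw [green_r2, norm_mul, norm_mul, norm_neg, norm_mul, Real.norm_eq_abs, Real.norm_eq_abs,
        Real.norm_eq_abs, Real.norm_eq_abs, abs_of_pos (by positivity : 0 < (4 * Real.pi)⁻¹),
        abs_mul]
      refine le_of_eq ?_
      ring
  unfold gffCov
  rw [← integral_prod (μ := (volume : Measure (ℝ × ℝ))) (ν := (volume : Measure (ℝ × ℝ)))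
    (fun p : (ℝ × ℝ) × (ℝ × ℝ) => green p.1 p.2 * f p.1 * f p.2) hg, ← Measure.volume_eq_prod]
  refine integral_congr_ae ?_
  filter_upwards [r2_pos_ae] with z hz
  rw [integral_const_mul, ker_eq hz, green_r2]
  ring

/-! ### Conclusion -/

lemma ft_meas {f : ℝ × ℝ → ℝ} (hf : Continuous f) (cf : HasCompactSupport f) :
    Measurable fun p : ℝ × ℝ => ‖ftR f p‖ ^ 2 := by
  have h1 : StronglyMeasurable fun p : ℝ × ℝ => ∫ z : (ℝ × ℝ) × (ℝ × ℝ), f z.1 * f z.2 *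
      Real.cos (p.1 * (z.1.1 - z.2.1) + p.2 * (z.1.2 - z.2.2)) := by
    refine StronglyMeasurable.integral_prod_right' (f := fun w : (ℝ × ℝ) × ((ℝ × ℝ) × (ℝ × ℝ)) =>
      f w.2.1 * f w.2.2 *
      Real.cos (w.1.1 * (w.2.1.1 - w.2.2.1) + w.1.2 * (w.2.1.2 - w.2.2.2))) ?_
    exact (by fun_prop : Continuous fun w : (ℝ × ℝ) × ((ℝ × ℝ) × (ℝ × ℝ)) =>
      f w.2.1 * f w.2.2 *
      Real.cos (w.1.1 * (w.2.1.1 - w.2.2.1) + w.1.2 * (w.2.1.2 - w.2.2.2))).stronglyMeasurable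
  have h2 : (fun p : ℝ × ℝ => ‖ftR f p‖ ^ 2) = fun p : ℝ × ℝ =>
      ∫ z : (ℝ × ℝ) × (ℝ × ℝ), f z.1 * f z.2 *
      Real.cos (p.1 * (z.1.1 - z.2.1) + p.2 * (z.1.2 - z.2.2)) := funext fun p => sq_ft hf cf p
  rw [h2]
  exact h1.measurable

lemma norm_pos_ae : ∀ᵐ p : ℝ × ℝ, 0 < p.1 ^ 2 + p.2 ^ 2 := by
  have h2 : ∀ᵐ y : ℝ × ℝ, y ≠ 0 := by
    refine measure_mono_null (t := {0}) (fun y hy => ?_) (measure_singleton 0)
    simpa using hy
  filter_upwards [h2] with p hp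
  by_contra hcon
  apply hp
  have e1 : p.1 = 0 := by nlinarith [sq_nonneg p.1, sq_nonneg p.2]
  have e2 : p.2 = 0 := by nlinarith [sq_nonneg p.1, sq_nonneg p.2]
  exact Prod.ext e1 e2

lemma lint_main {f : ℝ × ℝ → ℝ} (hf : Continuous f) (cf : HasCompactSupport f)
    (h0 : ∫ x, f x = 0) :
    ∫⁻ p : ℝ × ℝ, ENNReal.ofReal (‖ftR f p‖ ^ 2 / (p.1 ^ 2 + p.2 ^ 2)) =
      ENNReal.ofReal (4 * Real.pi ^ 2 * gffCov f f) := by
  have hF := ft_meas hf cf
  have h1 : ∫⁻ p : ℝ × ℝ, ENNReal.ofReal (‖ftR f p‖ ^ 2 / (p.1 ^ 2 + p.2 ^ 2)) =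
      ∫⁻ p : ℝ × ℝ, ∫⁻ s in Ioi (0 : ℝ), ENNReal.ofReal (‖ftR f p‖ ^ 2 *
        (Real.exp (-((p.1 ^ 2 + p.2 ^ 2) / (4 * s))) / (4 * s ^ 2))) := by
    refine lintegral_congr_ae ?_
    filter_upwards [norm_pos_ae] with p hp
    have e1 : ∀ s : ℝ, ENNReal.ofReal (‖ftR f p‖ ^ 2 *
        (Real.exp (-((p.1 ^ 2 + p.2 ^ 2) / (4 * s))) / (4 * s ^ 2))) =
        ENNReal.ofReal (‖ftR f p‖ ^ 2) * ENNReal.ofReal
          (Real.exp (-((p.1 ^ 2 + p.2 ^ 2) / (4 * s))) / (4 * s ^ 2)) := fun s =>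
      ENNReal.ofReal_mul (by positivity)
    simp only [e1]
    rw [lintegral_const_mul, sub_lint hp, ← ENNReal.ofReal_mul (by positivity)]
    · rw [mul_one_div]
    · exact (by fun_prop : Measurable fun s : ℝ =>
        Real.exp (-((p.1 ^ 2 + p.2 ^ 2) / (4 * s))) / (4 * s ^ 2)).ennreal_ofReal
  have hm : Measurable (fun w : (ℝ × ℝ) × ℝ => ENNReal.ofReal (‖ftR f w.1‖ ^ 2 *
        (Real.exp (-((w.1.1 ^ 2 + w.1.2 ^ 2) / (4 * w.2))) / (4 * w.2 ^ 2)))) := by
    refine Measurable.ennreal_ofReal ?_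
    exact (hF.comp measurable_fst).mul (by fun_prop)
  rw [h1, lintegral_lintegral_swap hm.aemeasurable]
  have h2 : ∫⁻ s in Ioi (0 : ℝ), ∫⁻ p : ℝ × ℝ, ENNReal.ofReal (‖ftR f p‖ ^ 2 *
        (Real.exp (-((p.1 ^ 2 + p.2 ^ 2) / (4 * s))) / (4 * s ^ 2))) =
      ∫⁻ s in Ioi (0 : ℝ), ENNReal.ofReal (4 * Real.pi ^ 2 * psi f s) := by
    refine setLIntegral_congr_fun measurableSet_Ioi fun s hs => ?_
    have hs0 : (0 : ℝ) < s := hs
    rw [← psi_four hf cf h0 hs0, ofReal_integral_eq_lintegral_ofReal]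
    · have := ((ft_gauss hf cf hs0).1).const_mul (4 * s ^ 2)⁻¹
      refine this.congr (Eventually.of_forall fun p => ?_)
      simp only
      ring
    · exact Eventually.of_forall fun p => by positivity
  have h3 := psi_total hf cf
  rw [h2, ← h3.2, ← integral_const_mul, ofReal_integral_eq_lintegral_ofReal]
  · exact h3.1.const_mul _
  · filter_upwards [ae_restrict_mem measurableSet_Ioi] with s hs
    exact mul_nonneg (by positivity) (psi_nonneg hf cf h0 hs)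

theorem main {f : ℝ × ℝ → ℝ} (hf : Test f) :
    Integrable (fun p : ℝ × ℝ => ‖ftR f p‖ ^ 2 / (p.1 ^ 2 + p.2 ^ 2)) ∧
    (4 * Real.pi ^ 2)⁻¹ * ∫ p : ℝ × ℝ, ‖ftR f p‖ ^ 2 / (p.1 ^ 2 + p.2 ^ 2) = gffCov f f := by
  obtain ⟨h1, cf, h0⟩ := hf
  have hc : Continuous f := h1.continuous
  have hl := lint_main hc cf h0
  have hm : Measurable (fun p : ℝ × ℝ => ‖ftR f p‖ ^ 2 / (p.1 ^ 2 + p.2 ^ 2)) :=
    (ft_meas hc cf).div (by fun_prop)
  have hnn : ∀ p : ℝ × ℝ, 0 ≤ ‖ftR f p‖ ^ 2 / (p.1 ^ 2 + p.2 ^ 2) := fun p => by positivity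
  have hg : 0 ≤ gffCov f f := by
    rw [← (psi_total hc cf).2]
    exact setIntegral_nonneg measurableSet_Ioi fun s hs => psi_nonneg hc cf h0 hs
  have hi : Integrable (fun p : ℝ × ℝ => ‖ftR f p‖ ^ 2 / (p.1 ^ 2 + p.2 ^ 2)) := by
    refine ⟨hm.aestronglyMeasurable, ?_⟩
    rw [hasFiniteIntegral_iff_ofReal (Eventually.of_forall hnn), hl]
    exact ENNReal.ofReal_lt_top
  refine ⟨hi, ?_⟩
  rw [integral_eq_lintegral_of_nonneg_ae (Eventually.of_forall hnn) hm.aestronglyMeasurable, hl,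
    ENNReal.toReal_ofReal (by positivity)]
  have := Real.pi_pos
  field_simp

end Vale.Agent.P153.GFF.G1pf

namespace Vale.Agent.P153.GFF

/-- (G1) Fourier energy = logarithmic energy. -/
theorem g1 : G1 := fun _ hf => G1pf.main hf

end Vale.Agent.P153.GFF
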