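import Vale.Agent.P153.GFF.G2a

/-!
# P153, (G2), part two: bounds of the row integrals
-/

open MeasureTheory ProbabilityTheory Filter Topology Set
open scoped ENNReal Real

namespace Vale.Agent.P153.GFF.G2w

open TwoPt TwoPt.Cn

/-- the row integral -/
noncomputable def FF (m : Kernel ℝ ℝ) (n : ℕ) (z k : ℝ) : ℝ :=
  ∫ τ, (1 - Real.cos (k * z) * τ ^ n) / (1 - τ ^ 2) ∂(m k)

theorem FF_meas (m : Kernel ℝ ℝ) [IsSFiniteKernel m] (n : ℕ) (z : ℝ) :
    StronglyMeasurable (FF m n z) := by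
  have h : Measurable (fun p : ℝ × ℝ => (1 - Real.cos (p.1 * z) * p.2 ^ n) / (1 - p.2 ^ 2)) := by
    fun_prop
  exact h.stronglyMeasurable.integral_kernel_prod_right' (κ := m)

theorem FF_eq {m : Kernel ℝ ℝ} {C k : ℝ} (h : Good m C k) (n : ℕ) (z : ℝ) :
    FF m n z k = (∫ τ, τ ^ 0 / (1 - τ ^ 2) ∂(m k)) -
      Real.cos (k * z) * ∫ τ, τ ^ n / (1 - τ ^ 2) ∂(m k) := by
  rw [← integral_const_mul, ← integral_sub (integrable_pow h 0)
    ((integrable_pow h n).const_mul _)]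
  refine integral_congr_ae (Eventually.of_forall fun τ => ?_)
  simp only [pow_zero]
  ring

/-- main term -/
noncomputable def GG (c κ : ℝ) (n : ℕ) (z t : ℝ) : ℝ :=
  κ / (2 * c * t) * (1 - Real.cos (t * z) * Real.exp (-(c * t)) ^ n)

theorem FF_main {V : ℤ → ℤ → ℝ} {m : Kernel ℝ ℝ} {c κ C k0 : ℝ} (hS : Spec V m c κ C k0)
    {ε : ℝ} (hε : 0 < ε) : ∃ η > 0, ∀ᵐ k : ℝ, |k| < η → k ≠ 0 → ∀ (n : ℕ) (z : ℝ),
      |FF m n z k - GG c κ n z (abs k)| ≤ ε / |k| := by
  obtain ⟨η, hη, h⟩ := conc_unif hS (half_pos hε)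
  refine ⟨η, hη, ?_⟩
  filter_upwards [h] with k hk h1 h2 n z
  obtain ⟨hG, h3⟩ := hk h1 h2
  have hK : 0 < |k| := abs_pos.mpr h2
  rw [FF_eq hG]
  have a1 := h3 0
  have a2 := h3 n
  have hcos : Real.cos (|k| * z) = Real.cos (k * z) := by
    rcases abs_choice k with h | h
    · rw [h]
    · rw [h, neg_mul, Real.cos_neg]
  have e : (∫ τ, τ ^ 0 / (1 - τ ^ 2) ∂(m k)) - Real.cos (k * z) * ∫ τ, τ ^ n / (1 - τ ^ 2) ∂(m k) -
      GG c κ n z (abs k) = ((∫ τ, τ ^ 0 / (1 - τ ^ 2) ∂(m k)) -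
        κ / (2 * c * |k|) * Real.exp (-(c * |k|)) ^ 0) - Real.cos (k * z) *
        ((∫ τ, τ ^ n / (1 - τ ^ 2) ∂(m k)) - κ / (2 * c * |k|) * Real.exp (-(c * |k|)) ^ n) := by
    unfold GG
    rw [hcos, pow_zero (Real.exp _)]
    ring
  rw [e]
  refine (abs_sub _ _).trans ?_
  rw [abs_mul]
  have hc := Real.abs_cos_le_one (k * z)
  calc _ ≤ ε / 2 / |k| + 1 * (ε / 2 / |k|) := by gcongr
    _ = ε / |k| := by ring

theorem FF_bd {m : Kernel ℝ ℝ} {C k : ℝ} (h : Good m C k) (hC : 0 ≤ C) (hk : k ≠ 0) (n : ℕ)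
    (z : ℝ) : |FF m n z k| ≤ C * (|k| * z ^ 2 + n) := by
  have hfin := h.fin
  have hK : 0 < |k| := abs_pos.mpr hk
  have i3 : Integrable (fun τ => |k| * z ^ 2 / 2 * (k ^ 2 * (1 / (1 - τ) ^ 2))) (m k) :=
    (h.integrable_inv.const_mul _).const_mul _
  have key : |FF m n z k| ≤
      ∫ τ, ((|k| * z ^ 2 / 2 * (1 / 4) + n) + |k| * z ^ 2 / 2 * (k ^ 2 * (1 / (1 - τ) ^ 2)))
        ∂(m k) := by
    rw [← Real.norm_eq_abs]
    refine norm_integral_le_of_norm_le ((integrable_const _).add i3) ?_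
    filter_upwards [h.supp] with τ hτ
    have hu : 0 < 1 - τ := by linarith [hτ.2]
    have hu2 : 0 < 1 - τ ^ 2 := by nlinarith [hτ.1, hτ.2]
    have huu : 1 - τ ≤ 1 - τ ^ 2 := by nlinarith [hτ.1, hτ.2]
    have hτn1 : τ ^ n ≤ 1 := pow_le_one₀ hτ.1 hτ.2.le
    have hτn0 : 0 ≤ τ ^ n := pow_nonneg hτ.1 n
    have hc1 := Real.cos_le_one (k * z)
    have hc2 := Real.one_sub_sq_div_two_le_cos (x := k * z)
    have hb : 1 - τ ^ n ≤ n * (1 - τ) := by
      have := one_add_mul_le_pow (a := τ - 1) (by linarith [hτ.1]) n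
      have e : 1 + (τ - 1) = τ := by ring
      rw [e] at this
      linarith
    have hnum : 1 - Real.cos (k * z) * τ ^ n ≤ k ^ 2 * z ^ 2 / 2 + n * (1 - τ) := by nlinarith
    have hnum0 : 0 ≤ 1 - Real.cos (k * z) * τ ^ n := by nlinarith
    rw [Real.norm_eq_abs, abs_of_nonneg (by positivity)]
    set q := |k| / (1 - τ) with hq
    have hq0 : 0 ≤ q := by positivity
    calc (1 - Real.cos (k * z) * τ ^ n) / (1 - τ ^ 2)
        ≤ (k ^ 2 * z ^ 2 / 2 + n * (1 - τ)) / (1 - τ) := by gcongr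
      _ = |k| * z ^ 2 / 2 * q + n := by
        rw [hq, ← sq_abs k]
        field_simp
      _ ≤ |k| * z ^ 2 / 2 * (1 / 4 + q ^ 2) + n := by
        gcongr
        nlinarith [sq_nonneg (q - 1 / 2)]
      _ = _ := by
        rw [hq, div_pow, sq_abs]
        ring
  rw [integral_add (integrable_const _) i3, integral_const, integral_const_mul, integral_const_mul,
    smul_eq_mul] at key
  have hmass := h.real_le hC
  have hinv : ∫ τ, 1 / (1 - τ) ^ 2 ∂(m k) ≤ C / k ^ 2 := by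
    rw [integral_eq_lintegral_of_nonneg_ae (Eventually.of_forall fun τ => by positivity)
      h.integrable_inv.aestronglyMeasurable]
    exact ENNReal.toReal_le_of_le_ofReal (by positivity) h.inv
  have hk2 : 0 < k ^ 2 := by positivity
  calc |FF m n z k| ≤ _ := key
    _ ≤ C * (|k| * z ^ 2 / 2 * (1 / 4) + n) + |k| * z ^ 2 / 2 * (k ^ 2 * (C / k ^ 2)) := by
      gcongr
    _ = C * (5 / 8 * (|k| * z ^ 2) + n) := by field_simp; ring
    _ ≤ _ := by
      have : 0 ≤ |k| * z ^ 2 := by positivity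
      exact mul_le_mul_of_nonneg_left (by linarith) hC

theorem FF_far {V : ℤ → ℤ → ℝ} {m : Kernel ℝ ℝ} {c κ C k0 : ℝ} (hS : Spec V m c κ C k0)
    {η : ℝ} (hη : 0 < η) (hηπ : η ≤ π) : ∃ D : ℝ≥0∞, D ≠ ⊤ ∧ ∀ (n : ℕ) (z : ℝ),
      ∫⁻ k in Icc (-π) π ∩ {k | η ≤ |k|}, ‖FF m n z k‖ₑ ≤ D := by
  have hcos : 0 < 1 - Real.cos η := by
    have := Real.cos_lt_cos_of_nonneg_of_le_pi le_rfl hηπ hη
    rw [Real.cos_zero] at this
    linarith
  refine ⟨2 * ((ENNReal.ofReal (1 - Real.cos η))⁻¹ * ∫⁻ k in Icc (-π) π,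
    ENNReal.ofReal (1 - Real.cos k) * ∫⁻ τ, ENNReal.ofReal (1 / (1 - τ ^ 2)) ∂(m k)), ?_, ?_⟩
  · refine ENNReal.mul_ne_top (by norm_num) (ENNReal.mul_ne_top ?_ hS.fin)
    rw [ENNReal.inv_ne_top]
    simpa using hcos
  · intro n z
    have hm : MeasurableSet (Icc (-π) π ∩ {k : ℝ | η ≤ |k|}) :=
      measurableSet_Icc.inter (measurableSet_le measurable_const (by fun_prop))
    have hsf := hS.sfin
    have hPm : Measurable fun k : ℝ => ENNReal.ofReal (1 - Real.cos k) *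
        ∫⁻ τ, ENNReal.ofReal (1 / (1 - τ ^ 2)) ∂(m k) := by
      have h1 : Measurable fun p : ℝ × ℝ => ENNReal.ofReal (1 / (1 - p.2 ^ 2)) := by fun_prop
      have h2 : Measurable fun k : ℝ => ∫⁻ τ, ENNReal.ofReal (1 / (1 - τ ^ 2)) ∂(m k) :=
        Measurable.lintegral_kernel_prod_right' (κ := m) h1
      have h3 : Measurable fun k : ℝ => ENNReal.ofReal (1 - Real.cos k) := by fun_prop
      exact h3.mul h2
    calc ∫⁻ k in Icc (-π) π ∩ {k | η ≤ |k|}, ‖FF m n z k‖ₑ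
        ≤ ∫⁻ k in Icc (-π) π ∩ {k | η ≤ |k|}, 2 * ((ENNReal.ofReal (1 - Real.cos η))⁻¹ *
          (ENNReal.ofReal (1 - Real.cos k) *
            ∫⁻ τ, ENNReal.ofReal (1 / (1 - τ ^ 2)) ∂(m k))) := by
          refine lintegral_mono_ae ?_
          filter_upwards [ae_restrict_of_ae hS.supp, ae_restrict_mem hm] with k hk hkm
          have h1 : ‖FF m n z k‖ₑ ≤ 2 * ∫⁻ τ, ENNReal.ofReal (1 / (1 - τ ^ 2)) ∂(m k) := by
            unfold FF
            refine (enorm_integral_le_lintegral_enorm _).trans ?_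
            rw [← lintegral_const_mul _ (by fun_prop)]
            refine lintegral_mono_ae ?_
            filter_upwards [hk] with τ hτ
            have hu2 : 0 < 1 - τ ^ 2 := by nlinarith [hτ.1, hτ.2]
            have hτn1 : τ ^ n ≤ 1 := pow_le_one₀ hτ.1 hτ.2.le
            have hτn0 : 0 ≤ τ ^ n := pow_nonneg hτ.1 n
            have hc1 := Real.cos_le_one (k * z)
            have hc2 := Real.neg_one_le_cos (k * z)
            have hnum : 1 - Real.cos (k * z) * τ ^ n ≤ 2 := by nlinarith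
            have hnum0 : 0 ≤ 1 - Real.cos (k * z) * τ ^ n := by nlinarith
            rw [Real.enorm_eq_ofReal (by positivity), show (2 : ℝ≥0∞) = ENNReal.ofReal 2 by simp,
              ← ENNReal.ofReal_mul (by norm_num)]
            refine ENNReal.ofReal_le_ofReal ?_
            rw [mul_one_div]
            gcongr
          refine h1.trans ?_
          gcongr
          rw [← mul_assoc]
          have h2 : 1 ≤ (ENNReal.ofReal (1 - Real.cos η))⁻¹ * ENNReal.ofReal (1 - Real.cos k) := by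
            have h3 : ENNReal.ofReal (1 - Real.cos η) ≤ ENNReal.ofReal (1 - Real.cos k) := by
              refine ENNReal.ofReal_le_ofReal ?_
              have h4 : Real.cos k ≤ Real.cos η := by
                rw [← Real.cos_abs k]
                refine Real.cos_le_cos_of_nonneg_of_le_pi hη.le ?_ hkm.2
                exact abs_le.2 hkm.1
              linarith
            have h5 : (ENNReal.ofReal (1 - Real.cos η)) ≠ 0 := by simpa using hcos
            calc (1 : ℝ≥0∞) = (ENNReal.ofReal (1 - Real.cos η))⁻¹ *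
                ENNReal.ofReal (1 - Real.cos η) :=
                  (ENNReal.inv_mul_cancel h5 ENNReal.ofReal_ne_top).symm
              _ ≤ _ := by gcongr
          calc ∫⁻ τ, ENNReal.ofReal (1 / (1 - τ ^ 2)) ∂(m k)
              = 1 * ∫⁻ τ, ENNReal.ofReal (1 / (1 - τ ^ 2)) ∂(m k) := (one_mul _).symm
            _ ≤ _ := by gcongr
      _ = 2 * ((ENNReal.ofReal (1 - Real.cos η))⁻¹ *
          ∫⁻ k in Icc (-π) π ∩ {k | η ≤ |k|}, ENNReal.ofReal (1 - Real.cos k) *
            ∫⁻ τ, ENNReal.ofReal (1 / (1 - τ ^ 2)) ∂(m k)) := by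
          rw [lintegral_const_mul _ (hPm.const_mul _), lintegral_const_mul _ hPm]
      _ ≤ _ := by
          gcongr
          exact inter_subset_left

end Vale.Agent.P153.GFF.G2w
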