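import Vale.Agent.P153.GFF.Interface
import Vale.Agent.P153.GFF.G2b

/-!
# P153, (G2): logarithmic growth of the variance function
-/

open MeasureTheory ProbabilityTheory Filter Topology Set
open scoped ENNReal Real

namespace Vale.Agent.P153.GFF.G2w

open TwoPt TwoPt.Cn

theorem osc {w : ℂ} (hw : w ≠ 0) (hre : 0 ≤ w.re) {a b : ℝ} (ha : 0 < a) (hab : a ≤ b) :
    ‖∫ t in a..b, Complex.exp (-(w * t)) / t‖ ≤ 2 / (‖w‖ * a) := by
  have hb : 0 < b := ha.trans_le hab
  have hwn : 0 < ‖w‖ := norm_pos_iff.2 hw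
  have hpos : ∀ t ∈ uIcc a b, 0 < t := fun t ht => by
    rw [uIcc_of_le hab] at ht
    exact ha.trans_le ht.1
  have hexp : ∀ t : ℝ, 0 ≤ t → ‖Complex.exp (-(w * t))‖ ≤ 1 := by
    intro t ht
    rw [Complex.norm_exp]
    refine Real.exp_le_one_iff.2 ?_
    have : (-(w * (t : ℂ))).re = -(w.re * t) := by simp
    rw [this]
    have := mul_nonneg hre ht
    linarith
  have hc1 : ContinuousOn (fun t : ℝ => Complex.exp (-(w * t)) / t) (uIcc a b) := by
    refine ContinuousOn.div (by fun_prop) (by fun_prop) fun t ht => ?_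
    exact_mod_cast (hpos t ht).ne'
  have hc2 : ContinuousOn (fun t : ℝ => Complex.exp (-(w * t)) / (w * t ^ 2)) (uIcc a b) := by
    refine ContinuousOn.div (by fun_prop) (by fun_prop) fun t ht => ?_
    have h1 : (t : ℂ) ≠ 0 := by exact_mod_cast (hpos t ht).ne'
    positivity
  have hder : ∀ t ∈ uIcc a b, HasDerivAt (fun t : ℝ => -(Complex.exp (-(w * t)) / (w * t)))
      (Complex.exp (-(w * t)) / t + Complex.exp (-(w * t)) / (w * t ^ 2)) t := by
    intro t ht
    have h1 : (t : ℂ) ≠ 0 := by exact_mod_cast (hpos t ht).ne'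
    have h2 : HasDerivAt (fun t : ℝ => (t : ℂ)) 1 t := Complex.ofRealCLM.hasDerivAt
    have h3 : HasDerivAt (fun t : ℝ => w * (t : ℂ)) (w * 1) t := h2.const_mul w
    have h4 := (h3.neg.cexp.div h3 (mul_ne_zero hw h1)).neg
    refine h4.congr_deriv ?_
    simp only [Pi.neg_apply]
    field_simp
    ring
  have hint := intervalIntegral.integral_eq_sub_of_hasDerivAt hder
    (hc1.intervalIntegrable.add hc2.intervalIntegrable)
  rw [intervalIntegral.integral_add hc1.intervalIntegrable hc2.intervalIntegrable] at hint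
  have hq : ‖∫ t in a..b, Complex.exp (-(w * t)) / (w * t ^ 2)‖ ≤ (1 / ‖w‖) * (1 / a - 1 / b) := by
    have e : ∫ t in a..b, (1 / ‖w‖) * (t ^ (-2 : ℤ)) = (1 / ‖w‖) * (1 / a - 1 / b) := by
      rw [intervalIntegral.integral_const_mul, integral_zpow]
      · congr 1
        norm_num
        ring
      · right
        refine ⟨by norm_num, fun h => ?_⟩
        exact (hpos 0 h).false
    rw [← e]
    refine intervalIntegral.norm_integral_le_of_norm_le hab ?_ ?_
    · refine Eventually.of_forall fun t ht => ?_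
      have ht0 : 0 < t := ha.trans ht.1
      rw [norm_div, norm_mul, norm_pow, Complex.norm_real, Real.norm_of_nonneg ht0.le, zpow_neg,
        zpow_ofNat]
      calc ‖Complex.exp (-(w * t))‖ / (‖w‖ * t ^ 2) ≤ 1 / (‖w‖ * t ^ 2) := by
            gcongr
            exact hexp t ht0.le
        _ = _ := by field_simp
    · refine ContinuousOn.intervalIntegrable ?_
      refine continuousOn_const.mul (continuousOn_id.zpow₀ _ fun t ht => Or.inl (hpos t ht).ne')
  have e1 : ∫ t in a..b, Complex.exp (-(w * t)) / t =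
      -(Complex.exp (-(w * b)) / (w * b)) + Complex.exp (-(w * a)) / (w * a) -
        ∫ t in a..b, Complex.exp (-(w * t)) / (w * t ^ 2) := by
    rw [eq_sub_iff_add_eq, hint]
    ring
  have hn : ∀ t : ℝ, 0 < t → ‖Complex.exp (-(w * t)) / (w * t)‖ ≤ 1 / (‖w‖ * t) := by
    intro t ht
    rw [norm_div, norm_mul, Complex.norm_real, Real.norm_of_nonneg ht.le]
    gcongr
    exact hexp t ht.le
  rw [e1]
  refine (norm_sub_le _ _).trans ?_
  have h5 := norm_add_le (-(Complex.exp (-(w * b)) / (w * b))) (Complex.exp (-(w * a)) / (w * a))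
  rw [norm_neg] at h5
  have h6 := hn a ha
  have h7 := hn b hb
  have e2 : 2 / (‖w‖ * a) = 1 / (‖w‖ * b) + 1 / (‖w‖ * a) + (1 / ‖w‖) * (1 / a - 1 / b) := by
    field_simp
    ring
  rw [e2]
  linarith

theorem osc_real {c z : ℝ} {n : ℕ} (hc : 0 < c) (hR : 0 < z ^ 2 + c ^ 2 * (n : ℝ) ^ 2) {a b : ℝ}
    (ha : 0 < a) (hab : a ≤ b) :
    |∫ t in a..b, Real.cos (t * z) * Real.exp (-(c * t)) ^ n / t| ≤
      2 / (√(z ^ 2 + c ^ 2 * (n : ℝ) ^ 2) * a) := by
  set w : ℂ := ⟨c * n, z⟩ with hw
  have hn : ‖w‖ = √(z ^ 2 + c ^ 2 * (n : ℝ) ^ 2) := by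
    rw [Complex.norm_def, Complex.normSq_apply, hw]
    congr 1
    ring
  have hwn : 0 < ‖w‖ := by rw [hn]; exact Real.sqrt_pos.2 hR
  have hw0 : w ≠ 0 := norm_pos_iff.1 hwn
  have h1 := osc hw0 (show 0 ≤ w.re by rw [hw]; positivity) ha hab
  rw [hn] at h1
  have e : ∫ t in a..b, Real.cos (t * z) * Real.exp (-(c * t)) ^ n / t =
      (∫ t in a..b, Complex.exp (-(w * t)) / t).re := by
    have hpos : ∀ t ∈ uIcc a b, 0 < t := fun t ht => by
      rw [uIcc_of_le hab] at ht
      exact ha.trans_le ht.1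
    have hc1 : ContinuousOn (fun t : ℝ => Complex.exp (-(w * t)) / t) (uIcc a b) := by
      refine ContinuousOn.div (by fun_prop) (by fun_prop) fun t ht => ?_
      exact_mod_cast (hpos t ht).ne'
    have h2 := Complex.reCLM.intervalIntegral_comp_comm
      (hc1.intervalIntegrable (μ := volume))
    simp only [Complex.reCLM_apply] at h2
    rw [← h2]
    refine intervalIntegral.integral_congr fun t ht => ?_
    have hexp : Complex.exp (-(w * t)) =
        ((Real.exp (-(c * t)) ^ n : ℝ) : ℂ) * Complex.exp (((-(t * z) : ℝ) : ℂ) * Complex.I) := by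
      rw [← Real.exp_nat_mul, Complex.ofReal_exp, ← Complex.exp_add]
      congr 1
      rw [hw]
      apply Complex.ext
      · simp
        ring
      · simp
        ring
    rw [Complex.div_ofReal_re, hexp, Complex.re_ofReal_mul, Complex.exp_ofReal_mul_I_re,
      Real.cos_neg]
    ring
  rw [e]
  exact (Complex.abs_re_le_norm _).trans h1


theorem ring_int (g : ℝ → ℝ) {a b : ℝ} (ha : 0 < a) (hab : a ≤ b) (hb : b ≤ π) :
    ∫ k in Icc (-π) π, ({k : ℝ | a ≤ |k| ∧ |k| < b}).indicator (fun k => g (abs k)) k =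
      2 * ∫ t in a..b, g t := by
  have e1 : ∀ k : ℝ, ({k : ℝ | a ≤ |k| ∧ |k| < b}).indicator (fun k => g (abs k)) k =
      (Ico a b).indicator g (abs k) := by
    intro k
    by_cases h : a ≤ |k| ∧ |k| < b
    · rw [indicator_of_mem (show k ∈ {k : ℝ | a ≤ |k| ∧ |k| < b} from h),
        indicator_of_mem (show |k| ∈ Ico a b from h)]
    · rw [indicator_of_notMem (show k ∉ {k : ℝ | a ≤ |k| ∧ |k| < b} from h),
        indicator_of_notMem (show |k| ∉ Ico a b from h)]
  have hsub : ∀ k : ℝ, k ∉ Icc (-π) π → (Ico a b).indicator g (abs k) = 0 := by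
    intro k hk
    refine indicator_of_notMem (fun h => hk ?_) _
    exact abs_le.1 (h.2.le.trans hb)
  simp_rw [e1]
  rw [setIntegral_eq_integral_of_forall_compl_eq_zero hsub, integral_comp_abs,
    setIntegral_indicator measurableSet_Ico, intervalIntegral.integral_of_le hab,
    ← integral_Ico_eq_integral_Ioc]
  rw [show Ioi (0 : ℝ) ∩ Ico a b = Ico a b from
    inter_eq_right.2 fun t ht => ha.trans_le ht.1]

theorem main_est {V : ℤ → ℤ → ℝ} {m : Kernel ℝ ℝ} {c κ C k0 : ℝ} (hS : Spec V m c κ C k0)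
    {ε : ℝ} (hε : 0 < ε) : ∃ D R0 : ℝ, 1 ≤ R0 ∧ ∀ j z : ℤ,
      R0 ≤ √((z : ℝ) ^ 2 + c ^ 2 * (j : ℝ) ^ 2) →
      |π * V j z - κ / c * Real.log (√((z : ℝ) ^ 2 + c ^ 2 * (j : ℝ) ^ 2))| ≤
        ε * Real.log (√((z : ℝ) ^ 2 + c ^ 2 * (j : ℝ) ^ 2)) + D := by
  have hc := hS.c_pos
  have hC := hS.C_pos
  have hκ := hS.κ_nonneg
  have hk0 := hS.k0_pos
  have hsf := hS.sfin
  obtain ⟨η', hη', hm'⟩ := FF_main hS (half_pos hε)
  set η := min (min η' k0) 1 with hηd
  have hη : 0 < η := lt_min (lt_min hη' hk0) one_pos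
  have hη1 : η ≤ 1 := min_le_right _ _
  have hηk0 : η ≤ k0 := (min_le_left _ _).trans (min_le_right _ _)
  have hηη' : η ≤ η' := (min_le_left _ _).trans (min_le_left _ _)
  have hηπ : η ≤ π := hη1.trans (by linarith [Real.pi_gt_three])
  obtain ⟨D, hD, hfar⟩ := FF_far hS hη hηπ
  refine ⟨2 * C * (1 + 1 / c) + D.toReal + κ / c * (|Real.log η| + 2), 1 / η,
    by rw [le_div_iff₀ hη]; linarith, fun j z hR0 => ?_⟩
  set R := √((z : ℝ) ^ 2 + c ^ 2 * (j : ℝ) ^ 2) with hR
  set n := j.natAbs with hn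
  have hnj : (n : ℝ) ^ 2 = (j : ℝ) ^ 2 := by
    rw [hn]
    have : ((j.natAbs : ℤ) : ℝ) ^ 2 = (j : ℝ) ^ 2 := by
      rw [Int.natCast_natAbs]
      push_cast
      exact sq_abs _
    simp at this ⊢
  have hRpos : 0 < R := lt_of_lt_of_le (by positivity) hR0
  have hRη : 1 / R ≤ η := by
    rw [div_le_iff₀ hη] at hR0
    rw [div_le_iff₀ hRpos]
    linarith
  have hR1 : 1 ≤ R := by
    refine le_trans ?_ hR0
    rw [le_div_iff₀ hη]
    linarith
  have hR2 : R ^ 2 = (z : ℝ) ^ 2 + c ^ 2 * (j : ℝ) ^ 2 := Real.sq_sqrt (by positivity)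
  have hzR : (z : ℝ) ^ 2 ≤ R ^ 2 := by rw [hR2]; nlinarith [sq_nonneg (c * j)]
  have hnR : (n : ℝ) ≤ R / c := by
    rw [le_div_iff₀ hc]
    refine abs_le_of_sq_le_sq' ?_ hRpos.le |>.2
    rw [mul_pow, hnj, hR2]
    nlinarith [sq_nonneg (z : ℝ)]
  have hRi : 0 < 1 / R := by positivity
  set A1 : Set ℝ := {k | |k| < 1 / R} with hA1
  set A2 : Set ℝ := {k | 1 / R ≤ |k| ∧ |k| < η} with hA2
  set A3 : Set ℝ := {k | η ≤ |k|} with hA3
  have hA1m : MeasurableSet A1 := measurableSet_lt (by fun_prop) measurable_const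
  have hA2m : MeasurableSet A2 := by
    have h1 : MeasurableSet {k : ℝ | 1 / R ≤ |k|} :=
      measurableSet_le measurable_const (by fun_prop)
    have h2 : MeasurableSet {k : ℝ | |k| < η} := measurableSet_lt (by fun_prop) measurable_const
    exact h1.inter h2
  have hA3m : MeasurableSet A3 := measurableSet_le measurable_const (by fun_prop)
  set μ := volume.restrict (Icc (-π) π) with hμ
  have hFm := FF_meas m n (z : ℝ)
  -- the majorant
  set c1 := C * (R + R / c) with hc1
  have hc10 : 0 ≤ c1 := by positivity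
  have i1 : Integrable (A1.indicator fun _ => c1) μ := (integrable_const _).indicator hA1m
  have i2 : Integrable (A2.indicator fun k => ε / 2 / abs k) μ := by
    refine Integrable.mono' (integrable_const (ε / 2 * R))
      ((by fun_prop : Measurable fun k : ℝ => ε / 2 / |k|).indicator hA2m).aestronglyMeasurable ?_
    refine Eventually.of_forall fun k => ?_
    by_cases hk : k ∈ A2
    · rw [indicator_of_mem hk, Real.norm_eq_abs, abs_of_nonneg (by positivity)]
      have h1 : 0 < |k| := hRi.trans_le hk.1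
      rw [div_le_iff₀ h1]
      have h2 := hk.1
      rw [div_le_iff₀ hRpos] at h2
      nlinarith
    · rw [indicator_of_notMem hk, norm_zero]
      positivity
  have i3 : Integrable (A3.indicator fun k => ‖FF m n z k‖) μ := by
    rw [integrable_indicator_iff hA3m]
    refine ⟨hFm.norm.aestronglyMeasurable, ?_⟩
    rw [hasFiniteIntegral_iff_enorm, hμ, Measure.restrict_restrict hA3m, inter_comm]
    simp_rw [enorm_norm]
    exact (hfar n z).trans_lt hD.lt_top
  have i4 : Integrable (A2.indicator fun k => GG c κ n z (abs k)) μ := by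
    have hGm : Measurable fun k : ℝ => GG c κ n z (abs k) := by
      unfold GG
      fun_prop
    refine Integrable.mono' (integrable_const (κ / c * R))
      (hGm.indicator hA2m).aestronglyMeasurable ?_
    refine Eventually.of_forall fun k => ?_
    by_cases hk : k ∈ A2
    · rw [indicator_of_mem hk, Real.norm_eq_abs]
      have h1 : 0 < |k| := hRi.trans_le hk.1
      have h2 := hk.1
      rw [div_le_iff₀ hRpos] at h2
      have h3 : |Real.exp (-(c * |k|)) ^ n| ≤ 1 := by
        rw [abs_of_nonneg (by positivity)]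
        refine pow_le_one₀ (Real.exp_pos _).le (Real.exp_le_one_iff.2 ?_)
        have := mul_pos hc h1
        linarith
      have h4 : |1 - Real.cos (|k| * z) * Real.exp (-(c * |k|)) ^ n| ≤ 2 := by
        refine (abs_sub _ _).trans ?_
        rw [abs_one, abs_mul]
        have h5 := Real.abs_cos_le_one (|k| * z)
        have : |Real.cos (|k| * z)| * |Real.exp (-(c * |k|)) ^ n| ≤ 1 * 1 := by gcongr
        linarith
      unfold GG
      rw [abs_mul, abs_of_nonneg (by positivity)]
      calc κ / (2 * c * |k|) * |1 - Real.cos (|k| * z) * Real.exp (-(c * |k|)) ^ n|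
          ≤ κ / (2 * c * |k|) * 2 := by gcongr
        _ = κ / c * (1 / |k|) := by field_simp
        _ ≤ κ / c * R := by
          gcongr
          rw [div_le_iff₀ h1]
          linarith
    · rw [indicator_of_notMem hk, norm_zero]
      positivity
  have hpt : ∀ᵐ k ∂μ, ‖FF m n z k - A2.indicator (fun k => GG c κ n z (abs k)) k‖ ≤
      A1.indicator (fun _ => c1) k + A2.indicator (fun k => ε / 2 / abs k) k +
        A3.indicator (fun k => ‖FF m n z k‖) k := by
    have h0 : ∀ᵐ k : ℝ, k ≠ 0 := by simp [ae_iff]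
    filter_upwards [ae_restrict_of_ae hm', ae_restrict_of_ae (ae_good hS),
      ae_restrict_of_ae h0] with k g1 g2 g3
    by_cases m1 : k ∈ A1
    · have n2 : k ∉ A2 := fun h => not_lt.2 h.1 m1
      have n3 : k ∉ A3 := fun h => not_lt.2 (hRη.trans h) m1
      rw [indicator_of_mem m1, indicator_of_notMem n2, indicator_of_notMem n2,
        indicator_of_notMem n3, sub_zero, add_zero, add_zero, Real.norm_eq_abs]
      have m1' : |k| < 1 / R := m1
      have hG := g2 (m1'.trans_le (hRη.trans hηk0)) g3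
      refine (FF_bd hG hC.le g3 n z).trans ?_
      rw [hc1]
      have h1 : |k| * (z : ℝ) ^ 2 ≤ R := by
        calc |k| * (z : ℝ) ^ 2 ≤ 1 / R * R ^ 2 := by gcongr
          _ = R := by field_simp
      gcongr
    · by_cases m2 : k ∈ A2
      · have n3 : k ∉ A3 := fun h => not_lt.2 h m2.2
        rw [indicator_of_notMem m1, indicator_of_mem m2, indicator_of_mem m2,
          indicator_of_notMem n3, zero_add, add_zero, Real.norm_eq_abs]
        exact g1 (m2.2.trans_le hηη') g3 n z
      · have m3 : k ∈ A3 := by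
          by_contra h
          exact m2 ⟨not_lt.1 m1, not_le.1 h⟩
        rw [indicator_of_notMem m1, indicator_of_notMem m2, indicator_of_notMem m2,
          indicator_of_mem m3, sub_zero, zero_add, zero_add]
  have i12 : Integrable (fun k => A1.indicator (fun _ => c1) k +
      A2.indicator (fun k => ε / 2 / abs k) k) μ := i1.add i2
  have iB : Integrable (fun k => A1.indicator (fun _ => c1) k +
      A2.indicator (fun k => ε / 2 / abs k) k + A3.indicator (fun k => ‖FF m n z k‖) k) μ :=
    i12.add i3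
  have iD : Integrable (fun k => FF m n z k - A2.indicator (fun k => GG c κ n z (abs k)) k) μ := by
    refine Integrable.mono' iB (hFm.aestronglyMeasurable.sub i4.aestronglyMeasurable) ?_
    exact hpt
  have hDle := norm_integral_le_of_norm_le iB hpt
  have hsplit : ∫ k, FF m n z k ∂μ = (∫ k, (FF m n z k -
      A2.indicator (fun k => GG c κ n z (abs k)) k) ∂μ) +
        ∫ k, A2.indicator (fun k => GG c κ n z (abs k)) k ∂μ := by
    rw [← integral_add iD i4]
    refine integral_congr_ae (Eventually.of_forall fun k => ?_)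
    simp
  have hV : π * V j z = ∫ k, FF m n z k ∂μ := by
    rw [hS.rep j z, ← mul_assoc, mul_one_div_cancel Real.pi_pos.ne', one_mul]
    rfl
  -- the integrals
  have e1 : ∫ k, A1.indicator (fun _ => c1) k ∂μ ≤ 2 * C * (1 + 1 / c) := by
    rw [integral_indicator_const _ hA1m, smul_eq_mul]
    have h1 : μ.real A1 ≤ 2 / R := by
      have h2 : μ.real A1 ≤ volume.real (Ioo (-(1 / R)) (1 / R)) := by
        have h3 : A1 = Ioo (-(1 / R)) (1 / R) := by
          ext k
          show |k| < 1 / R ↔ -(1 / R) < k ∧ k < 1 / R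
          exact abs_lt
        rw [h3, hμ]
        refine ENNReal.toReal_mono (by simp) (Measure.restrict_apply_le _ _)
      refine h2.trans ?_
      rw [Real.volume_real_Ioo_of_le (by linarith)]
      apply le_of_eq
      ring
    calc μ.real A1 * c1 ≤ 2 / R * c1 := by gcongr
      _ = _ := by rw [hc1]; field_simp
  have e2 : ∫ k, A2.indicator (fun k => ε / 2 / abs k) k ∂μ = ε * Real.log (η * R) := by
    have h1 := ring_int (fun t => ε / 2 / t) hRi hRη hηπ
    rw [hμ, hA2, h1]
    have h2 : ∫ t in (1 / R)..η, ε / 2 / t = ε / 2 * Real.log (η / (1 / R)) := by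
      rw [← integral_one_div (by
        intro h
        rw [uIcc_of_le hRη] at h
        exact absurd h.1 (not_le.2 hRi)), ← intervalIntegral.integral_const_mul]
      refine intervalIntegral.integral_congr fun t _ => ?_
      ring
    rw [h2, show η / (1 / R) = η * R by field_simp]
    ring
  have e3 : ∫ k, A3.indicator (fun k => ‖FF m n z k‖) k ∂μ ≤ D.toReal := by
    rw [integral_indicator hA3m, hμ, Measure.restrict_restrict hA3m, inter_comm,
      integral_norm_eq_lintegral_enorm hFm.aestronglyMeasurable]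
    exact ENNReal.toReal_mono hD (hfar n z)
  have e4 : |(∫ k, A2.indicator (fun k => GG c κ n z (abs k)) k ∂μ) - κ / c * Real.log (η * R)| ≤
      κ / c * 2 := by
    have h1 := ring_int (GG c κ n z) hRi hRη hηπ
    have hpos : ∀ t ∈ uIcc (1 / R) η, 0 < t := fun t ht => by
      rw [uIcc_of_le hRη] at ht
      exact hRi.trans_le ht.1
    have c1 : IntervalIntegrable (fun t : ℝ => 1 / t) volume (1 / R) η :=
      ContinuousOn.intervalIntegrable (continuousOn_const.div continuousOn_id
        fun t ht => (hpos t ht).ne')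
    have c2 : IntervalIntegrable (fun t : ℝ => Real.cos (t * z) * Real.exp (-(c * t)) ^ n / t)
        volume (1 / R) η :=
      ContinuousOn.intervalIntegrable ((by fun_prop : Continuous fun t : ℝ =>
        Real.cos (t * z) * Real.exp (-(c * t)) ^ n).continuousOn.div continuousOn_id
        fun t ht => (hpos t ht).ne')
    have h2 : ∫ t in (1 / R)..η, GG c κ n z t = κ / (2 * c) * (Real.log (η / (1 / R)) -
        ∫ t in (1 / R)..η, Real.cos (t * z) * Real.exp (-(c * t)) ^ n / t) := by
      rw [← integral_one_div (by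
        intro h
        rw [uIcc_of_le hRη] at h
        exact absurd h.1 (not_le.2 hRi)), ← intervalIntegral.integral_sub c1 c2,
        ← intervalIntegral.integral_const_mul]
      refine intervalIntegral.integral_congr fun t ht => ?_
      have := hpos t ht
      simp only [GG]
      field_simp
    have h3 := osc_real (c := c) (z := z) (n := n) hc
      (by rw [hnj, ← hR2]; positivity) hRi hRη
    rw [hnj, ← hR, mul_one_div_cancel hRpos.ne', div_one] at h3
    rw [hμ, hA2, h1, h2, show η / (1 / R) = η * R by field_simp]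
    set O := ∫ t in (1 / R)..η, Real.cos (t * z) * Real.exp (-(c * t)) ^ n / t with hO
    have e : 2 * (κ / (2 * c) * (Real.log (η * R) - O)) - κ / c * Real.log (η * R) =
        -(κ / c * O) := by
      field_simp
      ring
    rw [e, abs_neg, abs_mul, abs_of_nonneg (by positivity : 0 ≤ κ / c)]
    gcongr
  rw [integral_add i12 i3, integral_add i1 i2] at hDle
  rw [Real.norm_eq_abs] at hDle
  have hlog : Real.log (η * R) = Real.log η + Real.log R := Real.log_mul hη.ne' hRpos.ne'
  have hlogη : Real.log η ≤ 0 := Real.log_nonpos hη.le hη1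
  have h5 : |κ / c * Real.log (η * R) - κ / c * Real.log R| ≤ κ / c * |Real.log η| := by
    rw [hlog, ← mul_sub, add_sub_cancel_right, abs_mul, abs_of_nonneg (by positivity : 0 ≤ κ / c)]
  have h6 : ε * Real.log (η * R) ≤ ε * Real.log R := by
    rw [hlog]
    exact mul_le_mul_of_nonneg_left (by linarith) hε.le
  rw [hV, hsplit]
  rw [e2] at hDle
  have h7 := abs_le.1 hDle
  have h8 := abs_le.1 e4
  have h9 := abs_le.1 h5
  rw [abs_le]
  constructor
  · linarith [h7.1, h8.1, h9.1]
  · linarith [h7.2, h8.2, h9.2]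

end Vale.Agent.P153.GFF.G2w

namespace Vale.Agent.P153.GFF

open G2w

theorem g2 : G2 := by
  intro V m c κ C k0 hS
  have hc := hS.c_pos
  have hκ := hS.κ_nonneg
  set r : ℤ × ℤ → ℝ := fun p => √((p.2 : ℝ) ^ 2 + c ^ 2 * (p.1 : ℝ) ^ 2) with hr
  -- `r → ∞`
  have hrt : Tendsto r cofinite atTop := by
    rw [tendsto_atTop]
    intro B
    have hfin : (Set.Icc (-⌈(|B| + 1) / c⌉) ⌈(|B| + 1) / c⌉ ×ˢ
        Set.Icc (-⌈|B| + 1⌉) ⌈|B| + 1⌉ : Set (ℤ × ℤ)).Finite :=
      (Set.finite_Icc _ _).prod (Set.finite_Icc _ _)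
    refine (hfin.subset ?_ : {p | ¬ B ≤ r p}.Finite)
    intro p hp
    have hp' : r p < B := not_le.1 hp
    have hB : r p < |B| + 1 := hp'.trans_le ((le_abs_self B).trans (by linarith))
    have h0 : 0 ≤ r p := Real.sqrt_nonneg _
    have h2 : r p ^ 2 = (p.2 : ℝ) ^ 2 + c ^ 2 * (p.1 : ℝ) ^ 2 := Real.sq_sqrt (by positivity)
    have hz : |(p.2 : ℝ)| ≤ |B| + 1 := by
      refine le_trans (abs_le_of_sq_le_sq ?_ h0) hB.le
      rw [h2]
      nlinarith [sq_nonneg (c * p.1)]
    have hj : |(p.1 : ℝ)| ≤ (|B| + 1) / c := by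
      rw [le_div_iff₀ hc]
      refine le_trans ?_ hB.le
      have : |(p.1 : ℝ) * c| ≤ r p := by
        refine abs_le_of_sq_le_sq ?_ h0
        rw [h2]
        nlinarith [sq_nonneg (p.2 : ℝ)]
      rwa [abs_mul, abs_of_pos hc] at this
    rw [abs_le] at hz hj
    refine ⟨⟨?_, ?_⟩, ⟨?_, ?_⟩⟩
    · rw [neg_le]
      have : -(p.1 : ℝ) ≤ (⌈(|B| + 1) / c⌉ : ℝ) := by linarith [Int.le_ceil ((|B| + 1) / c)]
      exact_mod_cast this
    · have : (p.1 : ℝ) ≤ (⌈(|B| + 1) / c⌉ : ℝ) := by linarith [Int.le_ceil ((|B| + 1) / c)]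
      exact_mod_cast this
    · rw [neg_le]
      have : -(p.2 : ℝ) ≤ (⌈|B| + 1⌉ : ℝ) := by linarith [Int.le_ceil (|B| + 1)]
      exact_mod_cast this
    · have : (p.2 : ℝ) ≤ (⌈|B| + 1⌉ : ℝ) := by linarith [Int.le_ceil (|B| + 1)]
      exact_mod_cast this
  have hlt : Tendsto (fun p => Real.log (r p)) cofinite atTop := Real.tendsto_log_atTop.comp hrt
  rw [Metric.tendsto_nhds]
  intro ε hε
  obtain ⟨D, R0, hR0, hD⟩ := main_est hS (ε := π * ε / 4) (by positivity)
  filter_upwards [hrt.eventually_ge_atTop R0, hlt.eventually_gt_atTop 0,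
    hlt.eventually_ge_atTop (4 * |D| / (π * ε))] with p h1 h2 h3
  have h4 := hD p.1 p.2 h1
  change |π * V p.1 p.2 - κ / c * Real.log (r p)| ≤ π * ε / 4 * Real.log (r p) + D at h4
  change dist (V p.1 p.2 / Real.log (r p)) (κ / (c * π)) < ε
  rw [Real.dist_eq]
  have e : V p.1 p.2 / Real.log (r p) - κ / (c * π) =
      (π * V p.1 p.2 - κ / c * Real.log (r p)) / (π * Real.log (r p)) := by
    field_simp
  rw [e, abs_div, abs_of_pos (show 0 < π * Real.log (r p) by positivity),
    div_lt_iff₀ (by positivity)]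
  have h5 : |D| ≤ π * ε / 4 * Real.log (r p) := by
    rw [div_le_iff₀ (by positivity)] at h3
    linarith
  have h6 := le_abs_self D
  have h7 : 0 < π * ε * Real.log (r p) := by positivity
  calc |π * V p.1 p.2 - κ / c * Real.log (r p)| ≤ π * ε / 4 * Real.log (r p) + D := h4
    _ ≤ π * ε / 4 * Real.log (r p) + π * ε / 4 * Real.log (r p) := by linarith
    _ < ε * (π * Real.log (r p)) := by linarith

end Vale.Agent.P153.GFF
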