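import Vale.Agent.P153.TwoPt.Conc

/-!
# P153, (G2), part one: the row spectral integrals at small momentum
-/

open MeasureTheory ProbabilityTheory Filter Topology Set
open scoped ENNReal Real

namespace Vale.Agent.P153.GFF.G2w

open TwoPt TwoPt.Cn

theorem pow_close {x y r : ℝ} (hx0 : 0 ≤ x) (hy0 : 0 ≤ y) (hx : x ≤ r) (hy : y ≤ r) (hr : r < 1)
    (n : ℕ) : |x ^ n - y ^ n| * (1 - r) ≤ |x - y| * (1 - r ^ n) := by
  have hr0 : 0 ≤ r := hx0.trans hx
  induction n with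
  | zero => simp
  | succ n ih =>
    have e : x ^ (n + 1) - y ^ (n + 1) = x * (x ^ n - y ^ n) + (x - y) * y ^ n := by ring
    have h1 : |x ^ (n + 1) - y ^ (n + 1)| ≤ r * |x ^ n - y ^ n| + |x - y| * r ^ n := by
      rw [e]
      refine (abs_add_le _ _).trans ?_
      rw [abs_mul, abs_mul, abs_of_nonneg hx0, abs_of_nonneg (pow_nonneg hy0 n)]
      gcongr
    have h2 : 0 ≤ 1 - r := by linarith
    have h3 : r ^ n ≤ 1 := pow_le_one₀ hr0 hr.le
    calc |x ^ (n + 1) - y ^ (n + 1)| * (1 - r)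
        ≤ (r * |x ^ n - y ^ n| + |x - y| * r ^ n) * (1 - r) := by gcongr
      _ = r * (|x ^ n - y ^ n| * (1 - r)) + |x - y| * (r ^ n * (1 - r)) := by ring
      _ ≤ r * (|x - y| * (1 - r ^ n)) + |x - y| * (r ^ n * (1 - r)) := by gcongr
      _ ≤ |x - y| * (1 - r ^ (n + 1)) := by
        have h4 : 0 ≤ |x - y| * ((1 - r) * (1 - r ^ n)) :=
          mul_nonneg (abs_nonneg _) (mul_nonneg h2 (by linarith))
        have h5 : r ^ (n + 1) = r ^ n * r := pow_succ _ _
        rw [h5]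
        nlinarith

theorem pow_close' {x y r : ℝ} (hx0 : 0 ≤ x) (hy0 : 0 ≤ y) (hx : x ≤ r) (hy : y ≤ r) (hr : r < 1)
    (n : ℕ) : |x ^ n - y ^ n| ≤ |x - y| / (1 - r) := by
  rw [le_div_iff₀ (by linarith)]
  refine (pow_close hx0 hy0 hx hy hr n).trans ?_
  have hr0 : 0 ≤ r := hx0.trans hx
  have h3 : 0 ≤ r ^ n := pow_nonneg hr0 n
  nlinarith [abs_nonneg (x - y)]

/-- pointwise closeness near the atom -/
theorem pt_near {c δ k τ : ℝ} (hc : 0 < c) (hδc : δ ≤ c / 2) (hk : k ≠ 0)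
    (hck : c * |k| ≤ 1 / 2) (h0 : 0 ≤ τ) (h1 : τ < 1)
    (h : abs ((1 - τ) - c * abs k) < δ * |k|) (n : ℕ) :
    |(|k| * (τ ^ n / (1 - τ ^ 2))) - 1 / (2 * c) * Real.exp (-(c * |k|)) ^ n| ≤
      3 * δ / c ^ 2 + 4 * |k| := by
  have hK : 0 < |k| := abs_pos.mpr hk
  set K := |k| with hKd
  obtain ⟨h2, h3⟩ := abs_lt.mp h
  set u := 1 - τ with hu
  have hcK : 0 < c * K := by positivity
  have hδ : 0 < δ := by
    by_contra hn
    push Not at hn
    have : 0 ≤ |u - c * K| := abs_nonneg _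
    have : δ * K ≤ 0 := by nlinarith
    linarith
  have hu1 : c * K / 2 ≤ u := by nlinarith
  have hu2 : u ≤ 3 / 2 * (c * K) := by nlinarith
  have hu0 : 0 < u := by linarith
  have hu3 : u ≤ 3 / 4 := by linarith
  have hτu : τ = 1 - u := by rw [hu]; ring
  have hden : 1 - τ ^ 2 = u * (2 - u) := by rw [hτu]; ring
  -- first factor
  have a1 : |K / (1 - τ ^ 2) - 1 / (2 * c)| ≤ 2 * δ / c ^ 2 + 9 / 4 * K := by
    rw [hden]
    have hu4 : 0 < 2 - u := by linarith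
    have e : K / (u * (2 - u)) - 1 / (2 * c) = (2 * (c * K - u) + u ^ 2) / (2 * c * (u * (2 - u))) := by
      field_simp
      ring
    rw [e, abs_div, abs_of_pos (show 0 < 2 * c * (u * (2 - u)) by positivity),
      div_le_iff₀ (by positivity)]
    have b1 : |2 * (c * K - u) + u ^ 2| ≤ 2 * (δ * K) + u ^ 2 := by
      rw [abs_le]
      constructor <;> nlinarith [sq_nonneg u]
    have b2 : c ^ 2 * K ≤ 2 * c * (u * (2 - u)) := by
      have : c * K / 2 * 1 ≤ u * (2 - u) := by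
        gcongr
        linarith
      nlinarith
    have b3 : u ^ 2 ≤ (3 / 2 * (c * K)) ^ 2 := by gcongr
    calc |2 * (c * K - u) + u ^ 2| ≤ 2 * (δ * K) + u ^ 2 := b1
      _ ≤ 2 * (δ * K) + (3 / 2 * (c * K)) ^ 2 := by linarith
      _ = (2 * δ / c ^ 2 + 9 / 4 * K) * (c ^ 2 * K) := by field_simp; ring
      _ ≤ _ := by gcongr
  -- second factor
  have hexp := Real.abs_exp_sub_one_sub_id_le (x := -(c * K)) (by rw [abs_neg, abs_of_pos hcK]; linarith)
  obtain ⟨c1, c2⟩ := abs_le.mp hexp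
  set y := Real.exp (-(c * K)) with hy
  have hy0 : 0 < y := Real.exp_pos _
  have hy1 : y ≤ 1 - c * K / 2 := by nlinarith
  have a2 : |τ ^ n - y ^ n| ≤ (δ * K + (c * K) ^ 2) / (c * K / 2) := by
    have hm := pow_close' (x := τ) (y := y) (r := 1 - c * K / 2) h0 hy0.le (by linarith) hy1
      (by linarith) n
    refine hm.trans ?_
    rw [show 1 - (1 - c * K / 2) = c * K / 2 by ring]
    gcongr
    rw [abs_le]
    constructor <;> nlinarith
  have a2' : (δ * K + (c * K) ^ 2) / (c * K / 2) = 2 * δ / c + 2 * c * K := by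
    field_simp
  rw [a2'] at a2
  have hτn0 : 0 ≤ τ ^ n := pow_nonneg h0 n
  have hτn1 : τ ^ n ≤ 1 := pow_le_one₀ h0 h1.le
  have e : K * (τ ^ n / (1 - τ ^ 2)) - 1 / (2 * c) * y ^ n =
      (K / (1 - τ ^ 2) - 1 / (2 * c)) * τ ^ n + 1 / (2 * c) * (τ ^ n - y ^ n) := by ring
  rw [e]
  refine (abs_add_le _ _).trans ?_
  rw [abs_mul, abs_mul, abs_of_nonneg hτn0, abs_of_pos (show 0 < 1 / (2 * c) by positivity)]
  calc |K / (1 - τ ^ 2) - 1 / (2 * c)| * τ ^ n + 1 / (2 * c) * |τ ^ n - y ^ n|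
      ≤ (2 * δ / c ^ 2 + 9 / 4 * K) * 1 + 1 / (2 * c) * (2 * δ / c + 2 * c * K) := by gcongr
    _ = 3 * δ / c ^ 2 + 13 / 4 * K := by field_simp; ring
    _ ≤ _ := by linarith

theorem integrable_pow {m : Kernel ℝ ℝ} {C k : ℝ} (h : Good m C k) (n : ℕ) :
    Integrable (fun τ => τ ^ n / (1 - τ ^ 2)) (m k) := by
  refine h.integrable_inv.mono' (by fun_prop : Measurable fun τ : ℝ => τ ^ n / (1 - τ ^ 2)).aestronglyMeasurable ?_
  filter_upwards [h.supp] with τ hτ
  have h1 : 0 < 1 - τ := by linarith [hτ.2]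
  have h2 : 0 < 1 - τ ^ 2 := by nlinarith [hτ.1, hτ.2]
  have h3 : τ ^ n ≤ 1 := pow_le_one₀ hτ.1 hτ.2.le
  have h4 : 0 ≤ τ ^ n := pow_nonneg hτ.1 n
  rw [Real.norm_eq_abs, abs_of_nonneg (by positivity)]
  have h5 : (1 - τ) ^ 2 ≤ 1 - τ ^ 2 := by nlinarith [hτ.1, hτ.2]
  gcongr

/-- uniform asymptotics of the row integrals at small momentum -/
theorem conc_unif {V : ℤ → ℤ → ℝ} {m : Kernel ℝ ℝ} {c κ C k0 : ℝ} (hS : Spec V m c κ C k0)
    {ε : ℝ} (hε : 0 < ε) : ∃ η > 0, ∀ᵐ k : ℝ, |k| < η → k ≠ 0 → Good m C k ∧ ∀ n : ℕ,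
      |(∫ τ, τ ^ n / (1 - τ ^ 2) ∂(m k)) - κ / (2 * c * |k|) * Real.exp (-(c * |k|)) ^ n| ≤
        ε / |k| := by
  have hc := hS.c_pos
  have hC := hS.C_pos
  have hκ := hS.κ_nonneg
  set δ := min (c / 2) (ε * c ^ 2 / (18 * C)) with hδd
  have hδ : 0 < δ := lt_min (by positivity) (by positivity)
  set A := 6 * C / ε with hAd
  have hA : 0 < A := by positivity
  set s := ε / (6 * C) with hsd
  have hs : 0 < s := by positivity
  obtain ⟨η1, hη1, h1⟩ := conc_a hS hA hδ (ε := 4 * s * ε / 6) (by positivity)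
  obtain ⟨η2, hη2, h2⟩ := conc_b hS hδ (ε := c * ε / 3) (by positivity)
  refine ⟨min (min k0 (min η1 η2)) (min (1 / (2 * c)) (ε / (24 * C))),
    lt_min (lt_min hS.k0_pos (lt_min hη1 hη2)) (lt_min (by positivity) (by positivity)), ?_⟩
  filter_upwards [ae_good hS, h1, h2] with k hg g1 g2 hk hk0
  simp only [lt_min_iff] at hk
  obtain ⟨⟨hka, hkb, hkc⟩, hkd, hke⟩ := hk
  have hG := hg hka hk0
  refine ⟨hG, fun n => ?_⟩
  have hfin := hG.fin
  have f1 := g1 hkb hk0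
  have f2 := g2 hkc hk0
  have hK : 0 < |k| := abs_pos.mpr hk0
  have hck : c * |k| ≤ 1 / 2 := by
    rw [lt_div_iff₀ (by positivity)] at hkd
    linarith
  set S1 := {τ : ℝ | abs ((1 - τ) - c * abs k) < δ * |k|} with hS1
  set S2 := {τ : ℝ | 1 - τ ≤ A * |k| ∧ δ * |k| ≤ abs ((1 - τ) - c * abs k)} with hS2
  have hS1m : MeasurableSet S1 := measurableSet_near δ c k
  have hS2m : MeasurableSet S2 := by
    have h1 : MeasurableSet {τ : ℝ | 1 - τ ≤ A * |k|} := measurableSet_le (by fun_prop) (by fun_prop)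
    have h2 : MeasurableSet {τ : ℝ | δ * |k| ≤ abs ((1 - τ) - c * abs k)} :=
      measurableSet_le (by fun_prop) (by fun_prop)
    exact h1.inter h2
  set Y := 1 / (2 * c) * Real.exp (-(c * |k|)) ^ n with hY
  have hY0 : 0 ≤ Y := by positivity
  have hY1 : Y ≤ 1 / (2 * c) := by
    have : Real.exp (-(c * |k|)) ^ n ≤ 1 := pow_le_one₀ (Real.exp_pos _).le
      (Real.exp_le_one_iff.2 (by have := mul_pos hc hK; linarith))
    calc Y ≤ 1 / (2 * c) * 1 := by rw [hY]; gcongr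
      _ = _ := mul_one _
  set W := 3 * δ / c ^ 2 + 4 * |k| with hW
  have hW0 : 0 ≤ W := by positivity
  have hint := integrable_pow hG n
  have i0 : Integrable (fun τ => |k| * (τ ^ n / (1 - τ ^ 2))) (m k) := hint.const_mul _
  have i1 : Integrable (S1.indicator fun _ => Y) (m k) := (integrable_const _).indicator hS1m
  have i2 : Integrable (S2.indicator fun _ => 1 / (4 * s)) (m k) :=
    (integrable_const _).indicator hS2m
  have i3 : Integrable (fun τ => s * k ^ 2 * (1 / (1 - τ) ^ 2)) (m k) :=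
    hG.integrable_inv.const_mul _
  have key : |∫ τ, (|k| * (τ ^ n / (1 - τ ^ 2)) - S1.indicator (fun _ => Y) τ) ∂(m k)| ≤
      ∫ τ, ((W + 1 / A) + S2.indicator (fun _ => 1 / (4 * s)) τ + s * k ^ 2 * (1 / (1 - τ) ^ 2))
        ∂(m k) := by
    rw [← Real.norm_eq_abs]
    refine norm_integral_le_of_norm_le (((integrable_const _).add i2).add i3) ?_
    filter_upwards [hG.supp] with τ hτ
    rw [Real.norm_eq_abs]
    have hu : 0 < 1 - τ := by linarith [hτ.2]
    have hu2 : 0 < 1 - τ ^ 2 := by nlinarith [hτ.1, hτ.2]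
    have hτn1 : τ ^ n ≤ 1 := pow_le_one₀ hτ.1 hτ.2.le
    have hτn0 : 0 ≤ τ ^ n := pow_nonneg hτ.1 n
    have hle : |k| * (τ ^ n / (1 - τ ^ 2)) ≤ |k| / (1 - τ) := by
      rw [← mul_div_assoc]
      have : 1 - τ ≤ 1 - τ ^ 2 := by nlinarith [hτ.1, hτ.2]
      gcongr
      nlinarith
    have hge : 0 ≤ |k| * (τ ^ n / (1 - τ ^ 2)) := by positivity
    have hp3 : 0 ≤ s * k ^ 2 * (1 / (1 - τ) ^ 2) := by positivity
    have hp2 : 0 ≤ S2.indicator (fun _ => 1 / (4 * s)) τ :=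
      indicator_nonneg (fun _ _ => by positivity) τ
    by_cases m1 : τ ∈ S1
    · rw [indicator_of_mem m1]
      have := pt_near hc (min_le_left _ _) hk0 hck hτ.1 hτ.2 m1 n
      have : 0 < 1 / A := by positivity
      linarith
    · rw [indicator_of_notMem m1, sub_zero, abs_of_nonneg hge]
      by_cases m2 : 1 - τ ≤ A * |k|
      · have m3 : τ ∈ S2 := ⟨m2, not_lt.mp m1⟩
        rw [indicator_of_mem m3]
        have : |k| / (1 - τ) ≤ 1 / (4 * s) + s * k ^ 2 * (1 / (1 - τ) ^ 2) := by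
          set q := |k| / (1 - τ) with hq
          have e1 : s * k ^ 2 * (1 / (1 - τ) ^ 2) = s * q ^ 2 := by
            rw [hq, div_pow, sq_abs]; ring
          rw [e1]
          have e2 : 1 / (4 * s) + s * q ^ 2 - q = s * (q - 1 / (2 * s)) ^ 2 := by
            field_simp
            ring
          have e3 : 0 ≤ s * (q - 1 / (2 * s)) ^ 2 := by positivity
          linarith
        have : 0 < 1 / A := by positivity
        linarith
      · have : |k| / (1 - τ) ≤ 1 / A := by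
          rw [div_le_div_iff₀ hu hA]
          nlinarith
        linarith
  have i12 : Integrable (fun τ => (W + 1 / A) + S2.indicator (fun _ => 1 / (4 * s)) τ) (m k) :=
    (integrable_const _).add i2
  rw [integral_sub i0 i1, integral_add i12 i3, integral_add (integrable_const _) i2, integral_const_mul, integral_const_mul,
    integral_indicator_const _ hS1m, integral_indicator_const _ hS2m, integral_const, smul_eq_mul,
    smul_eq_mul, smul_eq_mul] at key
  have hmass := hG.real_le hC.le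
  have hmass0 : 0 ≤ (m k).real univ := measureReal_nonneg
  have hinv : ∫ τ, 1 / (1 - τ) ^ 2 ∂(m k) ≤ C / k ^ 2 := by
    rw [integral_eq_lintegral_of_nonneg_ae (Eventually.of_forall fun τ => by positivity)
      hG.integrable_inv.aestronglyMeasurable]
    exact ENNReal.toReal_le_of_le_ofReal (by positivity) hG.inv
  have t1 : (m k).real univ * (W + 1 / A) ≤ ε / 6 + ε / 6 + ε / 6 := by
    have w1 : C * (3 * δ / c ^ 2) ≤ ε / 6 := by
      have : δ ≤ ε * c ^ 2 / (18 * C) := min_le_right _ _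
      calc C * (3 * δ / c ^ 2) ≤ C * (3 * (ε * c ^ 2 / (18 * C)) / c ^ 2) := by gcongr
        _ = ε / 6 := by field_simp; ring
    have w2 : C * (4 * |k|) ≤ ε / 6 := by
      rw [lt_div_iff₀ (by positivity)] at hke
      linarith
    have w3 : C * (1 / A) = ε / 6 := by rw [hAd]; field_simp
    calc (m k).real univ * (W + 1 / A) ≤ C * (W + 1 / A) := by gcongr
      _ = C * (3 * δ / c ^ 2) + C * (4 * |k|) + C * (1 / A) := by rw [hW]; ring
      _ ≤ _ := by linarith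
  have t2 : (m k).real S2 * (1 / (4 * s)) ≤ ε / 6 := by
    calc (m k).real S2 * (1 / (4 * s)) ≤ 4 * s * ε / 6 * (1 / (4 * s)) := by gcongr
      _ = ε / 6 := by field_simp
  have t3 : s * k ^ 2 * (∫ τ, 1 / (1 - τ) ^ 2 ∂(m k)) ≤ ε / 6 := by
    calc s * k ^ 2 * (∫ τ, 1 / (1 - τ) ^ 2 ∂(m k)) ≤ s * k ^ 2 * (C / k ^ 2) := by gcongr
      _ = ε / 6 := by rw [hsd]; field_simp
  have t4 : |(m k).real S1 * Y - κ * Y| ≤ ε / 6 := by
    rw [← sub_mul, abs_mul, abs_of_nonneg hY0]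
    calc |(m k).real S1 - κ| * Y ≤ c * ε / 3 * (1 / (2 * c)) := by gcongr
      _ = ε / 6 := by field_simp; ring
  have fin : |(|k| * ∫ τ, τ ^ n / (1 - τ ^ 2) ∂(m k)) - κ * Y| ≤ ε := by
    have e : (|k| * ∫ τ, τ ^ n / (1 - τ ^ 2) ∂(m k)) - κ * Y =
        ((|k| * ∫ τ, τ ^ n / (1 - τ ^ 2) ∂(m k)) - (m k).real S1 * Y) +
          ((m k).real S1 * Y - κ * Y) := by ring
    rw [e]
    refine (abs_add_le _ _).trans ?_
    linarith
  have e2 : (∫ τ, τ ^ n / (1 - τ ^ 2) ∂(m k)) - κ / (2 * c * |k|) * Real.exp (-(c * |k|)) ^ n =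
      ((|k| * ∫ τ, τ ^ n / (1 - τ ^ 2) ∂(m k)) - κ * Y) / |k| := by
    rw [hY]
    field_simp
  rw [e2, abs_div, abs_abs]
  gcongr

end Vale.Agent.P153.GFF.G2w
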