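import Vale.Agent.P153.GFF.Interface

/-!
# P153 GFF: the hat function of the triangular lattice

Partition of unity and the integral of the kernel of the affine interpolation.
-/

open MeasureTheory Filter Topology Set

namespace Vale.Agent.P153.GFF

lemma aux (s t : ℝ) : min (1 / 2) (min (s + 1 / 2) (-t + 1 / 2)) - max (-(1 / 2)) (max (s - 1 / 2) (-t - 1 / 2))
   = 1 - max |s| (max |t| |s + t|) := by
  rcases le_total 0 s with hs | hs <;> rcases le_total 0 t with ht | ht <;>
    rcases le_total 0 (s + t) with hst | hst <;>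
    simp only [abs_of_nonneg, abs_of_nonpos, hs, ht, hst] <;> grind

lemma hat_four {a b : ℝ} (ha : 0 ≤ a) (ha1 : a ≤ 1) (hb : 0 ≤ b) (hb1 : b ≤ 1) :
    hat a b + hat (a - 1) b + hat a (b - 1) + hat (a - 1) (b - 1) = 1 := by
  have e1 : |a| = a := abs_of_nonneg ha
  have e2 : |b| = b := abs_of_nonneg hb
  have e3 : |a - 1| = 1 - a := by rw [abs_of_nonpos (by linarith)]; ring
  have e4 : |b - 1| = 1 - b := by rw [abs_of_nonpos (by linarith)]; ring
  have e5 : |a + b| = a + b := abs_of_nonneg (by linarith)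
  have e6 : |a - 1 + (b - 1)| = 2 - a - b := by rw [abs_of_nonpos (by linarith)]; ring
  rcases le_total 1 (a + b) with h | h
  · have e7 : |a - 1 + b| = a + b - 1 := by rw [abs_of_nonneg (by linarith)]; ring
    have e8 : |a + (b - 1)| = a + b - 1 := by rw [abs_of_nonneg (by linarith)]; ring
    have h1 : hat a b = 0 := by
      unfold hat
      rw [e1, e2, e5, max_eq_right (by linarith : b ≤ a + b), max_eq_right (by linarith : a ≤ a + b),
        max_eq_left (by linarith)]
    have h2 : hat (a - 1) b = 1 - b := by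
      unfold hat
      rw [e3, e2, e7, max_eq_left (by linarith : a + b - 1 ≤ b), max_eq_right (by linarith : 1 - a ≤ b),
        max_eq_right (by linarith)]
    have h3 : hat a (b - 1) = 1 - a := by
      unfold hat
      rw [e1, e4, e8, max_eq_left (max_le (by linarith) (by linarith) : max (1 - b) (a + b - 1) ≤ a),
        max_eq_right (by linarith)]
    have h4 : hat (a - 1) (b - 1) = a + b - 1 := by
      unfold hat
      rw [e3, e4, e6, max_eq_right (by linarith : 1 - b ≤ 2 - a - b),
        max_eq_right (by linarith : 1 - a ≤ 2 - a - b), max_eq_right (by linarith)]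
      ring
    linarith
  · have e7 : |a - 1 + b| = 1 - a - b := by rw [abs_of_nonpos (by linarith)]; ring
    have e8 : |a + (b - 1)| = 1 - a - b := by rw [abs_of_nonpos (by linarith)]; ring
    have h1 : hat a b = 1 - a - b := by
      unfold hat
      rw [e1, e2, e5, max_eq_right (by linarith : b ≤ a + b), max_eq_right (by linarith : a ≤ a + b),
        max_eq_right (by linarith)]
      ring
    have h2 : hat (a - 1) b = a := by
      unfold hat
      rw [e3, e2, e7, max_eq_left (max_le (by linarith) (by linarith) : max b (1 - a - b) ≤ 1 - a),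
        max_eq_right (by linarith)]
      ring
    have h3 : hat a (b - 1) = b := by
      unfold hat
      rw [e1, e4, e8, max_eq_left (by linarith : 1 - a - b ≤ 1 - b),
        max_eq_right (by linarith : a ≤ 1 - b), max_eq_right (by linarith)]
      ring
    have h4 : hat (a - 1) (b - 1) = 0 := by
      unfold hat
      rw [e3, e4, e6, max_eq_right (by linarith : 1 - b ≤ 2 - a - b),
        max_eq_right (by linarith : 1 - a ≤ 2 - a - b), max_eq_left (by linarith)]
    linarith

lemma hat_eq_zero_left {s t : ℝ} (h : 1 ≤ |s|) : hat s t = 0 := by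
  unfold hat
  exact max_eq_left (by linarith [le_max_left |s| (max |t| |s + t|)])

lemma hat_eq_zero_right {s t : ℝ} (h : 1 ≤ |t|) : hat s t = 0 := by
  unfold hat
  have h1 : |t| ≤ max |s| (max |t| |s + t|) :=
    le_trans (le_max_left |t| |s + t|) (le_max_right _ _)
  exact max_eq_left (by linarith)

lemma mem_of_abs_lt_one {s : ℝ} {v : ℤ} (h : |s - v| < 1) : v ∈ ({⌊s⌋, ⌊s⌋ + 1} : Finset ℤ) := by
  rw [abs_lt] at h
  have h1 : (⌊s⌋ : ℝ) ≤ s := Int.floor_le s
  have h2 : s < ⌊s⌋ + 1 := Int.lt_floor_add_one s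
  have h3 : (v : ℝ) < (⌊s⌋ : ℝ) + 2 := by linarith
  have h4 : (⌊s⌋ : ℝ) - 1 < v := by linarith
  have h5 : v < ⌊s⌋ + 2 := by exact_mod_cast h3
  have h6 : ⌊s⌋ - 1 < v := by exact_mod_cast h4
  simp only [Finset.mem_insert, Finset.mem_singleton]
  omega

lemma support_hat (s t : ℝ) : (Function.support fun v : ℤ × ℤ => hat (s - v.1) (t - v.2)) ⊆
    (({⌊s⌋, ⌊s⌋ + 1} : Finset ℤ) ×ˢ ({⌊t⌋, ⌊t⌋ + 1} : Finset ℤ) : Finset (ℤ × ℤ)) := by
  intro v hv
  rw [Function.mem_support] at hv
  rw [Finset.mem_coe, Finset.mem_product]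
  constructor
  · apply mem_of_abs_lt_one
    by_contra h
    exact hv (hat_eq_zero_left (not_lt.1 h))
  · apply mem_of_abs_lt_one
    by_contra h
    exact hv (hat_eq_zero_right (not_lt.1 h))

/-- Partition of unity. -/
theorem hat_sum (s t : ℝ) : ∑ᶠ v : ℤ × ℤ, hat (s - v.1) (t - v.2) = 1 := by
  rw [finsum_eq_sum_of_support_subset _ (support_hat s t), Finset.sum_product]
  rw [Finset.sum_pair (by omega), Finset.sum_pair (by omega), Finset.sum_pair (by omega)]
  have h1 : 0 ≤ s - ⌊s⌋ := by linarith [Int.floor_le s]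
  have h2 : s - ⌊s⌋ ≤ 1 := by linarith [Int.lt_floor_add_one s]
  have h3 : 0 ≤ t - ⌊t⌋ := by linarith [Int.floor_le t]
  have h4 : t - ⌊t⌋ ≤ 1 := by linarith [Int.lt_floor_add_one t]
  have h5 := hat_four h1 h2 h3 h4
  push_cast
  rw [show s - (⌊s⌋ + 1) = s - ⌊s⌋ - 1 by ring, show t - (⌊t⌋ + 1) = t - ⌊t⌋ - 1 by ring]
  linarith

lemma hat_eq_volume (s t : ℝ) :
    ENNReal.ofReal (hat s t) = volume {r : ℝ | |r| ≤ 1 / 2 ∧ |s - r| ≤ 1 / 2 ∧ |t + r| ≤ 1 / 2} := by
  have h1 : {r : ℝ | |r| ≤ 1 / 2 ∧ |s - r| ≤ 1 / 2 ∧ |t + r| ≤ 1 / 2} =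
      Icc (max (-(1 / 2)) (max (s - 1 / 2) (-t - 1 / 2)))
        (min (1 / 2) (min (s + 1 / 2) (-t + 1 / 2))) := by
    ext r
    simp only [Set.mem_ofPred_eq, Set.mem_Icc, abs_le, max_le_iff, le_min_iff]
    constructor
    · rintro ⟨⟨a, b⟩, ⟨c, d⟩, e, f⟩
      refine ⟨⟨a, by linarith, by linarith⟩, b, by linarith, by linarith⟩
    · rintro ⟨⟨a, b, c⟩, d, e, f⟩
      refine ⟨⟨a, d⟩, ⟨by linarith, by linarith⟩, by linarith, by linarith⟩
  rw [h1, Real.volume_Icc, aux]
  unfold hat
  rcases le_total 0 (1 - max |s| (max |t| |s + t|)) with h | h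
  · rw [max_eq_right h]
  · rw [max_eq_left h, ENNReal.ofReal_zero, ENNReal.ofReal_of_nonpos h]

/-- indicator of `[-1/2, 1/2]` -/
noncomputable def bx (r : ℝ) : ENNReal := (Icc (-(1 / 2) : ℝ) (1 / 2)).indicator 1 r

@[fun_prop] lemma bx_meas : Measurable bx := measurable_one.indicator measurableSet_Icc

lemma bx_of {r : ℝ} (h : |r| ≤ 1 / 2) : bx r = 1 := by
  unfold bx
  rw [Set.indicator_of_mem (Set.mem_Icc.2 (abs_le.1 h)), Pi.one_apply]

lemma bx_not {r : ℝ} (h : ¬|r| ≤ 1 / 2) : bx r = 0 := by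
  unfold bx
  rw [Set.indicator_of_notMem (fun h' => h (abs_le.2 (Set.mem_Icc.1 h')))]

lemma lint_bx : ∫⁻ r, bx r = 1 := by
  unfold bx
  rw [lintegral_indicator_one measurableSet_Icc, Real.volume_Icc]
  norm_num

lemma ofReal_hat (s t : ℝ) : ENNReal.ofReal (hat s t) = ∫⁻ r, bx r * bx (s - r) * bx (t + r) := by
  rw [hat_eq_volume]
  have hm : MeasurableSet {r : ℝ | |r| ≤ 1 / 2 ∧ |s - r| ≤ 1 / 2 ∧ |t + r| ≤ 1 / 2} := by
    apply IsClosed.measurableSet
    apply IsClosed.inter
    · exact isClosed_le (f := fun r : ℝ => |r|) (g := fun _ => 1 / 2) (by fun_prop) (by fun_prop)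
    · apply IsClosed.inter
      · exact isClosed_le (f := fun r : ℝ => |s - r|) (g := fun _ => 1 / 2) (by fun_prop)
          (by fun_prop)
      · exact isClosed_le (f := fun r : ℝ => |t + r|) (g := fun _ => 1 / 2) (by fun_prop)
          (by fun_prop)
  rw [← lintegral_indicator_one hm]
  congr 1
  ext r
  by_cases h1 : |r| ≤ 1 / 2
  · by_cases h2 : |s - r| ≤ 1 / 2
    · by_cases h3 : |t + r| ≤ 1 / 2
      · rw [Set.indicator_of_mem (show r ∈ {r : ℝ | |r| ≤ 1 / 2 ∧ |s - r| ≤ 1 / 2 ∧ |t + r| ≤ 1 / 2}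
          from ⟨h1, h2, h3⟩), bx_of h1, bx_of h2, bx_of h3]
        simp
      · rw [Set.indicator_of_notMem (fun h => h3 h.2.2), bx_not h3, mul_zero]
    · rw [Set.indicator_of_notMem (fun h => h2 h.2.1), bx_not h2, mul_zero, zero_mul]
  · rw [Set.indicator_of_notMem (fun h => h1 h.1), bx_not h1, zero_mul, zero_mul]

lemma lint_hat_fst (t c : ℝ) : ∫⁻ s, ENNReal.ofReal (hat (s - c) t) = ∫⁻ r, bx r * bx (t + r) := by
  simp_rw [ofReal_hat]
  rw [lintegral_lintegral_swap]
  · congr 1
    ext r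
    have h1 : ∀ s, bx r * bx (s - c - r) * bx (t + r) = (bx r * bx (t + r)) * bx (s - (c + r)) := by
      intro s
      rw [show s - c - r = s - (c + r) by ring]
      ring
    simp_rw [h1]
    rw [lintegral_const_mul _ (by fun_prop),
      lintegral_sub_right_eq_self (fun s => bx s) (c + r), lint_bx, mul_one]
  · apply Measurable.aemeasurable
    unfold Function.uncurry
    fun_prop

/-- the kernel of the affine interpolation at mesh one, in the plane -/
noncomputable def ker (z : ℝ × ℝ) : ℝ := hat (z.1 - z.2 / √3) (2 * z.2 / √3)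

lemma continuous_hat : Continuous (fun p : ℝ × ℝ => hat p.1 p.2) := by
  unfold hat
  fun_prop

lemma continuous_ker : Continuous ker := by
  unfold ker
  exact continuous_hat.comp (by fun_prop : Continuous fun z : ℝ × ℝ => (z.1 - z.2 / √3, 2 * z.2 / √3))

lemma lint_ker : ∫⁻ z : ℝ × ℝ, ENNReal.ofReal (ker z) = ENNReal.ofReal (√3 / 2) := by
  have h3 : (0 : ℝ) < √3 := by positivity
  rw [Measure.volume_eq_prod, lintegral_prod_symm _ (continuous_ker.measurable.ennreal_ofReal.aemeasurable)]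
  unfold ker
  simp_rw [lint_hat_fst]
  rw [lintegral_lintegral_swap]
  · have h1 : ∀ r, ∫⁻ y, bx r * bx (2 * y / √3 + r) = bx r * ENNReal.ofReal (√3 / 2) := by
      intro r
      rw [lintegral_const_mul _ (by fun_prop)]
      congr 1
      have h2 : ∫⁻ y, bx (2 * y / √3 + r) = ∫⁻ y, (fun u => bx (u + r)) ((2 / √3) * y) := by
        congr 1
        ext y
        simp only []
        congr 2
        ring
      rw [h2, ← lintegral_map (f := fun u => bx (u + r)) (by fun_prop) (by fun_prop),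
        Real.map_volume_mul_left (by positivity), lintegral_smul_measure,
        lintegral_add_right_eq_self (fun s => bx s) r, lint_bx, smul_eq_mul, mul_one]
      congr 1
      rw [abs_of_pos (by positivity)]
      field_simp
    simp_rw [h1]
    rw [lintegral_mul_const _ bx_meas, lint_bx, one_mul]
  · apply Measurable.aemeasurable
    unfold Function.uncurry
    fun_prop

lemma ker_nonneg (z : ℝ × ℝ) : 0 ≤ ker z := by
  unfold ker hat
  exact le_max_left _ _

lemma integrable_ker : Integrable ker := by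
  refine ⟨continuous_ker.aestronglyMeasurable, ?_⟩
  rw [hasFiniteIntegral_iff_ofReal (ae_of_all _ ker_nonneg), lint_ker]
  exact ENNReal.ofReal_lt_top

lemma integral_ker : ∫ z, ker z = √3 / 2 := by
  rw [integral_eq_lintegral_of_nonneg_ae (ae_of_all _ ker_nonneg)
    continuous_ker.aestronglyMeasurable, lint_ker, ENNReal.toReal_ofReal (by positivity)]

lemma ker_eq_zero {z : ℝ × ℝ} (h : 2 < |z.1| ∨ 1 < |z.2|) : ker z = 0 := by
  have h3 : (0 : ℝ) < √3 := by positivity
  have h4 : √3 < 2 := by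
    rw [Real.sqrt_lt' (by norm_num)]
    norm_num
  unfold ker
  by_cases h2 : 1 ≤ |2 * z.2 / √3|
  · exact hat_eq_zero_right h2
  · have h5 : |2 * z.2 / √3| = 2 * |z.2| / √3 := by
      rw [abs_div, abs_mul, abs_of_pos h3]
      norm_num
    have h6 : 2 * |z.2| / √3 < 1 := by
      rw [← h5]
      exact not_le.1 h2
    rw [div_lt_one h3] at h6
    have h7 : |z.2| < 1 := by linarith
    rcases h with h | h
    · apply hat_eq_zero_left
      have h8 : |z.1| - |z.2 / √3| ≤ |z.1 - z.2 / √3| := abs_sub_abs_le_abs_sub _ _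
      have h9 : |z.2 / √3| ≤ 1 := by
        rw [abs_div, abs_of_pos h3, div_le_one h3]
        linarith
      linarith
    · linarith

end Vale.Agent.P153.GFF
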