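import Vale.Agent.P153.A.All
import Vale.Agent.P153.GFF.Final

/-!
# P153 GFF: local limits along all exhausting sequences with connected complements, mixing
-/

namespace Vale.Agent.P153.GFF

open MeasureTheory Filter Topology

/-- The complement of `D` is connected. -/
def CoConn (D : Finset (ℤ × ℤ)) : Prop :=
  ∀ x y, x ∉ D → y ∉ D → Relation.ReflTransGen (fun u v => Adj u v ∧ v ∉ D) x y

theorem cc_of_coConn {D : Finset (ℤ × ℤ)} (h : CoConn D) : A.Cc D := by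
  intro x y hx hy
  exact ⟨hx, h x y hx hy⟩

/-- The plane limit along all finite domains with connected complement. -/
theorem exists_plane_loc : ∃ P : Measure (ℤ × ℤ → ℤ), Plane P ∧ Strip.EvLim P ∧
    ∀ (B : Finset (ℤ × ℤ)) (a : ℤ × ℤ → ℤ), Tendsto
      (fun D : Finset (ℤ × ℤ) => ((Ht D ∩ Pat B a).ncard : ℝ) / (Ht D).ncard)
      (atTop ⊓ 𝓟 {D | A.Cc D}) (𝓝 (P.real (Pat B a))) := by
  have h3 : A.S_fkg := A.s_fkg A.s_super A.s_e1
  have h4 : A.S_dom := A.s_dom A.s_e1 h3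
  have h9 : A.S_muMix := A.s_muMix h3 h4 A.s_prod
  have h7 : A.S_mu := A.s_mu A.s_e1 h4 A.s_comp
  have h21 : A.S_loc := A.s_loc A.s_rc A.s_bij
  obtain ⟨μ, hμ⟩ := h7
  have h1 := A.s_bk μ hμ.prob (A.s_muInv μ hμ) (h9 μ hμ) (A.s_muFlip μ hμ)
  obtain ⟨Q, hQ, hF⟩ := A.s_q A.s_e1 A.s_comp A.s_coin A.s_coin2
    ⟨μ, hμ, A.s_far μ hμ.prob h1⟩
  exact ⟨Q.map A.rc, A.plane_of A.s_rc A.s_sym h21 A.s_cc
    (A.s_rp A.s_rc A.s_bij A.s_cc A.s_rp0) A.s_gibbs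
    (A.s_mixP A.s_rc A.s_sym (A.s_mixQ A.s_e1 A.s_coin A.s_coin2 A.s_coin3 h9)) hQ hF,
    A.evLim_of A.s_rc A.s_sym h21 A.s_cc hQ, h21 Q hQ⟩

/-- Local limit along every exhausting sequence with connected complements. -/
theorem oddLim_all {P : Measure (ℤ × ℤ → ℤ)}
    (hP : ∀ (B : Finset (ℤ × ℤ)) (a : ℤ × ℤ → ℤ), Tendsto
      (fun D : Finset (ℤ × ℤ) => ((Ht D ∩ Pat B a).ncard : ℝ) / (Ht D).ncard)
      (atTop ⊓ 𝓟 {D | A.Cc D}) (𝓝 (P.real (Pat B a))))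
    {D : ℕ → Finset (ℤ × ℤ)} (hD : ∀ n, CoConn (D n)) (hx : ∀ x, ∀ᶠ n in atTop, x ∈ D n) :
    OddLim (P.map dbl) D := by
  refine oddLim_map fun B a => (hP B a).comp (tendsto_inf.2 ⟨tendsto_atTop.2 fun E => ?_,
    tendsto_principal.2 (Eventually.of_forall fun n => cc_of_coConn (hD n))⟩)
  exact (eventually_all_finset (l := atTop) (p := fun x n => x ∈ D n) E).2 fun x _ => hx x

theorem measurable_shift (t : ℤ × ℤ) : Measurable (shift t) :=
  measurable_pi_iff.2 fun x => (measurable_pi_apply (x + t)).sub (measurable_pi_apply t)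

/-- Mixing of even local functions, in the normalisation of the problem. -/
theorem mix_map {P : Measure (ℤ × ℤ → ℤ)} (hP : Plane P) (B : Finset (ℤ × ℤ))
    (W W' : (ℤ × ℤ → ℤ) → ℝ) (hW : Measurable W) (hW' : Measurable W')
    (hb : ∃ M, ∀ φ, |W φ| ≤ M) (hb' : ∃ M, ∀ φ, |W' φ| ≤ M) (he : ∀ φ, W (-φ) = W φ)
    (he' : ∀ φ, W' (-φ) = W' φ) (hl : ∀ φ ψ, (∀ x ∈ B, φ x = ψ x) → W φ = W ψ)
    (hl' : ∀ φ ψ, (∀ x ∈ B, φ x = ψ x) → W' φ = W' ψ) :
    Tendsto (fun t => ∫ φ, W φ * W' (shift t φ) ∂(P.map dbl)) cofinite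
      (𝓝 ((∫ φ, W φ ∂(P.map dbl)) * ∫ φ, W' φ ∂(P.map dbl))) := by
  have hn : ∀ φ : ℤ × ℤ → ℤ, dbl (-φ) = -dbl φ := by
    intro φ
    funext x
    simp [dbl]
  have h1 := hP.mix B (fun φ => W (dbl φ)) (fun φ => W' (dbl φ)) (hW.comp measurable_dbl)
    (hW'.comp measurable_dbl) (hb.imp fun M h φ => h _) (hb'.imp fun M h φ => h _)
    (fun φ => by rw [hn, he]) (fun φ => by rw [hn, he'])
    (fun φ ψ h => hl _ _ fun x hx => by simp only [dbl, h x hx])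
    (fun φ ψ h => hl' _ _ fun x hx => by simp only [dbl, h x hx])
  have e1 : ∫ φ, W φ ∂(P.map dbl) = ∫ φ, W (dbl φ) ∂P :=
    integral_map measurable_dbl.aemeasurable hW.aestronglyMeasurable
  have e2 : ∫ φ, W' φ ∂(P.map dbl) = ∫ φ, W' (dbl φ) ∂P :=
    integral_map measurable_dbl.aemeasurable hW'.aestronglyMeasurable
  rw [e1, e2]
  refine h1.congr fun t => ?_
  have h2 : ∫ φ, W φ * W' (shift t φ) ∂(P.map dbl) = ∫ φ, W (dbl φ) * W' (shift t (dbl φ)) ∂P :=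
    integral_map measurable_dbl.aemeasurable
      (hW.mul (hW'.comp (measurable_shift t))).aestronglyMeasurable
  rw [h2]
  congr 1
  funext φ
  congr 2
  funext x
  simp only [shift, dbl]
  ring

end Vale.Agent.P153.GFF
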