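import Vale.Agent.P153.GFF.Plus
import Vale.Agent.P153.GFF.FinLaw
import Vale.Agent.P153.Asm.Final
import Vale.Agent.P153.Strip.Lim
import Vale.Agent.P153.RP.Out

/-!
# P153: the plane theorem, strong form
-/

open MeasureTheory ProbabilityTheory Filter Topology Set

namespace Vale.Agent.P153.GFF

open Vale.Agent.P153.CLT (measurable_coord)

/-- The scaling limit part of the main theorem for a given measure and a given constant. -/
def ScalLim (P : Measure (ℤ × ℤ → ℤ)) (_ : IsProbabilityMeasure P) (κ : ℝ) : Prop :=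
    Tendsto (fun x : ℤ × ℤ => (∫ φ, ((φ x : ℤ) : ℝ) ^ 2 ∂P) / Real.log (len x)) cofinite
      (𝓝 (κ / Real.pi)) ∧
    ∀ (m : ℕ) (f : Fin m → ℝ × ℝ → ℝ), (∀ j, Test (f j)) →
      (Matrix.of (fun i j => κ * gffCov (f i) (f j))).PosSemidef ∧
      TendstoInDistribution (fun (δ : ℝ) (φ : ℤ × ℤ → ℤ) =>
        (WithLp.toLp 2 (fun j => smear φ δ (f j)) : EuclideanSpace ℝ (Fin m))) (𝓝[>] 0)
        (id : EuclideanSpace ℝ (Fin m) → EuclideanSpace ℝ (Fin m)) (fun _ => P)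
        (multivariateGaussian 0 (Matrix.of (fun i j => κ * gffCov (f i) (f j))))

variable {P : Measure (ℤ × ℤ → ℤ)} {κ : ℝ}

theorem scal_lim (hP : Plane P) (hS : SpecOut P κ) (hC : RowCLT P κ) (hκ : 0 ≤ κ) :
    ScalLim (P.map dbl) (odd_out hP).1 (4 * κ / √3) := by
  have h3 : (0 : ℝ) < √3 := by positivity
  have hpi := Real.pi_pos
  have hk : 0 ≤ 4 * κ / √3 := by positivity
  refine ⟨?_, ?_⟩
  · have h1 := (var_lim hP hS).const_mul 4
    have h2 : 4 * (κ / (√3 * Real.pi)) = 4 * κ / √3 / Real.pi := by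
      field_simp
    rw [h2] at h1
    refine h1.congr fun x => ?_
    have h4 : ∫ φ : ℤ × ℤ → ℤ, ((φ x : ℤ) : ℝ) ^ 2 ∂(P.map dbl) = 4 * var2 P x := by
      rw [integral_map measurable_dbl.aemeasurable
        ((measurable_coord x).pow_const 2).aestronglyMeasurable]
      unfold var2
      rw [← integral_const_mul]
      congr 1
      ext φ
      unfold dbl
      push_cast
      ring
    rw [h4]
    ring
  · refine g3 (P.map dbl) (odd_out hP).1 (4 * κ / √3) hk fun F hF => ?_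
    have h1 := char_fun hP hS hC (test_two hF)
    rw [gffCov_two] at h1
    have h2 : κ / √3 * (4 * gffCov F F) / 2 = 4 * κ / √3 * gffCov F F / 2 := by ring
    rw [h2] at h1
    refine h1.congr' ?_
    filter_upwards [self_mem_nhdsWithin] with δ hδ
    obtain ⟨K, hK⟩ := hF.csts
    have hm : Measurable fun φ : ℤ × ℤ → ℤ =>
        Complex.exp (Complex.I * ((smear φ δ F : ℝ) : ℂ)) :=
      Complex.measurable_exp.comp
        ((Complex.measurable_ofReal.comp (measurable_smear hK hδ)).const_mul _)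
    rw [integral_map measurable_dbl.aemeasurable hm.aestronglyMeasurable]
    congr 1
    ext φ
    rw [smear_dbl]

/-- The strong form of the final theorem. -/
def MainPlus : Prop := ∃ P : Measure (ℤ × ℤ → ℤ), ∃ _ : IsProbabilityMeasure P,
  (∀ᵐ φ ∂P, φ 0 = 0) ∧
  (∀ D : ℕ → Finset (ℤ × ℤ), (∀ n, CoConn (D n)) → (∀ x, ∀ᶠ n in atTop, x ∈ D n) → OddLim P D) ∧
  OddGibbs P ∧
  (∀ t, P.map (shift t) = P) ∧ P.map (fun φ x => φ (rot x)) = P ∧
  P.map (fun φ x => φ (x.2, x.1)) = P ∧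
  (∀ (B : Finset (ℤ × ℤ)) (W W' : (ℤ × ℤ → ℤ) → ℝ), Measurable W → Measurable W' →
    (∃ M, ∀ φ, |W φ| ≤ M) → (∃ M, ∀ φ, |W' φ| ≤ M) →
    (∀ φ, W (-φ) = W φ) → (∀ φ, W' (-φ) = W' φ) →
    (∀ φ ψ, (∀ x ∈ B, φ x = ψ x) → W φ = W ψ) → (∀ φ ψ, (∀ x ∈ B, φ x = ψ x) → W' φ = W' ψ) →
    Tendsto (fun t => ∫ φ, W φ * W' (shift t φ) ∂P) cofinite
      (𝓝 ((∫ φ, W φ ∂P) * ∫ φ, W' φ ∂P))) ∧
  ∃ κ : ℝ, 0 ≤ κ ∧
    Tendsto (fun x : ℤ × ℤ => (∫ φ, ((φ x : ℤ) : ℝ) ^ 2 ∂P) / Real.log (len x)) cofinite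
      (𝓝 (κ / Real.pi)) ∧
    (∀ (m : ℕ) (f : Fin m → ℝ × ℝ → ℝ), (∀ j, Test (f j)) →
      (Matrix.of (fun i j => κ * gffCov (f i) (f j))).PosSemidef ∧
      TendstoInDistribution (fun (δ : ℝ) (φ : ℤ × ℤ → ℤ) =>
        (WithLp.toLp 2 (fun j => smear φ δ (f j)) : EuclideanSpace ℝ (Fin m))) (𝓝[>] 0)
        (id : EuclideanSpace ℝ (Fin m) → EuclideanSpace ℝ (Fin m)) (fun _ => P)
        (multivariateGaussian 0 (Matrix.of (fun i j => κ * gffCov (f i) (f j))))) ∧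
    ∃ _ : ∀ D : Finset (ℤ × ℤ), IsProbabilityMeasure (uniformOn (Odd2 D)),
    ∃ R : ℝ → Finset (ℤ × ℤ), ∀ D : ℝ → Finset (ℤ × ℤ), (∀ δ, R δ ⊆ D δ) → (∀ δ, CoConn (D δ)) →
      ∀ (m : ℕ) (f : Fin m → ℝ × ℝ → ℝ), (∀ j, Test (f j)) →
        TendstoInDistribution (fun (δ : ℝ) (h : ℤ × ℤ → ℤ) =>
          (WithLp.toLp 2 (fun j => smear h δ (f j)) : EuclideanSpace ℝ (Fin m))) (𝓝[>] 0)
          (id : EuclideanSpace ℝ (Fin m) → EuclideanSpace ℝ (Fin m))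
          (fun δ => uniformOn (Odd2 (D δ)))
          (multivariateGaussian 0 (Matrix.of (fun i j => κ * gffCov (f i) (f j))))

theorem main_plus : MainPlus := by
  obtain ⟨P, hP, hE, hloc⟩ := exists_plane_loc
  obtain ⟨κ, hκ, hS⟩ := RP.specOut hP
  have hS' := hS
  obtain ⟨m, C, k0, hSp⟩ := hS'
  have hC := Asm.rowCLT hP (Strip.rowLim hE) hSp
  obtain ⟨o1, o2, o3, o4, o5, o6, o7⟩ := odd_out hP
  have h3 : (0 : ℝ) < √3 := by positivity
  obtain ⟨s1, s2⟩ := scal_lim hP hS hC hκ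
  exact ⟨P.map dbl, o1, o2, fun D hD hx => oddLim_all hloc hD hx, o4, o5, o6, o7,
    fun B W W' a1 a2 a3 a4 a5 a6 a7 a8 => mix_map hP B W W' a1 a2 a3 a4 a5 a6 a7 a8,
    4 * κ / √3, by positivity, s1, s2, fin_lim hP hS hC hloc fun D => cc_of_coConn⟩

end Vale.Agent.P153.GFF
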