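import Vale.Agent.P153.GFF.PlusMain

/-!
# P153: the strong form of the plane theorem, in the shape used by the hand-in
-/

open MeasureTheory ProbabilityTheory Filter Topology

namespace Vale.Agent.P153.GFF

/-- Convergence in law to the Gaussian free field under `μ δ`. -/
def ConvS (κ : ℝ) (μ : ℝ → Measure (ℤ × ℤ → ℤ)) (_ : ∀ δ, IsProbabilityMeasure (μ δ)) : Prop :=
  ∀ (m : ℕ) (f : Fin m → ℝ × ℝ → ℝ), (∀ j, Test (f j)) →
    (Matrix.of (fun i j => κ * gffCov (f i) (f j))).PosSemidef ∧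
    TendstoInDistribution (fun (δ : ℝ) (h : ℤ × ℤ → ℤ) =>
      (WithLp.toLp 2 (fun j => smear h δ (f j)) : EuclideanSpace ℝ (Fin m))) (𝓝[>] 0)
      (id : EuclideanSpace ℝ (Fin m) → EuclideanSpace ℝ (Fin m)) μ
      (multivariateGaussian 0 (Matrix.of (fun i j => κ * gffCov (f i) (f j))))

/-- Bounded measurable even functions of the heights in `B`. -/
def EvenLocS (B : Finset (ℤ × ℤ)) (W : (ℤ × ℤ → ℤ) → ℝ) : Prop :=
  Measurable W ∧ (∃ M, ∀ h, |W h| ≤ M) ∧ (∀ h, W (-h) = W h) ∧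
    ∀ h h', (∀ x ∈ B, h x = h' x) → W h = W h'

/-- The strong form of the final theorem. -/
def MainShape : Prop := ∃ P : Measure (ℤ × ℤ → ℤ), ∃ hP : IsProbabilityMeasure P,
    (∀ᵐ h ∂P, h 0 = 0) ∧
    (∀ D : ℕ → Finset (ℤ × ℤ), (∀ n, CoConn (D n)) → (∀ x, ∀ᶠ n in atTop, x ∈ D n) →
      OddLim P D) ∧
    OddGibbs P ∧
    (∀ t, P.map (shift t) = P) ∧ P.map (fun h x => h (rot x)) = P ∧
    P.map (fun h x => h (x.2, x.1)) = P ∧
    (∀ B W W', EvenLocS B W → EvenLocS B W' →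
      Tendsto (fun t => ∫ h, W h * W' (shift t h) ∂P) cofinite
        (𝓝 ((∫ h, W h ∂P) * ∫ h, W' h ∂P))) ∧
    ∃ κ : ℝ, 0 ≤ κ ∧
      Tendsto (fun x : ℤ × ℤ => (∫ h, ((h x : ℤ) : ℝ) ^ 2 ∂P) / Real.log (len x)) cofinite
        (𝓝 (κ / Real.pi)) ∧
      ConvS κ (fun _ => P) (fun _ => hP) ∧
      ∃ hU : ∀ D : Finset (ℤ × ℤ), IsProbabilityMeasure (uniformOn (Odd2 D)),
      ∃ R : ℝ → Finset (ℤ × ℤ),
      ∀ D : ℝ → Finset (ℤ × ℤ), (∀ δ, R δ ⊆ D δ) → (∀ δ, CoConn (D δ)) →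
        ConvS κ (fun δ => uniformOn (Odd2 (D δ))) (fun δ => hU (D δ))

theorem main_shape : MainShape := by
  obtain ⟨P, hP, h1, h2, h3, h4, h5, h6, h7, κ, hκ, h8, h9, hU, R, h10⟩ := main_plus
  exact ⟨P, hP, h1, h2, h3, h4, h5, h6, fun B W W' a b => h7 B W W' a.1 b.1 a.2.1 b.2.1 a.2.2.1
    b.2.2.1 a.2.2.2 b.2.2.2, κ, hκ, h8, h9, hU, R, fun D hD hC m f hf =>
    ⟨(h9 m f hf).1, h10 D hD hC m f hf⟩⟩

end Vale.Agent.P153.GFF
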