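import Vale.Agent.P153.GFF.WBounds

/-!
# P153 GFF: the even-row weights of the smeared field are a `TwoPt.Disc` sequence
-/

open MeasureTheory Filter Topology Set

namespace Vale.Agent.P153.GFF

/-- all sites from the even rows -/
def rho (q : (ℤ × ℤ) × Bool) : ℤ × ℤ := ev q.1.1 q.1.2 + (0, if q.2 then 1 else 0)

/-- `rho` is a bijection -/
def rhoE : (ℤ × ℤ) × Bool ≃ ℤ × ℤ where
  toFun := rho
  invFun v := ((v.2 / 2, v.1 + v.2 / 2), decide (v.2 % 2 = 1))
  left_inv := by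
    rintro ⟨⟨j, z⟩, b⟩
    cases b <;> simp [rho, ev] <;> omega
  right_inv := by
    rintro ⟨x, y⟩
    rcases Int.emod_two_eq_zero_or_one y with h | h
    · simp only [rho, ev, h]
      ext <;> simp <;> omega
    · simp only [rho, ev, h]
      ext <;> simp <;> omega

lemma finsum_rho {F : ℤ × ℤ → ℝ} (hF : (Function.support F).Finite) :
    ∑ᶠ v, F v = ∑ᶠ p : ℤ × ℤ, (F (ev p.1 p.2) + F (ev p.1 p.2 + (0, 1))) := by
  rw [← finsum_comp_equiv rhoE (f := F), finsum_curry]
  · apply finsum_congr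
    intro p
    rw [finsum_eq_sum_of_fintype, Fintype.sum_bool, add_comm]
    have h00 : ev p.1 p.2 + (0, 0) = ev p.1 p.2 := by ext <;> simp
    simp [rhoE, rho, h00]
  · show (rhoE ⁻¹' (Function.support F)).Finite
    exact hF.preimage rhoE.injective.injOn

/-- the weights on the even rows -/
noncomputable def rowW (δ : ℝ) (f : ℝ × ℝ → ℝ) (j x : ℤ) : ℝ :=
  wt δ f (ev j x) + wt δ f (ev j x + (0, 1))

/-- the test function in the coordinates of the even rows -/
noncomputable def ft (f : ℝ × ℝ → ℝ) (p : ℝ × ℝ) : ℝ := √3 * f (p.2, √3 * p.1)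

lemma pos_ev (j x : ℤ) : pos (ev j x) = ((x : ℝ), √3 * j) := by
  unfold pos ev
  ext
  · push_cast
    ring
  · push_cast
    ring

lemma pos_one : pos (0, 1) = (1 / 2, √3 / 2) := by
  unfold pos
  ext <;> simp

lemma sqrt3_le : √3 ≤ 2 := Real.sqrt_le_iff.2 ⟨by norm_num, by norm_num⟩

variable {f : ℝ × ℝ → ℝ} {K δ : ℝ}

lemma wt_supp (hf : Csts f K) (hδ : 0 < δ) (v : ℤ × ℤ) (hv : wt δ f v ≠ 0) :
    |(v.1 : ℝ)| ≤ 2 * (K / δ) + 7 ∧ |(v.2 : ℝ)| ≤ 2 * (K / δ) + 7 := by
  have h1 : v ∈ box δ K := by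
    by_contra h
    exact hv (wt_zero_of_box hδ hf.pos.le hf.zero h)
  rw [box, Finset.mem_product, Finset.mem_Icc, Finset.mem_Icc] at h1
  obtain ⟨⟨a, b⟩, c, d⟩ := h1
  have hc := Int.ceil_lt_add_one (2 * (K / δ) + 6)
  have a' : (-(⌈2 * (K / δ) + 6⌉ : ℝ)) ≤ v.1 := by exact_mod_cast a
  have b' : (v.1 : ℝ) ≤ ⌈2 * (K / δ) + 6⌉ := by exact_mod_cast b
  have c' : (-(⌈2 * (K / δ) + 6⌉ : ℝ)) ≤ v.2 := by exact_mod_cast c
  have d' : (v.2 : ℝ) ≤ ⌈2 * (K / δ) + 6⌉ := by exact_mod_cast d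
  rw [abs_le, abs_le]
  refine ⟨⟨by linarith, by linarith⟩, by linarith, by linarith⟩

lemma wt_support_finite (hf : Csts f K) (hδ : 0 < δ) : (Function.support (wt δ f)).Finite := by
  apply Set.Finite.subset (box δ K).finite_toSet
  intro v hv
  by_contra h
  exact hv (wt_zero_of_box hδ hf.pos.le hf.zero h)

lemma finsum_wt (hf : Csts f K) (hδ : 0 < δ) : ∑ᶠ v, wt δ f v = ∫ z, f z := by
  rw [finsum_eq_sum_of_support_subset (s := box δ K), sum_wt hδ hf.pos.le hf.cont hf.supp hf.zero]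
  intro v hv
  by_contra h
  exact hv (wt_zero_of_box hδ hf.pos.le hf.zero h)

lemma smear_finsum (hf : Csts f K) (hδ : 0 < δ) (h : ℤ × ℤ → ℤ) :
    smear h δ f = ∑ᶠ v : ℤ × ℤ, (h v : ℝ) * wt δ f v := by
  rw [finsum_eq_sum_of_support_subset (s := box δ K),
    smear_eq_sum hδ hf.pos.le hf.cont hf.supp hf.zero]
  intro v hv
  by_contra hb
  apply hv
  simp only
  rw [wt_zero_of_box hδ hf.pos.le hf.zero hb, mul_zero]

lemma rowW_supp (hf : Csts f K) (hδ : 0 < δ) (hδ1 : δ ≤ 1) (j x : ℤ)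
    (h : (4 * K + 20) * (1 / δ) < |(j : ℝ)| ∨ (4 * K + 20) * (1 / δ) < |(x : ℝ)|) :
    rowW δ f j x = 0 := by
  have hi : 1 ≤ 1 / δ := by
    rw [le_div_iff₀ hδ]
    linarith
  have hK := hf.pos
  have hKd : K / δ = K * (1 / δ) := by ring
  have key : ∀ e : ℤ, (e = 0 ∨ e = 1) → wt δ f (ev j x + (0, e)) = 0 := by
    intro e he
    by_contra hne
    obtain ⟨h1, h2⟩ := wt_supp hf hδ _ hne
    simp only [ev, Prod.fst_add, Prod.snd_add, add_zero] at h1 h2
    push_cast at h1 h2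
    have he1 : |(e : ℝ)| ≤ 1 := by
      rcases he with h | h <;> simp [h]
    rw [hKd] at h1 h2
    have h3 : |(j : ℝ)| ≤ K * (1 / δ) + 4 := by
      have h4 : |2 * (j : ℝ)| ≤ |2 * (j : ℝ) + e| + |(e : ℝ)| := by
        have := abs_sub (2 * (j : ℝ) + e) (e : ℝ)
        rw [add_sub_cancel_right] at this
        exact this
      rw [abs_mul, abs_of_pos (by norm_num : (0 : ℝ) < 2)] at h4
      linarith
    have h5 : |(x : ℝ)| ≤ 3 * (K * (1 / δ)) + 11 := by
      have h6 : |(x : ℝ)| ≤ |(x : ℝ) - j| + |(j : ℝ)| := by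
        have := abs_add_le ((x : ℝ) - j) (j : ℝ)
        rw [sub_add_cancel] at this
        exact this
      linarith
    have h7 : 0 < K * (1 / δ) := by positivity
    rcases h with h | h
    · nlinarith
    · nlinarith
  have k0 := key 0 (Or.inl rfl)
  have k1 := key 1 (Or.inr rfl)
  unfold rowW
  have : ev j x + (0, 0) = ev j x := by
    ext <;> simp
  rw [this] at k0
  rw [k0, k1, add_zero]

theorem disc (hf : Csts f K) (h0 : ∫ z, f z = 0) (δ : ℕ → ℝ) (hδ : ∀ n, 0 < δ n)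
    (hδ1 : ∀ n, δ n ≤ 1) (ht : Tendsto δ atTop (𝓝 0)) :
    TwoPt.Disc (ft f) (fun n => 1 / δ n) (fun n j x => rowW (δ n) f j x) (8 * K + 20) := by
  have hK := hf.pos
  have h3 : (0 : ℝ) < √3 := by positivity
  have hev1 : ∀ j x : ℤ, ev (j + 1) x = ev j x + (-1, 2) := by
    intro j x
    unfold ev
    ext <;> simp <;> ring
  have hev2 : ∀ j x : ℤ, ev (j - 1) x = ev j x - (-1, 2) := by
    intro j x
    unfold ev
    ext <;> simp <;> ring
  have hev3 : ∀ j x : ℤ, ev j (x + 1) = ev j x + (1, 0) := by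
    intro j x
    unfold ev
    ext <;> simp
    ring
  have hev4 : ∀ j x : ℤ, ev j (x - 1) = ev j x - (1, 0) := by
    intro j x
    unfold ev
    ext <;> simp
    ring
  have hp1 : ‖pos (-1, 2)‖ ≤ 2 := by
    unfold pos
    rw [Prod.norm_def, sup_le_iff, Real.norm_eq_abs, Real.norm_eq_abs]
    constructor
    · norm_num
    · push_cast
      rw [abs_of_nonneg (by positivity)]
      linarith [sqrt3_le]
  have hp2 : ‖pos (1, 0)‖ ≤ 1 := by
    unfold pos
    rw [Prod.norm_def, sup_le_iff, Real.norm_eq_abs, Real.norm_eq_abs]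
    constructor <;> norm_num
  constructor
  · linarith
  · intro n
    rw [le_div_iff₀ (hδ n)]
    linarith [hδ1 n]
  · have h5 : Tendsto δ atTop (𝓝[>] 0) :=
      tendsto_nhdsWithin_iff.2 ⟨ht, Eventually.of_forall fun n => hδ n⟩
    have h6 := tendsto_inv_nhdsGT_zero.comp h5
    refine h6.congr fun n => ?_
    rw [Function.comp_apply, one_div]
  · unfold ft
    exact continuous_const.mul (hf.cont.comp (by fun_prop))
  · have h5 : ft f = fun p => √3 * f (Homeomorph.smulOfNeZero (1 : ℝ) one_ne_zero (p.2, √3 * p.1)) := by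
      ext p
      unfold ft
      simp
    apply HasCompactSupport.intro (isCompact_closedBall (0 : ℝ × ℝ) K)
    intro p hp
    unfold ft
    rw [hf.zero, mul_zero]
    rw [mem_closedBall_zero_iff, Prod.norm_def, sup_le_iff, Real.norm_eq_abs, Real.norm_eq_abs,
      not_and_or, not_le, not_le] at hp
    rcases hp with h | h
    · right
      show K < |√3 * p.1|
      rw [abs_mul, abs_of_pos h3]
      have : 1 ≤ √3 := by
        rw [Real.one_le_sqrt]
        norm_num
      nlinarith [abs_nonneg p.1]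
    · left
      exact h
  · intro n j x h
    apply rowW_supp hf (hδ n) (hδ1 n)
    have hi : 0 < 1 / δ n := one_div_pos.2 (hδ n)
    rcases h with h | h
    · left
      nlinarith
    · right
      nlinarith
  · intro n
    have h5 := finsum_rho (wt_support_finite hf (hδ n))
    rw [finsum_wt hf (hδ n), h0] at h5
    exact h5.symm
  · intro ε hε
    have h5 : Tendsto (fun n => 5 * K * δ n) atTop (𝓝 0) := by
      simpa using ht.const_mul (5 * K)
    filter_upwards [h5.eventually (gt_mem_nhds hε)] with n hn j x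
    have hd := hδ n
    have e1 : (1 / δ n) ^ 2 * rowW (δ n) f j x =
        wt (δ n) f (ev j x) / (δ n) ^ 2 + wt (δ n) f (ev j x + (0, 1)) / (δ n) ^ 2 := by
      unfold rowW
      field_simp
    have e2 : ft f ((j : ℝ) / (1 / δ n), (x : ℝ) / (1 / δ n)) =
        √3 / 2 * f ((x : ℝ) * δ n, √3 * (j * δ n)) + √3 / 2 * f ((x : ℝ) * δ n, √3 * (j * δ n)) := by
      unfold ft
      simp only [div_div_eq_mul_div, div_one]
      ring
    rw [e1, e2]
    have e3 := wt_close hf hd (ev j x) ((x : ℝ) * δ n, √3 * (j * δ n)) 0 (by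
      rw [pos_ev]
      have : δ n • ((x : ℝ), √3 * (j : ℝ)) - ((x : ℝ) * δ n, √3 * (j * δ n)) = 0 := by
        ext <;> simp <;> ring
      rw [this, norm_zero])
    have e4 := wt_close hf hd (ev j x + (0, 1)) ((x : ℝ) * δ n, √3 * (j * δ n)) (δ n) (by
      rw [pos_add, pos_ev, pos_one]
      have : δ n • (((x : ℝ), √3 * (j : ℝ)) + (1 / 2, √3 / 2)) - ((x : ℝ) * δ n, √3 * (j * δ n)) =
          (δ n * (1 / 2), δ n * (√3 / 2)) := by
        ext <;> simp <;> ring
      rw [this, Prod.norm_def, sup_le_iff, Real.norm_eq_abs, Real.norm_eq_abs]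
      constructor
      · rw [abs_of_pos (by positivity)]
        linarith
      · rw [abs_of_pos (by positivity)]
        nlinarith [sqrt3_le])
    have e5 : wt (δ n) f (ev j x) / (δ n) ^ 2 + wt (δ n) f (ev j x + (0, 1)) / (δ n) ^ 2 -
        (√3 / 2 * f ((x : ℝ) * δ n, √3 * (j * δ n)) + √3 / 2 * f ((x : ℝ) * δ n, √3 * (j * δ n))) =
        (wt (δ n) f (ev j x) / (δ n) ^ 2 - √3 / 2 * f ((x : ℝ) * δ n, √3 * (j * δ n))) +
        (wt (δ n) f (ev j x + (0, 1)) / (δ n) ^ 2 - √3 / 2 * f ((x : ℝ) * δ n, √3 * (j * δ n))) := by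
      ring
    rw [e5]
    refine (abs_add_le _ _).trans ?_
    linarith
  · intro n j x
    have hd := hδ n
    have e1 := wt_sec hf hd (ev j x) (-1, 2)
    have e2 := wt_sec hf hd (ev j x + (0, 1)) (-1, 2)
    have e3 : K * δ n ^ 4 * ‖pos (-1, 2)‖ ^ 2 ≤ K * δ n ^ 4 * 4 := by
      apply mul_le_mul_of_nonneg_left _ (by positivity)
      nlinarith [norm_nonneg (pos (-1, 2))]
    have e4 : rowW (δ n) f (j + 1) x - 2 * rowW (δ n) f j x + rowW (δ n) f (j - 1) x =
        (wt (δ n) f (ev j x + (-1, 2)) - 2 * wt (δ n) f (ev j x) + wt (δ n) f (ev j x - (-1, 2))) +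
        (wt (δ n) f (ev j x + (0, 1) + (-1, 2)) - 2 * wt (δ n) f (ev j x + (0, 1)) +
          wt (δ n) f (ev j x + (0, 1) - (-1, 2))) := by
      unfold rowW
      rw [hev1, hev2, add_right_comm (ev j x) (-1, 2) (0, 1), sub_add_eq_add_sub]
      ring_nf
    rw [e4]
    refine (abs_add_le _ _).trans ?_
    have e5 : (8 * K + 20) / (1 / δ n) ^ 4 = (8 * K + 20) * δ n ^ 4 := by
      field_simp
    rw [e5]
    have : 0 < δ n ^ 4 := by positivity
    nlinarith
  · intro n j x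
    have hd := hδ n
    have e1 := wt_sec hf hd (ev j x) (1, 0)
    have e2 := wt_sec hf hd (ev j x + (0, 1)) (1, 0)
    have e3 : K * δ n ^ 4 * ‖pos (1, 0)‖ ^ 2 ≤ K * δ n ^ 4 * 1 := by
      apply mul_le_mul_of_nonneg_left _ (by positivity)
      nlinarith [norm_nonneg (pos (1, 0))]
    have e4 : rowW (δ n) f j (x + 1) - 2 * rowW (δ n) f j x + rowW (δ n) f j (x - 1) =
        (wt (δ n) f (ev j x + (1, 0)) - 2 * wt (δ n) f (ev j x) + wt (δ n) f (ev j x - (1, 0))) +
        (wt (δ n) f (ev j x + (0, 1) + (1, 0)) - 2 * wt (δ n) f (ev j x + (0, 1)) +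
          wt (δ n) f (ev j x + (0, 1) - (1, 0))) := by
      unfold rowW
      rw [hev3, hev4, add_right_comm (ev j x) (1, 0) (0, 1), sub_add_eq_add_sub]
      ring_nf
    rw [e4]
    refine (abs_add_le _ _).trans ?_
    have e5 : (8 * K + 20) / (1 / δ n) ^ 4 = (8 * K + 20) * δ n ^ 4 := by
      field_simp
    rw [e5]
    have : 0 < δ n ^ 4 := by positivity
    nlinarith

end Vale.Agent.P153.GFF
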