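import Vale.Agent.P153.TwoPt.Rho

/-!
# P153: second differences of `V` vanish at infinity
-/

open MeasureTheory ProbabilityTheory Filter Topology Set
open scoped ENNReal Real

namespace Vale.Agent.P153.GFF

open TwoPt

variable {V : ℤ → ℤ → ℝ} {m : Kernel ℝ ℝ} {c κ C k0 : ℝ}

/-- the weight of the second difference. -/
noncomputable def wt2 (p : ℝ × ℝ) : ℝ := (1 - Real.cos p.1) * (1 / (1 - p.2 ^ 2))

theorem Wf_diff2 (j z : ℤ) (p : ℝ × ℝ) : Wf j (z + 1) p + Wf j (z - 1) p - 2 * Wf j z p =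
    2 * (wt2 p * (Real.cos (p.1 * z) * p.2 ^ j.natAbs)) := by
  unfold Wf wt2
  push_cast
  rw [mul_add, mul_sub, mul_one, Real.cos_add, Real.cos_sub]
  ring

theorem int_wt2 (h : Spec V m c κ C k0) (j z : ℤ) :
    Integrable (fun p : ℝ × ℝ => wt2 p * (Real.cos (p.1 * z) * p.2 ^ j.natAbs)) (rho m) := by
  refine Integrable.mono h.int1 (Measurable.aestronglyMeasurable (by unfold wt2; fun_prop)) ?_
  filter_upwards [h.ae_supp] with p hp
  unfold wt2
  rw [norm_mul]
  refine mul_le_of_le_one_right (norm_nonneg _) ?_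
  rw [norm_mul]
  have h1 : ‖Real.cos (p.1 * z)‖ ≤ 1 := by
    rw [Real.norm_eq_abs]
    exact Real.abs_cos_le_one _
  have h2 : ‖p.2 ^ j.natAbs‖ ≤ 1 := by
    rw [Real.norm_of_nonneg (pow_nonneg hp.1 _)]
    exact pow_le_one₀ hp.1 hp.2.le
  exact mul_le_one₀ h1 (norm_nonneg _) h2

theorem V_diff2 (h : Spec V m c κ C k0) (j z : ℤ) : V j (z + 1) + V j (z - 1) - 2 * V j z =
    2 / π * ∫ p, wt2 p * (Real.cos (p.1 * z) * p.2 ^ j.natAbs) ∂(rho m) := by
  rw [h.rep', h.rep', h.rep']
  have h1 : ∫ p, wt2 p * (Real.cos (p.1 * z) * p.2 ^ j.natAbs) ∂(rho m) =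
      (1 / 2) * ∫ p, (Wf j (z + 1) p + Wf j (z - 1) p - 2 * Wf j z p) ∂(rho m) := by
    rw [← integral_const_mul]
    refine integral_congr_ae (Eventually.of_forall fun p => ?_)
    simp only
    rw [Wf_diff2]
    ring
  have h2 : ∫ p, (Wf j (z + 1) p + Wf j (z - 1) p - 2 * Wf j z p) ∂(rho m) =
      (∫ p, Wf j (z + 1) p ∂(rho m)) + (∫ p, Wf j (z - 1) p ∂(rho m)) -
        2 * ∫ p, Wf j z p ∂(rho m) := by
    have h3 : Integrable (fun p => Wf j (z + 1) p + Wf j (z - 1) p) (rho m) :=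
      (h.int_W _ _).add (h.int_W _ _)
    rw [integral_sub h3 ((h.int_W _ _).const_mul _),
      integral_add (h.int_W _ _) (h.int_W _ _), integral_const_mul]
  rw [h1, h2]
  ring

/-- decay in the row. -/
theorem dec_row (h : Spec V m c κ C k0) :
    Tendsto (fun n : ℕ => ∫ p, wt2 p * p.2 ^ n ∂(rho m)) atTop (𝓝 0) := by
  have h0 : ∫ p : ℝ × ℝ, (0 : ℝ) ∂(rho m) = 0 := integral_zero _ _
  rw [← h0]
  refine tendsto_integral_of_dominated_convergence (fun p => ‖wt2 p‖) ?_ ?_ ?_ ?_
  · intro n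
    exact Measurable.aestronglyMeasurable (by unfold wt2; fun_prop)
  · exact (h.int1 : Integrable wt2 (rho m)).norm
  · intro n
    filter_upwards [h.ae_supp] with p hp
    rw [norm_mul]
    refine mul_le_of_le_one_right (norm_nonneg _) ?_
    rw [Real.norm_of_nonneg (pow_nonneg hp.1 _)]
    exact pow_le_one₀ hp.1 hp.2.le
  · filter_upwards [h.ae_supp] with p hp
    have := (tendsto_pow_atTop_nhds_zero_of_lt_one hp.1 hp.2).const_mul (wt2 p)
    simpa using this

theorem abs_diff2_le (h : Spec V m c κ C k0) (j z : ℤ) :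
    |V j (z + 1) + V j (z - 1) - 2 * V j z| ≤ 2 / π * ∫ p, wt2 p * p.2 ^ j.natAbs ∂(rho m) := by
  have hpi := Real.pi_pos
  rw [V_diff2 h, abs_mul, abs_of_pos (by positivity)]
  refine mul_le_mul_of_nonneg_left ?_ (by positivity)
  rw [← Real.norm_eq_abs]
  have hint : Integrable (fun p : ℝ × ℝ => wt2 p * p.2 ^ j.natAbs) (rho m) := by
    have := int_wt2 h j 0
    simpa using this
  refine norm_integral_le_of_norm_le hint ?_
  filter_upwards [h.ae_supp] with p hp
  have h5 : 0 < 1 - p.2 ^ 2 := by nlinarith [hp.1, hp.2]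
  have h6 : 0 ≤ wt2 p := by
    unfold wt2
    have := Real.cos_le_one p.1
    have h7 : 0 ≤ 1 - Real.cos p.1 := by linarith
    positivity
  have h8 := pow_nonneg hp.1 j.natAbs
  rw [norm_mul, norm_mul, Real.norm_of_nonneg h6, Real.norm_of_nonneg h8, Real.norm_eq_abs]
  refine mul_le_mul_of_nonneg_left ?_ h6
  exact mul_le_of_le_one_left h8 (Real.abs_cos_le_one _)

/-- Riemann-Lebesgue for the cosine coefficients. -/
theorem riemann_lebesgue_cos {g : ℝ → ℝ} (hg : Integrable g (volume.restrict (Icc (-π) π))) :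
    Tendsto (fun z : ℤ => ∫ k in Icc (-π) π, Real.cos (k * z) * g k) cofinite (𝓝 0) := by
  have hpi := Real.pi_pos
  set f : ℝ → ℂ := (Icc (-π) π).indicator (fun k => (g k : ℂ)) with hf
  have h1 := Real.tendsto_integral_exp_smul_cocompact f
  have h2 : Tendsto (fun z : ℤ => (-(1 / (2 * π))) * (z : ℝ)) cofinite (cocompact ℝ) :=
    (tendsto_cocompact_mul_left₀ (by
      have : 0 < 1 / (2 * π) := by positivity
      linarith [this] |> fun h : -(1 / (2 * π)) < 0 => h.ne)).comp Int.tendsto_coe_cofinite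
  have h3 := (Complex.continuous_re.tendsto _).comp (h1.comp h2)
  rw [Complex.zero_re] at h3
  refine h3.congr fun z => ?_
  simp only [Function.comp_apply]
  have hfi : Integrable (fun k : ℝ => (g k : ℂ)) (volume.restrict (Icc (-π) π)) :=
    hg.ofReal (𝕜 := ℂ)
  have hexp : ∀ v : ℝ, ((Real.fourierChar (-(v * (-(1 / (2 * π)) * (z : ℝ)))) : ℂ)) =
      Complex.exp (((v * z : ℝ) : ℂ) * Complex.I) := by
    intro v
    rw [Real.fourierChar_apply]
    congr 1
    have : (π : ℂ) ≠ 0 := by exact_mod_cast hpi.ne'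
    push_cast
    field_simp
  have hcong : ∫ v : ℝ, Real.fourierChar (-(v * (-(1 / (2 * π)) * (z : ℝ)))) • f v =
      ∫ v in Icc (-π) π, Complex.exp (((v * z : ℝ) : ℂ) * Complex.I) * (g v : ℂ) := by
    rw [← integral_indicator measurableSet_Icc]
    refine integral_congr_ae (Eventually.of_forall fun v => ?_)
    simp only
    rw [hf]
    by_cases hv : v ∈ Icc (-π) π
    · rw [indicator_of_mem hv, indicator_of_mem hv, Circle.smul_def, hexp, smul_eq_mul]
    · rw [indicator_of_notMem hv, indicator_of_notMem hv, smul_zero]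
  rw [hcong]
  have hI : Integrable (fun v : ℝ => Complex.exp (((v * z : ℝ) : ℂ) * Complex.I) * (g v : ℂ))
      (volume.restrict (Icc (-π) π)) := by
    refine Integrable.bdd_mul (c := 1) hfi (Continuous.aestronglyMeasurable (by fun_prop)) ?_
    exact Eventually.of_forall fun v => by rw [Complex.norm_exp_ofReal_mul_I]
  have hre : (∫ v in Icc (-π) π, Complex.exp (((v * z : ℝ) : ℂ) * Complex.I) * (g v : ℂ)).re =
      ∫ v in Icc (-π) π, (Complex.exp (((v * z : ℝ) : ℂ) * Complex.I) * (g v : ℂ)).re :=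
    (integral_re hI).symm
  rw [hre]
  refine integral_congr_ae (Eventually.of_forall fun v => ?_)
  simp only
  rw [Complex.re_mul_ofReal, Complex.exp_ofReal_mul_I_re]

/-- decay in the position, for fixed row. -/
theorem dec_pos (h : Spec V m c κ C k0) (j : ℤ) :
    Tendsto (fun z : ℤ => V j (z + 1) + V j (z - 1) - 2 * V j z) cofinite (𝓝 0) := by
  have := h.sfin
  set g : ℝ → ℝ := fun k => ∫ τ, wt2 (k, τ) * τ ^ j.natAbs ∂(m k) with hg
  have hint : Integrable (fun p : ℝ × ℝ => wt2 p * p.2 ^ j.natAbs) (rho m) := by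
    have := int_wt2 h j 0
    simpa using this
  have hgi : Integrable g (volume.restrict (Icc (-π) π)) := by
    unfold rho at hint
    exact hint.integral_compProd
  have h1 := (riemann_lebesgue_cos hgi).const_mul (2 / π)
  rw [mul_zero] at h1
  refine h1.congr fun z => ?_
  rw [V_diff2 h]
  congr 1
  have h2 := int_wt2 h j z
  unfold rho at h2 ⊢
  rw [Measure.integral_compProd h2]
  refine integral_congr_ae (Eventually.of_forall fun k => ?_)
  simp only
  rw [hg]
  simp only
  rw [← integral_const_mul]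
  refine integral_congr_ae (Eventually.of_forall fun τ => ?_)
  simp only
  ring

/-- Second differences of `V` vanish at infinity. -/
theorem dec (h : Spec V m c κ C k0) :
    Tendsto (fun p : ℤ × ℤ => V p.1 (p.2 + 1) + V p.1 (p.2 - 1) - 2 * V p.1 p.2) cofinite (𝓝 0) := by
  have hpi := Real.pi_pos
  rw [Metric.tendsto_nhds]
  intro ε hε
  have h1 := (dec_row h).const_mul (2 / π)
  rw [mul_zero] at h1
  obtain ⟨J, hJ⟩ := eventually_atTop.1 (h1.eventually (gt_mem_nhds hε))
  have h2 : ∀ j : ℤ, {z : ℤ | ¬ dist (V j (z + 1) + V j (z - 1) - 2 * V j z) 0 < ε}.Finite := by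
    intro j
    exact (Metric.tendsto_nhds.1 (dec_pos h j)) ε hε
  rw [eventually_cofinite]
  have h3 : (⋃ j ∈ Set.Icc (-(J : ℤ)) J, (fun z : ℤ => (j, z)) ''
      {z : ℤ | ¬ dist (V j (z + 1) + V j (z - 1) - 2 * V j z) 0 < ε}).Finite :=
    (Set.finite_Icc _ _).biUnion fun j _ => (h2 j).image _
  refine h3.subset ?_
  rintro ⟨j, z⟩ hp
  simp only [mem_ofPred_eq] at hp
  have hj : j ∈ Set.Icc (-(J : ℤ)) J := by
    by_contra hj
    have hj' : J ≤ j.natAbs := by
      simp only [Set.mem_Icc, not_and_or, not_le] at hj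
      omega
    refine hp ?_
    rw [Real.dist_eq, sub_zero]
    exact lt_of_le_of_lt (abs_diff2_le h j z) (hJ _ hj')
  simp only [mem_iUnion, mem_image, mem_ofPred_eq, Prod.mk.injEq]
  exact ⟨j, hj, z, hp, rfl, rfl⟩

end Vale.Agent.P153.GFF
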