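import Vale.Agent.P153.GFF.Close
import Vale.Agent.P153.GFF.SpecDec
import Vale.Agent.P153.GFF.G1
import Vale.Agent.P153.GFF.G2

/-!
# P153 GFF: limit of the characteristic functions and the variance from the row outputs
-/

open MeasureTheory ProbabilityTheory Filter Topology Set

namespace Vale.Agent.P153.GFF

open Vale.Agent.P153.CLT (coord_bdd integrable_mul_coord measurable_coord msd_eq hev)

variable {P : Measure (ℤ × ℤ → ℤ)} {f : ℝ × ℝ → ℝ} {K κ : ℝ}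

/-! ### Change of variables -/

lemma int_swap_mul {E : Type*} [NormedAddCommGroup E] [NormedSpace ℝ E] {a : ℝ} (ha : 0 < a)
    (F : ℝ × ℝ → E) : ∫ p : ℝ × ℝ, F (p.2, a * p.1) = a⁻¹ • ∫ p, F p := by
  have h1 : Measure.map (fun p : ℝ × ℝ => (p.2, a * p.1)) volume =
      ENNReal.ofReal a⁻¹ • volume := by
    have e : (fun p : ℝ × ℝ => (p.2, a * p.1)) = Prod.swap ∘ (Prod.map (fun x => a * x) id) := by
      ext p <;> rfl
    rw [e, ← Measure.map_map measurable_swap (by fun_prop), Measure.volume_eq_prod,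
      ← Measure.map_prod_map _ _ (by fun_prop) measurable_id, Real.map_volume_mul_left ha.ne',
      Measure.map_id, abs_of_pos (inv_pos.2 ha), Measure.prod_smul_left, Measure.map_smul,
      Measure.prod_swap]
  have h2 : MeasurableEmbedding (fun p : ℝ × ℝ => (p.2, a * p.1)) :=
    ((Homeomorph.prodComm ℝ ℝ).trans
      ((Homeomorph.refl ℝ).prodCongr (Homeomorph.mulLeft₀ a ha.ne'))).measurableEmbedding
  rw [← h2.integral_map F, h1, integral_smul_measure, ENNReal.toReal_ofReal (by positivity)]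

lemma FT_ft (f : ℝ × ℝ → ℝ) (w q : ℝ) : TwoPt.FT (ft f) w q = ftR f (q, w / √3) := by
  have h3 : (0 : ℝ) < √3 := by positivity
  have h1 := int_swap_mul h3 (fun z : ℝ × ℝ => ((√3 * f z : ℝ) : ℂ) *
    Complex.exp (Complex.I * ((w * (z.2 / √3) + q * z.1 : ℝ) : ℂ)))
  unfold TwoPt.FT ftR ft
  have h2 : (fun z : ℝ × ℝ => ((√3 * f (z.2, √3 * z.1) : ℝ) : ℂ) *
      Complex.exp (Complex.I * ((w * z.1 + q * z.2 : ℝ) : ℂ))) = fun p : ℝ × ℝ =>
      ((√3 * f (p.2, √3 * p.1) : ℝ) : ℂ) *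
      Complex.exp (Complex.I * ((w * (√3 * p.1 / √3) + q * p.2 : ℝ) : ℂ)) := by
    ext p
    rw [mul_div_cancel_left₀ _ h3.ne']
  rw [h2, h1, ← integral_smul]
  congr 1
  ext p
  rw [Complex.real_smul]
  have h4 : (((√3)⁻¹ : ℝ) : ℂ) * (((√3 * f p : ℝ) : ℂ) *
      Complex.exp (Complex.I * ((w * (p.2 / √3) + q * p.1 : ℝ) : ℂ))) =
      (((√3)⁻¹ * (√3 * f p) : ℝ) : ℂ) *
      Complex.exp (Complex.I * ((w * (p.2 / √3) + q * p.1 : ℝ) : ℂ)) := by
    push_cast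
    ring
  rw [h4, inv_mul_cancel_left₀ h3.ne']
  have h5 : w * (p.2 / √3) + q * p.1 = q * p.1 + w / √3 * p.2 := by ring
  rw [h5]

lemma sig_ft (hf : Test f) : TwoPt.sig (√3) κ (ft f) = κ / √3 * gffCov f f := by
  have h3 : (0 : ℝ) < √3 := by positivity
  have hsq : √3 ^ 2 = 3 := Real.sq_sqrt (by norm_num)
  obtain ⟨_, h1⟩ := g1 f hf
  unfold TwoPt.sig
  have h2 := int_swap_mul (inv_pos.2 h3)
    (fun z : ℝ × ℝ => ‖ftR f z‖ ^ 2 / (3 * (z.1 ^ 2 + z.2 ^ 2)))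
  have h4 : (fun p : ℝ × ℝ => ‖TwoPt.FT (ft f) p.1 p.2‖ ^ 2 / (√3 ^ 2 * p.2 ^ 2 + p.1 ^ 2)) =
      fun p : ℝ × ℝ => ‖ftR f (p.2, (√3)⁻¹ * p.1)‖ ^ 2 /
        (3 * (p.2 ^ 2 + ((√3)⁻¹ * p.1) ^ 2)) := by
    ext p
    have e1 : p.1 / √3 = (√3)⁻¹ * p.1 := by ring
    have e2 : 3 * (p.2 ^ 2 + ((√3)⁻¹ * p.1) ^ 2) = √3 ^ 2 * p.2 ^ 2 + p.1 ^ 2 := by
      rw [mul_pow, inv_pow, hsq]
      ring
    rw [FT_ft, e1, e2]
  rw [h4, h2, inv_inv, smul_eq_mul, ← h1]
  have h5 : ∫ p : ℝ × ℝ, ‖ftR f p‖ ^ 2 / (3 * (p.1 ^ 2 + p.2 ^ 2)) =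
      1 / 3 * ∫ p : ℝ × ℝ, ‖ftR f p‖ ^ 2 / (p.1 ^ 2 + p.2 ^ 2) := by
    rw [← integral_const_mul]
    congr 1
    ext p
    rw [div_mul_eq_div_div]
    ring
  rw [h5]
  have h6 : κ / √3 = κ * √3 / 3 := by
    rw [div_eq_div_iff h3.ne' (by norm_num)]
    calc κ * 3 = κ * √3 ^ 2 := by rw [hsq]
      _ = κ * √3 * √3 := by ring
  rw [h6]
  ring

/-! ### Characteristic functions -/

lemma norm_exp_sub (a b : ℝ) :
    ‖Complex.exp (Complex.I * (a : ℂ)) - Complex.exp (Complex.I * (b : ℂ))‖ ≤ |a - b| := by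
  have h : Complex.exp (Complex.I * (a : ℂ)) - Complex.exp (Complex.I * (b : ℂ)) =
      Complex.exp (Complex.I * (b : ℂ)) * (Complex.exp (Complex.I * ((a - b : ℝ) : ℂ)) - 1) := by
    rw [mul_sub, mul_one, ← Complex.exp_add]
    congr 2
    push_cast
    ring
  have h2 : ‖Complex.exp (Complex.I * (b : ℂ))‖ = 1 := by
    rw [mul_comm, Complex.norm_exp_ofReal_mul_I]
  rw [h, norm_mul, h2, one_mul]
  exact Real.norm_exp_I_mul_ofReal_sub_one_le

lemma int_exp [IsProbabilityMeasure P] {X : (ℤ × ℤ → ℤ) → ℝ} (hX : Measurable X) :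
    Integrable (fun φ => Complex.exp (Complex.I * (X φ : ℂ))) P := by
  refine Integrable.of_bound (C := 1) ?_ (ae_of_all _ fun φ => ?_)
  · exact (Complex.measurable_exp.comp
      ((Complex.measurable_ofReal.comp hX).const_mul _)).aestronglyMeasurable
  · rw [mul_comm, Complex.norm_exp_ofReal_mul_I]

lemma char_tendsto [IsProbabilityMeasure P] {X Y : ℕ → (ℤ × ℤ → ℤ) → ℝ}
    (hX : ∀ n, Measurable (X n)) (hY : ∀ n, Measurable (Y n))
    (hi : ∀ n, Integrable (fun φ => (X n φ - Y n φ) ^ 2) P)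
    (h2 : Tendsto (fun n => ∫ φ, (X n φ - Y n φ) ^ 2 ∂P) atTop (𝓝 0)) {c : ℂ}
    (hc : Tendsto (fun n => ∫ φ, Complex.exp (Complex.I * (Y n φ : ℂ)) ∂P) atTop (𝓝 c)) :
    Tendsto (fun n => ∫ φ, Complex.exp (Complex.I * (X n φ : ℂ)) ∂P) atTop (𝓝 c) := by
  have key : ∀ n, ∀ ε > 0, ‖(∫ φ, Complex.exp (Complex.I * (X n φ : ℂ)) ∂P) -
      ∫ φ, Complex.exp (Complex.I * (Y n φ : ℂ)) ∂P‖ ≤
      ε + ε⁻¹ * ∫ φ, (X n φ - Y n φ) ^ 2 ∂P := by
    intro n ε hε
    rw [← integral_sub (int_exp (hX n)) (int_exp (hY n))]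
    have h3 : ∫ φ, (ε + ε⁻¹ * (X n φ - Y n φ) ^ 2) ∂P =
        ε + ε⁻¹ * ∫ φ, (X n φ - Y n φ) ^ 2 ∂P := by
      rw [integral_add (integrable_const _) ((hi n).const_mul _), integral_const_mul]
      simp
    rw [← h3]
    apply norm_integral_le_of_norm_le ((integrable_const _).add ((hi n).const_mul _))
    refine ae_of_all _ fun φ => ?_
    refine (norm_exp_sub _ _).trans ?_
    show |X n φ - Y n φ| ≤ ε + ε⁻¹ * (X n φ - Y n φ) ^ 2
    rw [← sq_abs]
    set u := |X n φ - Y n φ| with hu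
    have hu0 : 0 ≤ u := abs_nonneg _
    have h4 : ε * (ε + ε⁻¹ * u ^ 2) = ε ^ 2 + u ^ 2 := by
      field_simp
    have h5 : ε * u ≤ ε * (ε + ε⁻¹ * u ^ 2) := by
      rw [h4]
      nlinarith [sq_nonneg (ε - u)]
    exact le_of_mul_le_mul_left h5 hε
  have h0 : Tendsto (fun n => (∫ φ, Complex.exp (Complex.I * (X n φ : ℂ)) ∂P) -
      ∫ φ, Complex.exp (Complex.I * (Y n φ : ℂ)) ∂P) atTop (𝓝 0) := by
    rw [Metric.tendsto_atTop']
    intro η hη
    have h4 : Tendsto (fun n => η / 2 + (η / 2)⁻¹ * ∫ φ, (X n φ - Y n φ) ^ 2 ∂P) atTop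
        (𝓝 (η / 2 + (η / 2)⁻¹ * 0)) := (h2.const_mul _).const_add _
    rw [mul_zero, add_zero] at h4
    obtain ⟨N, hN⟩ := Filter.eventually_atTop.1 (h4.eventually (gt_mem_nhds (half_lt_self hη)))
    refine ⟨N, fun n hn => ?_⟩
    rw [dist_zero_right]
    exact (key n (η / 2) (half_pos hη)).trans_lt (hN n hn.le)
  have h6 := h0.add hc
  rw [zero_add] at h6
  refine h6.congr fun n => ?_
  ring

lemma measurable_smear {δ : ℝ} (hf : Csts f K) (hδ : 0 < δ) :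
    Measurable fun φ : ℤ × ℤ → ℤ => smear φ δ f := by
  have : (fun φ : ℤ × ℤ → ℤ => smear φ δ f) =
      fun φ => ∑ v ∈ (wt_support_finite hf hδ).toFinset,
        (1 * wt δ f v) * ((φ v : ℤ) : ℝ) := by
    ext φ
    rw [smear_finsum hf hδ, ← finsum_stat]
    apply finsum_congr
    intro v
    ring
  rw [this]
  exact Finset.measurable_sum _ fun v _ => (measurable_coord v).const_mul _

lemma measurable_rowS {δ : ℝ} (hf : Csts f K) (hδ : 0 < δ) :
    Measurable fun φ : ℤ × ℤ → ℤ => rowS δ f φ := by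
  have hb : (Function.support fun p : ℤ × ℤ => rowW δ f p.1 p.2).Finite := by
    apply ((fs_ev (wt_support_finite hf hδ)).union
      (fs_ev' (wt_support_finite hf hδ))).subset
    intro v hv
    rw [Set.mem_union, Function.mem_support, Function.mem_support]
    rw [Function.mem_support] at hv
    by_contra hcon
    rw [not_or, not_not, not_not] at hcon
    apply hv
    unfold rowW
    rw [hcon.1, hcon.2, add_zero]
  have : (fun φ : ℤ × ℤ → ℤ => rowS δ f φ) =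
      fun φ => ∑ p ∈ hb.toFinset, rowW δ f p.1 p.2 * ((φ (ev p.1 p.2) : ℤ) : ℝ) := by
    ext φ
    unfold rowS
    apply finsum_eq_sum_of_support_subset
    intro v hv
    rw [Function.mem_support] at hv
    rw [Finset.mem_coe, Set.Finite.mem_toFinset, Function.mem_support]
    intro h
    apply hv
    rw [h, zero_mul]
  rw [this]
  exact Finset.measurable_sum _ fun v _ => (measurable_coord _).const_mul _

lemma grow_row (hS : SpecOut P κ) : Tendsto (fun p : ℤ × ℤ => Vrow P p.1 p.2 /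
    Real.log (√((p.2 : ℝ) ^ 2 + (√3) ^ 2 * (p.1 : ℝ) ^ 2))) cofinite (𝓝 (κ / (√3 * Real.pi))) := by
  obtain ⟨m, C, k0, h⟩ := hS
  exact g2 (Vrow P) m (√3) κ C k0 h

lemma ft_diff (hf : Test f) : ContDiff ℝ 2 (ft f) := by
  have h1 : ContDiff ℝ 2 f := by exact_mod_cast contDiff_infty.1 hf.1 2
  unfold ft
  exact contDiff_const.mul (h1.comp (contDiff_snd.prodMk (contDiff_const.mul contDiff_fst)))

lemma ft_int (hf : Test f) : ∫ z, ft f z = 0 := by
  have h3 : (0 : ℝ) < √3 := by positivity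
  have h1 := int_swap_mul h3 (fun z : ℝ × ℝ => √3 * f z)
  unfold ft
  rw [h1, integral_const_mul, hf.2.2, mul_zero, smul_zero]

theorem char_seq (hP : Plane P) (hS : SpecOut P κ) (hC : RowCLT P κ) (hf : Test f) (δ : ℕ → ℝ)
    (hδ : ∀ n, 0 < δ n) (hδ1 : ∀ n, δ n ≤ 1) (ht : Tendsto δ atTop (𝓝 0)) :
    Tendsto (fun n => ∫ φ : ℤ × ℤ → ℤ, Complex.exp (Complex.I * ((smear φ (δ n) f : ℝ) : ℂ)) ∂P)
      atTop (𝓝 (Complex.exp (-((κ / √3 * gffCov f f / 2 : ℝ) : ℂ)))) := by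
  have := hP.prob
  obtain ⟨K, hK⟩ := hf.csts
  obtain ⟨A, hA0, hA⟩ := growth (grow_row hS)
  obtain ⟨m, C, k0, hspec⟩ := hS
  obtain ⟨c1, c2⟩ := close hP (dec hspec) hA0 hA hK δ hδ hδ1 ht
  have h1 := hC (ft f) (fun n => 1 / δ n) (fun n j x => rowW (δ n) f j x) (8 * K + 20)
    (ft_diff hf) (ft_int hf) (disc hK hf.2.2 δ hδ hδ1 ht)
  rw [sig_ft hf] at h1
  exact char_tendsto (fun n => measurable_smear hK (hδ n)) (fun n => measurable_rowS hK (hδ n))
    c2 c1 h1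

theorem char_fun (hP : Plane P) (hS : SpecOut P κ) (hC : RowCLT P κ) (hf : Test f) :
    Tendsto (fun δ : ℝ => ∫ φ : ℤ × ℤ → ℤ, Complex.exp (Complex.I * ((smear φ δ f : ℝ) : ℂ)) ∂P)
      (𝓝[>] 0) (𝓝 (Complex.exp (-((κ / √3 * gffCov f f / 2 : ℝ) : ℂ)))) := by
  rw [tendsto_iff_seq_tendsto]
  intro u hu
  have h1 : ∀ᶠ n in atTop, 0 < u n ∧ u n ≤ 1 := by
    have a1 : ∀ᶠ x : ℝ in 𝓝[>] 0, 0 < x ∧ x ≤ 1 := by
      have := Ioc_mem_nhdsGT (zero_lt_one' ℝ)
      filter_upwards [this] with x hx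
      exact hx
    exact hu.eventually a1
  classical
  set δ : ℕ → ℝ := fun n => if 0 < u n ∧ u n ≤ 1 then u n else 1 with hd
  have h2 : ∀ᶠ n in atTop, δ n = u n := by
    filter_upwards [h1] with n hn
    rw [hd]
    simp only
    rw [if_pos hn]
  have h3 : ∀ n, 0 < δ n := by
    intro n
    rw [hd]
    simp only
    split_ifs with h
    · exact h.1
    · exact one_pos
  have h4 : ∀ n, δ n ≤ 1 := by
    intro n
    rw [hd]
    simp only
    split_ifs with h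
    · exact h.2
    · exact le_rfl
  have h5 : Tendsto δ atTop (𝓝 0) :=
    (tendsto_nhds_of_tendsto_nhdsWithin hu).congr' (h2.mono fun n hn => hn.symm)
  refine (char_seq hP hS hC hf δ h3 h4 h5).congr' ?_
  filter_upwards [h2] with n hn
  rw [Function.comp_apply, hn]

/-! ### Variance -/

lemma var2_rot (hP : Plane P) (x : ℤ × ℤ) : var2 P (rot x) = var2 P x := by
  unfold var2
  exact int_rot hP (G := fun φ => ((φ x : ℤ) : ℝ) ^ 2) ((measurable_coord x).pow_const 2)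

lemma len_rot (x : ℤ × ℤ) : len (rot x) = len x := by
  unfold len rot
  congr 1
  push_cast
  ring

lemma len_ev (p : ℤ × ℤ) : len (ev p.1 p.2) = √((p.2 : ℝ) ^ 2 + (√3) ^ 2 * (p.1 : ℝ) ^ 2) := by
  have hsq : √3 ^ 2 = 3 := Real.sq_sqrt (by norm_num)
  unfold len ev
  rw [hsq]
  congr 1
  push_cast
  ring

theorem var_lim (hP : Plane P) (hS : SpecOut P κ) :
    Tendsto (fun x : ℤ × ℤ => var2 P x / Real.log (len x)) cofinite
      (𝓝 (κ / (√3 * Real.pi))) := by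
  set g : ℤ × ℤ → ℝ := fun x => var2 P x / Real.log (len x) with hg
  have hrot : ∀ x, g (rot x) = g x := by
    intro x
    rw [hg]
    simp only
    rw [var2_rot hP, len_rot]
  have h1 : Tendsto (fun p : ℤ × ℤ => g (ev p.1 p.2)) cofinite (𝓝 (κ / (√3 * Real.pi))) := by
    refine (grow_row hS).congr fun p => ?_
    rw [hg]
    simp only
    rw [len_ev]
    rfl
  rw [Metric.tendsto_nhds]
  intro ε hε
  have h2 := (Metric.tendsto_nhds.1 h1) ε hε
  rw [Filter.eventually_cofinite] at h2 ⊢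
  set E : Set (ℤ × ℤ) := (fun p : ℤ × ℤ => ev p.1 p.2) ''
    {p : ℤ × ℤ | ¬dist (g (ev p.1 p.2)) (κ / (√3 * Real.pi)) < ε} with hE
  have hEf : E.Finite := h2.image _
  have hmem : ∀ x : ℤ × ℤ, 2 ∣ x.2 → ¬dist (g x) (κ / (√3 * Real.pi)) < ε → x ∈ E := by
    intro x hx hd
    obtain ⟨j, hj⟩ := hx
    refine ⟨(j, x.1 + j), ?_, ?_⟩
    · have : ev j (x.1 + j) = x := by
        unfold ev
        ext
        · simp
        · exact hj.symm
      show ¬dist (g (ev j (x.1 + j))) (κ / (√3 * Real.pi)) < ε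
      rw [this]
      exact hd
    · show ev j (x.1 + j) = x
      unfold ev
      ext
      · simp
      · exact hj.symm
  apply ((hEf.union (hEf.preimage rotE.injective.injOn)).union
    ((hEf.preimage rotE.injective.injOn).preimage rotE.injective.injOn)).subset
  intro x hx
  rw [Set.mem_ofPred_eq] at hx
  by_cases h3 : (2 : ℤ) ∣ x.2
  · left; left
    exact hmem x h3 hx
  · by_cases h4 : (2 : ℤ) ∣ x.1 + x.2
    · left; right
      apply hmem (rot x) h4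
      rw [hrot]
      exact hx
    · right
      apply hmem (rot (rot x))
      · show (2 : ℤ) ∣ -x.2 + (x.1 + x.2)
        omega
      · rw [hrot, hrot]
        exact hx

end Vale.Agent.P153.GFF
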