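import Vale.Agent.P153.GFF.RowDisc
import Vale.Agent.P153.CLT.PlaneVar

/-!
# P153 GFF: staggered sums of the even rows vanish in mean square
-/

open MeasureTheory Filter Topology Set

namespace Vale.Agent.P153.GFF

open Vale.Agent.P153.CLT (coord_bdd integrable_mul_coord measurable_coord msd_eq hev)

variable {P : Measure (ℤ × ℤ → ℤ)}

/-- the four cosets of `2ℤ²` -/
def four (q : (ℤ × ℤ) × (Bool × Bool)) : ℤ × ℤ :=
  (2 * q.1.1 + if q.2.1 then 1 else 0, 2 * q.1.2 + if q.2.2 then 1 else 0)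

def fourE : (ℤ × ℤ) × (Bool × Bool) ≃ ℤ × ℤ where
  toFun := four
  invFun v := ((v.1 / 2, v.2 / 2), (decide (v.1 % 2 = 1), decide (v.2 % 2 = 1)))
  left_inv := by
    rintro ⟨⟨j, z⟩, b, c⟩
    cases b <;> cases c <;> simp [four] <;> omega
  right_inv := by
    rintro ⟨x, y⟩
    rcases Int.emod_two_eq_zero_or_one x with h | h <;>
      rcases Int.emod_two_eq_zero_or_one y with h' | h' <;>
      simp only [four, h, h'] <;> ext <;> simp <;> omega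

lemma finsum_four {F : ℤ × ℤ → ℝ} (hF : (Function.support F).Finite) :
    ∑ᶠ v, F v = ∑ᶠ w : ℤ × ℤ, (F (2 * w.1, 2 * w.2) + F (2 * w.1 + 1, 2 * w.2) +
      F (2 * w.1, 2 * w.2 + 1) + F (2 * w.1 + 1, 2 * w.2 + 1)) := by
  rw [← finsum_comp_equiv fourE (f := F), finsum_curry]
  · apply finsum_congr
    intro p
    rw [finsum_eq_sum_of_fintype, Fintype.sum_prod_type, Fintype.sum_bool, Fintype.sum_bool,
      Fintype.sum_bool]
    simp [fourE, four]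
    ring
  · show (fourE ⁻¹' (Function.support F)).Finite
    exact hF.preimage fourE.injective.injOn

/-- staggering: `1` on (odd, even), `-1` on (even, even), `0` on the odd rows -/
noncomputable def s0 (v : ℤ × ℤ) : ℝ :=
  (if 2 ∣ v.2 then 1 else 0) - 2 * (if 2 ∣ v.1 ∧ 2 ∣ v.2 then 1 else 0)

lemma s0_four (w : ℤ × ℤ) : s0 (2 * w.1, 2 * w.2) = -1 ∧ s0 (2 * w.1 + 1, 2 * w.2) = 1 ∧
    s0 (2 * w.1, 2 * w.2 + 1) = 0 ∧ s0 (2 * w.1 + 1, 2 * w.2 + 1) = 0 := by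
  have h1 : ¬(2 : ℤ) ∣ 2 * w.1 + 1 := by omega
  have h2 : ¬(2 : ℤ) ∣ 2 * w.2 + 1 := by omega
  refine ⟨?_, ?_, ?_, ?_⟩ <;> unfold s0 <;> simp [h1, h2]
  norm_num

/-- the horizontal gradient at the even-even site `2 w` -/
noncomputable def gr (w : ℤ × ℤ) (φ : ℤ × ℤ → ℤ) : ℝ :=
  (φ (2 * w.1 + 1, 2 * w.2) : ℝ) - φ (2 * w.1, 2 * w.2)

lemma ev_two (w : ℤ × ℤ) : (2 * w.1, 2 * w.2) = ev w.2 (2 * w.1 + w.2) := by
  unfold ev
  ext <;> simp

lemma ev_two' (w : ℤ × ℤ) : (2 * w.1 + 1, 2 * w.2) = ev w.2 (2 * w.1 + w.2 + 1) := by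
  unfold ev
  ext <;> simp
  ring

lemma measurable_gr (w : ℤ × ℤ) : Measurable (gr w) :=
  (measurable_coord _).sub (measurable_coord _)

lemma gr_le (hP : Plane P) (w : ℤ × ℤ) : ∀ᵐ φ ∂P, |gr w φ| ≤ 1 := by
  filter_upwards [hP.lip] with φ h
  have h1 := h (2 * w.1 + 1, 2 * w.2) (2 * w.1, 2 * w.2) (by
    unfold Adj
    simp)
  unfold gr
  exact_mod_cast h1

/-- correlations of the horizontal gradients -/
lemma gr_corr (hP : Plane P) (w w' : ℤ × ℤ) : ∫ φ, gr w φ * gr w' φ ∂P =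
    1 / 2 * (Vrow P (w.2 - w'.2) (2 * (w.1 - w'.1) + (w.2 - w'.2) + 1) +
      Vrow P (w.2 - w'.2) (2 * (w.1 - w'.1) + (w.2 - w'.2) - 1) -
      2 * Vrow P (w.2 - w'.2) (2 * (w.1 - w'.1) + (w.2 - w'.2))) := by
  set a : ℤ × ℤ := (w.2, 2 * w.1 + w.2 + 1) with ha
  set b : ℤ × ℤ := (w.2, 2 * w.1 + w.2) with hb
  set c : ℤ × ℤ := (w'.2, 2 * w'.1 + w'.2 + 1) with hc
  set d : ℤ × ℤ := (w'.2, 2 * w'.1 + w'.2) with hd
  have hi : ∀ p q : ℤ × ℤ, Integrable (fun φ => (hev p φ - hev q φ) ^ 2) P := by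
    intro p q
    have e : (fun φ => (hev p φ - hev q φ) ^ 2) = fun φ => hev p φ * hev p φ -
        (hev p φ * hev q φ + hev p φ * hev q φ) + hev q φ * hev q φ := by
      ext φ
      ring
    rw [e]
    exact ((integrable_mul_coord hP _ _).sub ((integrable_mul_coord hP _ _).add
      (integrable_mul_coord hP _ _))).add (integrable_mul_coord hP _ _)
  have h1 : ∀ φ, gr w φ * gr w' φ = 1 / 2 * ((hev a φ - hev d φ) ^ 2 + (hev b φ - hev c φ) ^ 2 -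
      (hev a φ - hev c φ) ^ 2 - (hev b φ - hev d φ) ^ 2) := by
    intro φ
    unfold gr hev
    rw [ev_two, ev_two', ev_two w', ev_two' w', ha, hb, hc, hd]
    ring
  simp_rw [h1]
  have i1 : Integrable (fun φ => (hev a φ - hev d φ) ^ 2 + (hev b φ - hev c φ) ^ 2) P :=
    (hi _ _).add (hi _ _)
  have i2 : Integrable (fun φ => (hev a φ - hev d φ) ^ 2 + (hev b φ - hev c φ) ^ 2 -
      (hev a φ - hev c φ) ^ 2) P := i1.sub (hi _ _)
  rw [integral_const_mul, integral_sub i2 (hi _ _), integral_sub i1 (hi _ _),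
    integral_add (hi _ _) (hi _ _), msd_eq hP, msd_eq hP, msd_eq hP, msd_eq hP]
  have e1 : a.2 - d.2 = 2 * (w.1 - w'.1) + (w.2 - w'.2) + 1 := by simp only [ha, hd]; ring
  have e2 : b.2 - c.2 = 2 * (w.1 - w'.1) + (w.2 - w'.2) - 1 := by simp only [hb, hc]; ring
  have e3 : a.2 - c.2 = 2 * (w.1 - w'.1) + (w.2 - w'.2) := by simp only [ha, hc]; ring
  have e4 : b.2 - d.2 = 2 * (w.1 - w'.1) + (w.2 - w'.2) := by simp only [hb, hd]; ring
  rw [e1, e2, e3, e4]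
  simp only [ha, hb, hc, hd]
  ring

lemma gr_int (hP : Plane P) (w w' : ℤ × ℤ) : Integrable (fun φ => gr w φ * gr w' φ) P := by
  have := hP.prob
  refine Integrable.of_bound ((measurable_gr w).mul (measurable_gr w')).aestronglyMeasurable 1 ?_
  filter_upwards [gr_le hP w, gr_le hP w'] with φ h1 h2
  rw [Real.norm_eq_abs, abs_mul]
  nlinarith [abs_nonneg (gr w φ), abs_nonneg (gr w' φ)]

/-- decay of the correlations of the horizontal gradients -/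
lemma gr_dec (hP : Plane P) (hdec : Tendsto (fun p : ℤ × ℤ => Vrow P p.1 (p.2 + 1) +
    Vrow P p.1 (p.2 - 1) - 2 * Vrow P p.1 p.2) cofinite (𝓝 0)) {ε : ℝ} (hε : 0 < ε) :
    ∃ T : Finset (ℤ × ℤ), ∀ w w' : ℤ × ℤ, w - w' ∉ T → |∫ φ, gr w φ * gr w' φ ∂P| ≤ ε := by
  have hinj : Function.Injective fun t : ℤ × ℤ => ((t.2, 2 * t.1 + t.2) : ℤ × ℤ) := by
    intro a b h
    simp only [Prod.mk.injEq] at h
    ext
    · omega
    · omega
  have h1 := hdec.comp hinj.tendsto_cofinite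
  have h2 := h1.eventually (Metric.ball_mem_nhds (0 : ℝ) hε)
  rw [Filter.eventually_cofinite] at h2
  refine ⟨h2.toFinset, fun w w' h => ?_⟩
  rw [Set.Finite.mem_toFinset, Set.mem_ofPred_eq, not_not, Function.comp_apply, Real.dist_eq,
    sub_zero] at h
  rw [gr_corr hP, abs_mul]
  simp only [Prod.fst_sub, Prod.snd_sub] at h
  rw [abs_of_pos (by norm_num : (0 : ℝ) < 1 / 2)]
  linarith

lemma gr_corr_le (hP : Plane P) (w w' : ℤ × ℤ) : |∫ φ, gr w φ * gr w' φ ∂P| ≤ 1 := by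
  have := hP.prob
  rw [← Real.norm_eq_abs]
  refine (norm_integral_le_of_norm_le_const (C := 1) ?_).trans ?_
  · filter_upwards [gr_le hP w, gr_le hP w'] with φ h1 h2
    rw [Real.norm_eq_abs, abs_mul]
    nlinarith [abs_nonneg (gr w φ), abs_nonneg (gr w' φ)]
  · simp

/-- first part: weighted sums of the gradients -/
lemma sum_gr_le (hP : Plane P) (U : Finset (ℤ × ℤ)) (β : ℤ × ℤ → ℝ) {m ε : ℝ}
    (hβ : ∀ w, |β w| ≤ m) (T : Finset (ℤ × ℤ))
    (hT : ∀ w w' : ℤ × ℤ, w - w' ∉ T → |∫ φ, gr w φ * gr w' φ ∂P| ≤ ε) (hε : 0 ≤ ε) :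
    ∫ φ, (∑ w ∈ U, β w * gr w φ) ^ 2 ∂P ≤ m ^ 2 * (U.card * (T.card + ε * U.card)) := by
  have hm : 0 ≤ m := (abs_nonneg _).trans (hβ 0)
  have h1 : ∀ φ, (∑ w ∈ U, β w * gr w φ) ^ 2 =
      ∑ w ∈ U, ∑ w' ∈ U, (β w * β w') * (gr w φ * gr w' φ) := by
    intro φ
    rw [sq, Finset.sum_mul_sum]
    refine Finset.sum_congr rfl fun w _ => Finset.sum_congr rfl fun w' _ => ?_
    ring
  simp_rw [h1]
  rw [integral_finsetSum _ fun w _ => integrable_finsetSum _ fun w' _ =>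
    (gr_int hP w w').const_mul _]
  have h2 : ∀ w ∈ U, ∫ φ, ∑ w' ∈ U, (β w * β w') * (gr w φ * gr w' φ) ∂P ≤
      m ^ 2 * (T.card + ε * U.card) := by
    intro w _
    rw [integral_finsetSum _ fun w' _ => (gr_int hP w w').const_mul _]
    have h3 : ∀ w' ∈ U, ∫ φ, (β w * β w') * (gr w φ * gr w' φ) ∂P ≤
        m ^ 2 * ((if w - w' ∈ T then 1 else 0) + ε) := by
      intro w' _
      rw [integral_const_mul]
      refine (le_abs_self _).trans ?_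
      rw [abs_mul, abs_mul, sq]
      have h4 : |∫ φ, gr w φ * gr w' φ ∂P| ≤ (if w - w' ∈ T then 1 else 0) + ε := by
        split_ifs with h
        · linarith [gr_corr_le hP w w']
        · linarith [hT w w' h]
      exact mul_le_mul (mul_le_mul (hβ w) (hβ w') (abs_nonneg _) hm) h4 (abs_nonneg _)
        (by positivity)
    refine (Finset.sum_le_sum h3).trans ?_
    rw [← Finset.mul_sum, Finset.sum_add_distrib, Finset.sum_const, nsmul_eq_mul]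
    apply mul_le_mul_of_nonneg_left _ (by positivity)
    have h5 : (∑ w' ∈ U, if w - w' ∈ T then (1 : ℝ) else 0) ≤ T.card := by
      rw [Finset.sum_boole]
      have h6 : (U.filter fun w' => w - w' ∈ T).card ≤ T.card := by
        apply Finset.card_le_card_of_injOn (fun w' => w - w')
        · intro w' hw'
          exact (Finset.mem_filter.1 hw').2
        · intro a _ b _ hab
          exact sub_right_injective hab
      exact_mod_cast h6
    rw [mul_comm (U.card : ℝ) ε]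
    linarith
  refine (Finset.sum_le_sum h2).trans ?_
  rw [Finset.sum_const, nsmul_eq_mul]
  apply le_of_eq
  ring

/-- second part: small weights -/
lemma sum_small (hP : Plane P) (U : Finset (ℤ × ℤ)) (g : ℤ × ℤ → ℤ × ℤ) (γ : ℤ × ℤ → ℝ) {m v : ℝ}
    (hγ : ∀ w ∈ U, |γ w| ≤ m) (hv : ∀ w ∈ U, var2 P (g w) ≤ v) :
    ∫ φ, (∑ w ∈ U, γ w * (φ (g w) : ℝ)) ^ 2 ∂P ≤ m ^ 2 * (U.card ^ 2 * v) := by
  have h1 : ∀ φ : ℤ × ℤ → ℤ, (∑ w ∈ U, γ w * (φ (g w) : ℝ)) ^ 2 ≤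
      U.card * ∑ w ∈ U, m ^ 2 * (φ (g w) : ℝ) ^ 2 := by
    intro φ
    refine (sq_sum_le_card_mul_sum_sq).trans ?_
    apply mul_le_mul_of_nonneg_left _ (by positivity)
    refine Finset.sum_le_sum fun w hw => ?_
    rw [mul_pow]
    apply mul_le_mul_of_nonneg_right _ (by positivity)
    rw [← sq_abs (γ w)]
    exact pow_le_pow_left₀ (abs_nonneg _) (hγ w hw) 2
  have hi : ∀ w : ℤ × ℤ, Integrable (fun φ : ℤ × ℤ → ℤ => (φ w : ℝ) ^ 2) P := by
    intro w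
    have := integrable_mul_coord hP w w
    simpa [sq] using this
  have hint : Integrable (fun φ : ℤ × ℤ → ℤ =>
      (U.card : ℝ) * ∑ w ∈ U, m ^ 2 * (φ (g w) : ℝ) ^ 2) P :=
    (integrable_finsetSum _ fun w _ => (hi (g w)).const_mul _).const_mul _
  refine (integral_mono_of_nonneg (ae_of_all _ fun φ => sq_nonneg _) hint (ae_of_all _ h1)).trans ?_
  rw [integral_const_mul, integral_finsetSum _ fun w _ => (hi (g w)).const_mul _]
  have h2 : ∑ w ∈ U, ∫ φ : ℤ × ℤ → ℤ, m ^ 2 * (φ (g w) : ℝ) ^ 2 ∂P ≤ ∑ w ∈ U, m ^ 2 * v := by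
    refine Finset.sum_le_sum fun w hw => ?_
    rw [integral_const_mul]
    exact mul_le_mul_of_nonneg_left (hv w hw) (by positivity)
  rw [Finset.sum_const, nsmul_eq_mul] at h2
  refine (mul_le_mul_of_nonneg_left h2 (by positivity)).trans (le_of_eq ?_)
  ring

lemma sq_int (hP : Plane P) (U : Finset (ℤ × ℤ)) (g : ℤ × ℤ → ℤ × ℤ) (γ : ℤ × ℤ → ℝ) :
    Integrable (fun φ : ℤ × ℤ → ℤ => (∑ w ∈ U, γ w * (φ (g w) : ℝ)) ^ 2) P := by
  have h1 : (fun φ : ℤ × ℤ → ℤ => (∑ w ∈ U, γ w * (φ (g w) : ℝ)) ^ 2) =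
      fun φ => ∑ w ∈ U, ∑ w' ∈ U, (γ w * γ w') * ((φ (g w) : ℝ) * (φ (g w') : ℝ)) := by
    ext φ
    rw [sq, Finset.sum_mul_sum]
    refine Finset.sum_congr rfl fun w _ => Finset.sum_congr rfl fun w' _ => ?_
    ring
  rw [h1]
  exact integrable_finsetSum _ fun w _ => integrable_finsetSum _ fun w' _ =>
    (integrable_mul_coord hP _ _).const_mul _

lemma gr_sq_int (hP : Plane P) (U : Finset (ℤ × ℤ)) (β : ℤ × ℤ → ℝ) :
    Integrable (fun φ : ℤ × ℤ → ℤ => (∑ w ∈ U, β w * gr w φ) ^ 2) P := by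
  have h1 : (fun φ : ℤ × ℤ → ℤ => (∑ w ∈ U, β w * gr w φ) ^ 2) =
      fun φ => ∑ w ∈ U, ∑ w' ∈ U, (β w * β w') * (gr w φ * gr w' φ) := by
    ext φ
    rw [sq, Finset.sum_mul_sum]
    refine Finset.sum_congr rfl fun w _ => Finset.sum_congr rfl fun w' _ => ?_
    ring
  rw [h1]
  exact integrable_finsetSum _ fun w _ => integrable_finsetSum _ fun w' _ =>
    (gr_int hP _ _).const_mul _

/-- Staggered sums of the even rows: finite form. -/
lemma stag_fin (hP : Plane P) {ε : ℝ} (hε : 0 ≤ ε) (T : Finset (ℤ × ℤ))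
    (hT : ∀ w w' : ℤ × ℤ, w - w' ∉ T → |∫ φ, gr w φ * gr w' φ ∂P| ≤ ε) {A : ℝ} (hA0 : 0 ≤ A)
    (hA : ∀ j z : ℤ, Vrow P j z ≤ A * (1 + |(j : ℝ)| + |(z : ℝ)|)) {K : ℝ} (hK : 0 < K)
    {δ : ℝ} (hδ : 0 < δ) (hδ1 : δ ≤ 1) (b : ℤ × ℤ → ℝ) (h1 : ∀ v, |b v| ≤ K * δ ^ 2)
    (h2 : ∀ v, |b (v + (1, 0)) - b v| ≤ K * δ ^ 3)
    (h3 : ∀ v, b v ≠ 0 → |(v.1 : ℝ)| ≤ K / δ ∧ |(v.2 : ℝ)| ≤ K / δ) :
    ∫ φ, (∑ᶠ v : ℤ × ℤ, s0 v * b v * (φ v : ℝ)) ^ 2 ∂P ≤
      2 * (K ^ 2 * (2 * K + 3) ^ 2 * (δ ^ 2 * T.card + ε * (2 * K + 3) ^ 2)) +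
      2 * (K ^ 2 * (2 * K + 3) ^ 4 * (5 * A * (K + 1)) * δ) := by
  set N : ℤ := ⌈K / δ⌉ with hN
  have hNpos : 0 < N := Int.ceil_pos.2 (by positivity)
  have hN1 : K / δ ≤ N := Int.le_ceil _
  have hN2 : (N : ℝ) < K / δ + 1 := Int.ceil_lt_add_one _
  set U : Finset (ℤ × ℤ) := Finset.Icc (-N) N ×ˢ Finset.Icc (-N) N with hU
  have hsup : ∀ v, b v ≠ 0 → |v.1| ≤ N ∧ |v.2| ≤ N := by
    intro v hv
    obtain ⟨a1, a2⟩ := h3 v hv
    constructor
    · have : |(v.1 : ℝ)| ≤ N := a1.trans hN1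
      exact_mod_cast this
    · have : |(v.2 : ℝ)| ≤ N := a2.trans hN1
      exact_mod_cast this
  have hfin : (Function.support b).Finite := by
    apply Set.Finite.subset (Finset.Icc (-N) N ×ˢ Finset.Icc (-N) N : Finset (ℤ × ℤ)).finite_toSet
    intro v hv
    obtain ⟨a1, a2⟩ := hsup v hv
    rw [abs_le] at a1 a2
    rw [Finset.mem_coe, Finset.mem_product, Finset.mem_Icc, Finset.mem_Icc]
    exact ⟨a1, a2⟩
  have key : ∀ φ : ℤ × ℤ → ℤ, ∑ᶠ v : ℤ × ℤ, s0 v * b v * (φ v : ℝ) =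
      (∑ w ∈ U, b (2 * w.1 + 1, 2 * w.2) * gr w φ) +
      ∑ w ∈ U, (b (2 * w.1 + 1, 2 * w.2) - b (2 * w.1, 2 * w.2)) * (φ (2 * w.1, 2 * w.2) : ℝ) := by
    intro φ
    have hf : (Function.support fun v : ℤ × ℤ => s0 v * b v * (φ v : ℝ)).Finite := by
      apply hfin.subset
      intro v hv
      rw [Function.mem_support] at hv ⊢
      intro h
      apply hv
      rw [h, mul_zero, zero_mul]
    rw [finsum_four hf, ← Finset.sum_add_distrib]
    have e1 : ∀ w : ℤ × ℤ, s0 (2 * w.1, 2 * w.2) * b (2 * w.1, 2 * w.2) *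
        ((φ (2 * w.1, 2 * w.2) : ℤ) : ℝ) + s0 (2 * w.1 + 1, 2 * w.2) * b (2 * w.1 + 1, 2 * w.2) *
        ((φ (2 * w.1 + 1, 2 * w.2) : ℤ) : ℝ) +
      s0 (2 * w.1, 2 * w.2 + 1) * b (2 * w.1, 2 * w.2 + 1) *
        ((φ (2 * w.1, 2 * w.2 + 1) : ℤ) : ℝ) +
      s0 (2 * w.1 + 1, 2 * w.2 + 1) * b (2 * w.1 + 1, 2 * w.2 + 1) *
        ((φ (2 * w.1 + 1, 2 * w.2 + 1) : ℤ) : ℝ) =
        b (2 * w.1 + 1, 2 * w.2) * gr w φ +
        (b (2 * w.1 + 1, 2 * w.2) - b (2 * w.1, 2 * w.2)) * (φ (2 * w.1, 2 * w.2) : ℝ) := by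
      intro w
      obtain ⟨q1, q2, q3, q4⟩ := s0_four w
      rw [q1, q2, q3, q4]
      unfold gr
      ring
    simp_rw [e1]
    apply finsum_eq_sum_of_support_subset
    intro w hw
    rw [Function.mem_support] at hw
    rw [hU, Finset.mem_coe, Finset.mem_product, Finset.mem_Icc, Finset.mem_Icc]
    by_cases hb1 : b (2 * w.1 + 1, 2 * w.2) = 0
    · by_cases hb2 : b (2 * w.1, 2 * w.2) = 0
      · exfalso
        apply hw
        rw [hb1, hb2]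
        ring
      · obtain ⟨a1, a2⟩ := hsup _ hb2
        rw [abs_le] at a1 a2
        simp only at a1 a2
        omega
    · obtain ⟨a1, a2⟩ := hsup _ hb1
      rw [abs_le] at a1 a2
      simp only at a1 a2
      omega
  simp_rw [key]
  have hX := sum_gr_le hP U (fun w => b (2 * w.1 + 1, 2 * w.2)) (fun w => h1 _) T hT hε
  have hcard : (U.card : ℝ) ≤ ((2 * K + 3) / δ) ^ 2 := by
    have e : (U.card : ℝ) = (2 * N + 1) ^ 2 := by
      rw [hU, Finset.card_product, Int.card_Icc, sq]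
      push_cast
      have : ((N + 1 - -N).toNat : ℝ) = 2 * N + 1 := by
        have h : ((N + 1 - -N).toNat : ℤ) = 2 * N + 1 := by
          rw [Int.toNat_of_nonneg (by omega)]
          ring
        exact_mod_cast h
      rw [this]
    rw [e]
    have hNr : (0 : ℝ) < N := by exact_mod_cast hNpos
    apply pow_le_pow_left₀ (by positivity)
    have h5 : 1 ≤ 1 / δ := by
      rw [le_div_iff₀ hδ]
      linarith
    have h6 : (2 * K + 3) / δ = 2 * (K / δ) + 3 * (1 / δ) := by ring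
    rw [h6]
    linarith
  have hY := sum_small hP U (fun w => (2 * w.1, 2 * w.2))
    (fun w => b (2 * w.1 + 1, 2 * w.2) - b (2 * w.1, 2 * w.2)) (m := K * δ ^ 3)
    (v := 5 * A * (K + 1) / δ) (fun w _ => by
      have := h2 (2 * w.1, 2 * w.2)
      simpa using this) (fun w hw => by
      rw [hU, Finset.mem_product, Finset.mem_Icc, Finset.mem_Icc] at hw
      have e : var2 P (2 * w.1, 2 * w.2) = Vrow P w.2 (2 * w.1 + w.2) := by
        unfold Vrow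
        rw [← ev_two]
      rw [e]
      refine (hA _ _).trans ?_
      have a1 : |(w.1 : ℝ)| ≤ N := by
        rw [abs_le]
        constructor
        · exact_mod_cast hw.1.1
        · exact_mod_cast hw.1.2
      have a2 : |(w.2 : ℝ)| ≤ N := by
        rw [abs_le]
        constructor
        · exact_mod_cast hw.2.1
        · exact_mod_cast hw.2.2
      have a3 : |((2 * w.1 + w.2 : ℤ) : ℝ)| ≤ 3 * N := by
        push_cast
        refine (abs_add_le _ _).trans ?_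
        rw [abs_mul, abs_of_pos (by norm_num : (0 : ℝ) < 2)]
        linarith
      have h5 : 1 ≤ 1 / δ := by
        rw [le_div_iff₀ hδ]
        linarith
      have h6 : 5 * A * (K + 1) / δ = A * (5 * (K / δ) + 5 * (1 / δ)) := by ring
      rw [h6]
      apply mul_le_mul_of_nonneg_left _ hA0
      have h7 : 0 ≤ K / δ := by positivity
      linarith)
  have hsq : ∀ φ : ℤ × ℤ → ℤ, ((∑ w ∈ U, b (2 * w.1 + 1, 2 * w.2) * gr w φ) +
      ∑ w ∈ U, (b (2 * w.1 + 1, 2 * w.2) - b (2 * w.1, 2 * w.2)) *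
        (φ (2 * w.1, 2 * w.2) : ℝ)) ^ 2 ≤
      2 * (∑ w ∈ U, b (2 * w.1 + 1, 2 * w.2) * gr w φ) ^ 2 +
      2 * (∑ w ∈ U, (b (2 * w.1 + 1, 2 * w.2) - b (2 * w.1, 2 * w.2)) *
        (φ (2 * w.1, 2 * w.2) : ℝ)) ^ 2 := by
    intro φ
    nlinarith [sq_nonneg ((∑ w ∈ U, b (2 * w.1 + 1, 2 * w.2) * gr w φ) -
      ∑ w ∈ U, (b (2 * w.1 + 1, 2 * w.2) - b (2 * w.1, 2 * w.2)) *
        (φ (2 * w.1, 2 * w.2) : ℝ))]
  have i1 := (gr_sq_int hP U (fun w => b (2 * w.1 + 1, 2 * w.2))).const_mul 2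
  have i2 := (sq_int hP U (fun w => (2 * w.1, 2 * w.2))
    (fun w => b (2 * w.1 + 1, 2 * w.2) - b (2 * w.1, 2 * w.2))).const_mul 2
  have i3 : Integrable (fun φ : ℤ × ℤ → ℤ =>
      2 * (∑ w ∈ U, b (2 * w.1 + 1, 2 * w.2) * gr w φ) ^ 2 +
      2 * (∑ w ∈ U, (b (2 * w.1 + 1, 2 * w.2) - b (2 * w.1, 2 * w.2)) *
        (φ (2 * w.1, 2 * w.2) : ℝ)) ^ 2) P := i1.add i2
  refine (integral_mono_of_nonneg (ae_of_all _ fun φ => sq_nonneg _) i3
    (ae_of_all _ hsq)).trans ?_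
  rw [integral_add i1 i2, integral_const_mul, integral_const_mul]
  have hc0 : (0 : ℝ) ≤ U.card := by positivity
  have q1 : (K * δ ^ 2) ^ 2 * (U.card * (T.card + ε * U.card)) ≤
      K ^ 2 * (2 * K + 3) ^ 2 * (δ ^ 2 * T.card + ε * (2 * K + 3) ^ 2) := by
    have q2 : (U.card : ℝ) * (T.card + ε * U.card) ≤
        ((2 * K + 3) / δ) ^ 2 * (T.card + ε * ((2 * K + 3) / δ) ^ 2) := by
      apply mul_le_mul hcard _ (by positivity) (by positivity)
      have := mul_le_mul_of_nonneg_left hcard hε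
      linarith
    refine (mul_le_mul_of_nonneg_left q2 (by positivity)).trans (le_of_eq ?_)
    field_simp
  have q3 : (K * δ ^ 3) ^ 2 * ((U.card : ℝ) ^ 2 * (5 * A * (K + 1) / δ)) ≤
      K ^ 2 * (2 * K + 3) ^ 4 * (5 * A * (K + 1)) * δ := by
    have q4 : (U.card : ℝ) ^ 2 ≤ (((2 * K + 3) / δ) ^ 2) ^ 2 := pow_le_pow_left₀ hc0 hcard 2
    have q5 : (U.card : ℝ) ^ 2 * (5 * A * (K + 1) / δ) ≤
        (((2 * K + 3) / δ) ^ 2) ^ 2 * (5 * A * (K + 1) / δ) :=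
      mul_le_mul_of_nonneg_right q4 (by positivity)
    refine (mul_le_mul_of_nonneg_left q5 (by positivity)).trans (le_of_eq ?_)
    field_simp
  linarith

theorem stag (hP : Plane P) (hdec : Tendsto (fun p : ℤ × ℤ => Vrow P p.1 (p.2 + 1) +
    Vrow P p.1 (p.2 - 1) - 2 * Vrow P p.1 p.2) cofinite (𝓝 0)) {A : ℝ} (hA0 : 0 ≤ A)
    (hA : ∀ j z : ℤ, Vrow P j z ≤ A * (1 + |(j : ℝ)| + |(z : ℝ)|)) {K : ℝ} (hK : 0 < K)
    (δ : ℕ → ℝ) (hδ : ∀ n, 0 < δ n) (hδ1 : ∀ n, δ n ≤ 1) (ht : Tendsto δ atTop (𝓝 0))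
    (b : ℕ → ℤ × ℤ → ℝ) (h1 : ∀ n v, |b n v| ≤ K * δ n ^ 2)
    (h2 : ∀ n v, |b n (v + (1, 0)) - b n v| ≤ K * δ n ^ 3)
    (h3 : ∀ n v, b n v ≠ 0 → |(v.1 : ℝ)| ≤ K / δ n ∧ |(v.2 : ℝ)| ≤ K / δ n) :
    Tendsto (fun n => ∫ φ, (∑ᶠ v : ℤ × ℤ, s0 v * b n v * (φ v : ℝ)) ^ 2 ∂P) atTop (𝓝 0) := by
  rw [Metric.tendsto_atTop']
  intro η hη
  set c : ℝ := 2 * (K ^ 2 * (2 * K + 3) ^ 4) with hc
  have hcpos : 0 < c := by positivity
  obtain ⟨T, hT⟩ := gr_dec hP hdec (ε := η / (4 * c)) (by positivity)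
  have h4 : Tendsto (fun n => 2 * (K ^ 2 * (2 * K + 3) ^ 2 * (δ n ^ 2 * T.card)) +
      2 * (K ^ 2 * (2 * K + 3) ^ 4 * (5 * A * (K + 1)) * δ n)) atTop (𝓝 0) := by
    have e1 : Tendsto (fun n => δ n ^ 2) atTop (𝓝 0) := by simpa using ht.pow 2
    have e2 := ((e1.mul_const (T.card : ℝ)).const_mul (K ^ 2 * (2 * K + 3) ^ 2)).const_mul 2
    have e3 := (ht.const_mul (K ^ 2 * (2 * K + 3) ^ 4 * (5 * A * (K + 1)))).const_mul 2
    simpa using e2.add e3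
  obtain ⟨N, hN⟩ := Filter.eventually_atTop.1 (h4.eventually (gt_mem_nhds (half_pos hη)))
  refine ⟨N, fun n hn => ?_⟩
  have h5 := stag_fin hP (by positivity) T hT hA0 hA hK (hδ n) (hδ1 n) (b n) (h1 n) (h2 n) (h3 n)
  have h6 := hN n hn.le
  have h7 : 2 * (K ^ 2 * (2 * K + 3) ^ 2 * (δ n ^ 2 * T.card + η / (4 * c) * (2 * K + 3) ^ 2)) =
      2 * (K ^ 2 * (2 * K + 3) ^ 2 * (δ n ^ 2 * T.card)) + c * (η / (4 * c)) := by
    rw [hc]
    ring
  have h8 : c * (η / (4 * c)) = η / 4 := by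
    field_simp
  rw [Real.dist_eq, sub_zero, abs_of_nonneg (integral_nonneg fun φ => sq_nonneg _)]
  linarith

end Vale.Agent.P153.GFF
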